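import Vale.Agent.P088.R2.H269.X.Spec
import Vale.Agent.P088.R2.H437.ESTN

/-!
# P088: the two-slot estimate with gains, in the inverted chart, statement

`RowESTg` is `R2.H269.RowEST` for the operators `div (s ∇)`, without potentials, with the gains
`gn` of first order (`R2/H437/ESTN`). It gives the estimate for systems with bounded first order
coefficients, hence `RowSOLWN`, and the estimate with small potentials, hence `RowEST`.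
-/

open MeasureTheory Set
open scoped ContDiff Matrix

noncomputable section

namespace Vale.Agent.P088.S4

open Vale.Agent.P088.LR Vale.Agent.P088.HY Vale.Agent.P088.HY.T3 Vale.Agent.P088.HY.T4
open Vale.Agent.P088.R2.H269 (ky Zi QX QY PX PY Wt)
open Vale.Agent.P088.S4.H437 (gn)

variable {n : ℕ}

/-- The situation in the inverted chart: two tensors near `1` on all of `V n`, trivial off the ball
of radius `2`, equal off the unit ball. -/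
structure Ivg (K : ℕ) (ε : ℝ) (s₁ s₂ : MF n) : Prop where
  sm₁ : SmM s₁
  sm₂ : SmM s₂
  sy₁ : ∀ x, (s₁ x).IsSymm
  sy₂ : ∀ x, (s₂ x).IsSymm
  cl₁ : ∀ i j, Cl K ε (fun x => s₁ x i j - (1 : Matrix (Fin n) (Fin n) ℝ) i j)
  cl₂ : ∀ i j, Cl K ε (fun x => s₂ x i j - (1 : Matrix (Fin n) (Fin n) ℝ) i j)
  of : ∀ x ∉ Eb (0 : V n) 2, s₁ x = 1 ∧ s₂ x = 1
  eq : ∀ x : V n, 1 ≤ HY.sq x → s₂ x = s₁ x

/-- The weights in the inverted chart (as in `R2.H269.EB`), with the estimate with gains. -/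
structure EBg (s₁ s₂ : MF n) (σ a b c C ν R kap Gs G₀ C₂ : ℝ) (W w : VV n → ℝ) : Prop where
  wt : ∃ B, 0 ≤ B ∧ Wt B W
  wc : Continuous w
  w0 : ∀ z, 0 < w z
  /-- lower bound near the diagonal -/
  W1 : ∀ x ∈ Zi n, ∀ y ∈ Zi n, ‖x - y‖ ≤ 1 / R →
    ν * R * (gy n σ x - Gs) + c * ky n σ R kap Gs x ^ 2 * ‖x - y‖ ^ 2 - C ≤ W (x, y)
  /-- upper bound very near the diagonal -/
  W2 : ∀ p ∈ Ac n (1 / 15) (100 / 99), ∀ z ∈ Metric.ball (p, p) (3 * n / (R ^ C + ky n σ R kap Gs p)),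
    W z ≤ ν * max (R * (gy n σ p - Gs)) (-Real.log kap) + C * (1 + Real.log R)
  /-- the far values -/
  W3 : ∀ x ∈ Ac n (1 / 21) (100 / 99), ∀ y ∈ Ac n (1 / 21) (10 / 99),
    W (x, y) ≤ -(c * R) ∧ W (y, x) ≤ -(c * R)
  /-- the gain where the stiffness is large -/
  w1 : ∀ x ∈ Zi n, ∀ y ∈ Zi n, ‖x - y‖ ≤ 1 / R → kap ^ (1 / 4 : ℝ) ≤ ky n σ R kap Gs x →
    c * R ^ (-C) * kap ^ a * Real.exp (-(b * R * |gy n σ x - Gs|)) ≤ w (x, y)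
  /-- the gain everywhere near the diagonal -/
  w2 : ∀ x ∈ Zi n, ∀ y ∈ Zi n, ‖x - y‖ ≤ 1 / R →
    c * R ^ (-C) * kap ^ (-b) * Real.exp (-(b * R * |gy n σ x - Gs|)) ≤ w (x, y)
  est : ∃ o₁ o₂ : VV n → ℝ, Continuous o₁ ∧ Continuous o₂ ∧ (∀ z, 0 < o₁ z ∧ o₁ z ≤ C₂) ∧
    (∀ z, 0 < o₂ z ∧ o₂ z ≤ C₂) ∧
    ∀ a₁ a₂ : VV n → ℝ, ContDiff ℝ ∞ a₁ → HasCompactSupport a₁ → ContDiff ℝ ∞ a₂ →
      HasCompactSupport a₂ →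
      (∫ z, w z * (a₁ z ^ 2 + a₂ z ^ 2)) + G₀ * ∫ z, gn W a₁ a₂ z ≤
        ∫ z, (o₁ z * (QX s₁ W a₁ z + QY s₂ W a₂ z) ^ 2 +
          o₂ z * (PY s₂ W a₁ z - PX s₁ W a₂ z) ^ 2)

/-- **EST' with gains.** `C₂` is chosen before `G₀`, everything else after `G₀`. -/
def RowESTg : Prop := ∀ n : ℕ, 3 ≤ n → ∃ σ a b ν₀ : ℝ, 0 < σ ∧ σ ≤ 1 / 10 ∧ 0 < a ∧ a ≤ 4 ∧
  0 ≤ b ∧ ∀ ν : ℝ, ν₀ ≤ ν → ∃ C₂ : ℝ, 0 ≤ C₂ ∧ ∀ G₀ : ℝ, 0 ≤ G₀ →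
  ∃ (K : ℕ) (ε c C η R₀ : ℝ), 0 < ε ∧ 0 < c ∧ 0 ≤ C ∧ 0 < η ∧
  ∀ s₁ s₂ : MF n, Ivg K ε s₁ s₂ → ∀ R kap Gs : ℝ, R₀ ≤ R → 1 ≤ R →
    -η ≤ Gs → Gs ≤ 0 → 1 ≤ kap → R ^ C ≤ kap → kap ≤ Real.exp (η * R) →
    (∀ y ∈ Ac n (1 / 22) 1, 1 ≤ ky n σ R kap Gs y → ∀ i j, ∀ l ≤ K,
      ‖iteratedFDeriv ℝ l (fun x => s₂ x i j - s₁ x i j) y‖ ≤
        kap ^ (-(1 / 2) : ℝ) * ky n σ R kap Gs y ^ (-(ν / 2))) →
    ∃ W w : VV n → ℝ, EBg s₁ s₂ σ a b c C ν R kap Gs G₀ C₂ W w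

end Vale.Agent.P088.S4
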