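import Vale.Agent.P088.R2.H561.S4.SpecG

/-!
# P088: the two-slot estimate with localised gains, in the inverted chart, statement

Version 2 of `SpecG`. The gain of first order is localised (`x` derivatives where `|x| < √5`, `y`
derivatives where `|y| < √5`) and has a small constant `g₀`, the gain of order zero has an
arbitrary constant `G₀`.
-/

open MeasureTheory Set
open scoped ContDiff Matrix

noncomputable section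

namespace Vale.Agent.P088.S4

open Vale.Agent.P088.LR Vale.Agent.P088.HY Vale.Agent.P088.HY.T3 Vale.Agent.P088.HY.T4
open Vale.Agent.P088.R2.H269 (ky Zi QX QY PX PY Wt)

variable {n : ℕ}

/-- The cut of the gain: `1` for `|x| ≤ 2`, `0` for `|x|² ≥ 5`. -/
def c2 (x : V n) : ℝ := Real.smoothTransition (5 - HY.sq x)

/-- The localised quantities of first order. -/
def gf (W a₁ a₂ : VV n → ℝ) (z : VV n) : ℝ :=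
  ∑ i, (c2 z.1 * ((HY.dx i a₁ z - HY.dx i W z * a₁ z) ^ 2 +
      (HY.dx i a₂ z + HY.dx i W z * a₂ z) ^ 2) +
    c2 z.2 * ((HY.dy i a₁ z + HY.dy i W z * a₁ z) ^ 2 +
      (HY.dy i a₂ z - HY.dy i W z * a₂ z) ^ 2))

/-- The weights in the inverted chart (as in `R2.H269.EB`), with the estimate with gains. -/
structure EBh (s₁ s₂ : MF n) (σ a b c C ν R kap Gs g₀ G₀ C₂ : ℝ) (W w : VV n → ℝ) : Prop where
  wt : ∃ B, 0 ≤ B ∧ Wt B W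
  wc : Continuous w
  w0 : ∀ z, 0 < w z
  /-- lower bound near the diagonal -/
  W1 : ∀ x ∈ Zi n, ∀ y ∈ Zi n, ‖x - y‖ ≤ 1 / R →
    ν * R * (gy n σ x - Gs) + c * ky n σ R kap Gs x ^ 2 * ‖x - y‖ ^ 2 - C ≤ W (x, y)
  /-- upper bound very near the diagonal -/
  W2 : ∀ p ∈ Ac n (1 / 15) (100 / 99), ∀ z ∈ Metric.ball (p, p) (3 * n / (R ^ C + ky n σ R kap Gs p)),
    W z ≤ ν * max (R * (gy n σ p - Gs)) (-Real.log kap) + C * (1 + Real.log R)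
  /-- the far values -/
  W3 : ∀ x ∈ Ac n (1 / 21) (100 / 99), ∀ y ∈ Ac n (1 / 21) (10 / 99),
    W (x, y) ≤ -(c * R) ∧ W (y, x) ≤ -(c * R)
  /-- the gain where the stiffness is large -/
  w1 : ∀ x ∈ Zi n, ∀ y ∈ Zi n, ‖x - y‖ ≤ 1 / R → kap ^ (1 / 4 : ℝ) ≤ ky n σ R kap Gs x →
    c * R ^ (-C) * kap ^ a * Real.exp (-(b * R * |gy n σ x - Gs|)) ≤ w (x, y)
  /-- the gain everywhere near the diagonal -/
  w2 : ∀ x ∈ Zi n, ∀ y ∈ Zi n, ‖x - y‖ ≤ 1 / R →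
    c * R ^ (-C) * kap ^ (-b) * Real.exp (-(b * R * |gy n σ x - Gs|)) ≤ w (x, y)
  est : ∃ o₁ o₂ : VV n → ℝ, Continuous o₁ ∧ Continuous o₂ ∧ (∀ z, 0 < o₁ z ∧ o₁ z ≤ C₂) ∧
    (∀ z, 0 < o₂ z ∧ o₂ z ≤ C₂) ∧
    ∀ a₁ a₂ : VV n → ℝ, ContDiff ℝ ∞ a₁ → HasCompactSupport a₁ → ContDiff ℝ ∞ a₂ →
      HasCompactSupport a₂ →
      (∫ z, w z * (a₁ z ^ 2 + a₂ z ^ 2)) + g₀ * (∫ z, gf W a₁ a₂ z) +
          G₀ * (∫ z, (a₁ z ^ 2 + a₂ z ^ 2)) ≤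
        ∫ z, (o₁ z * (QX s₁ W a₁ z + QY s₂ W a₂ z) ^ 2 +
          o₂ z * (PY s₂ W a₁ z - PX s₁ W a₂ z) ^ 2)

/-- **EST' with localised gains.** `C₂` and `g₀` are chosen before `G₀`, everything else after
`G₀`. -/
def RowESTh : Prop := ∀ n : ℕ, 3 ≤ n → ∃ σ a b ν₀ : ℝ, 0 < σ ∧ σ ≤ 1 / 10 ∧ 0 < a ∧ a ≤ 4 ∧
  0 ≤ b ∧ ∀ ν : ℝ, ν₀ ≤ ν → ∃ C₂ g₀ : ℝ, 0 ≤ C₂ ∧ 0 < g₀ ∧ ∀ G₀ : ℝ, 0 ≤ G₀ →
  ∃ (K : ℕ) (ε c C η R₀ : ℝ), 0 < ε ∧ 0 < c ∧ 0 ≤ C ∧ 0 < η ∧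
  ∀ s₁ s₂ : MF n, Ivg K ε s₁ s₂ → ∀ R kap Gs : ℝ, R₀ ≤ R → 1 ≤ R →
    -η ≤ Gs → Gs ≤ 0 → 1 ≤ kap → R ^ C ≤ kap → kap ≤ Real.exp (η * R) →
    (∀ y ∈ Ac n (1 / 22) 1, 1 ≤ ky n σ R kap Gs y → ∀ i j, ∀ l ≤ K,
      ‖iteratedFDeriv ℝ l (fun x => s₂ x i j - s₁ x i j) y‖ ≤
        kap ^ (-(1 / 2) : ℝ) * ky n σ R kap Gs y ^ (-(ν / 2))) →
    ∃ W w : VV n → ℝ, EBh s₁ s₂ σ a b c C ν R kap Gs g₀ G₀ C₂ W w

end Vale.Agent.P088.S4
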