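import Vale.Agent.P088.R2.H561.S4.Ad11
import Vale.Agent.P088.R2.H349.V.Row

/-!
# P088, stage 4: `RowSOLWN` from `RowESTh`
-/

namespace Vale.Agent.P088.S4

/-- **SOLWN** follows from the two-slot estimate with localised gains. -/
theorem solWN_esth (hE : RowESTh) : RowSOLWN := H561.rowSOLWNh rowSOL3N hE

end Vale.Agent.P088.S4
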