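import Vale.Agent.P088.R2.H437.P2N

/-!
# P088, stage 4, adapter for systems, part 1: the inversion for systems in one slot, coefficients
defined everywhere
-/

open MeasureTheory Set Filter Topology
open scoped ContDiff Matrix

noncomputable section

namespace Vale.Agent.P088.S4.H561

open Vale.Agent.P088.LR Vale.Agent.P088.HY
open Vale.Agent.P088.HY.T3 hiding pd_mul
open Vale.Agent.P088.HY.H437 Vale.Agent.P088.HY.H437.Kel

variable {n m : ℕ}

/-- First order coefficients. -/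
abbrev B1 (n m : ℕ) := Fin m → Fin m → Fin n → V n → ℝ

/-- The operator `div (s ∇ w_a) + ∑ B_ab,l ∂_l w_b`. -/
def L1 (s : MF n) (B : B1 n m) (w : Fin m → V n → ℝ) (a : Fin m) (x : V n) : ℝ :=
  Ldv s (w a) x + ∑ b, ∑ l, B a b l x * pd l (w b) x

theorem cdo_pd {O : Set (V n)} (hO : IsOpen O) {f : V n → ℝ} (hf : ContDiffOn ℝ ∞ f O)
    (i : Fin n) : ContDiffOn ℝ ∞ (pd i f) O :=
  (hf.fderiv_of_isOpen hO (m := ∞) (by simp)).clm_apply contDiffOn_const

/-! ## The inversion without Kelvin factor -/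

theorem ks_sm {s : MF n} (hs : SmM s) (i j : Fin n) :
    ContDiffOn ℝ ∞ (fun y => ks s y i j) {y : V n | y ≠ 0} := by
  intro y hy
  have h1 : (fun y => ks s y i j) = fun y => ∑ a, ∑ b, rf y i a * s (iv y) a b * rf y b j :=
    funext fun y => ks_ap s y i j
  rw [h1]
  refine (ContDiffAt.sum fun a _ => ContDiffAt.sum fun b _ => ?_).contDiffWithinAt
  exact ((cd_rf i a hy).mul ((hs a b).contDiffAt.comp y (cd_iv hy))).mul (cd_rf b j hy)

theorem ks_sy {s : MF n} (hs : ∀ x, (s x).IsSymm) (y : V n) (i j : Fin n) :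
    ks s y i j = ks s y j i := by
  rw [ks_ap, ks_ap, Finset.sum_comm]
  refine Finset.sum_congr rfl fun b _ => Finset.sum_congr rfl fun a _ => ?_
  rw [(hs (iv y)).apply b a, rf_symm y i a, rf_symm y b j]
  ring

/-- Product rule for `div (t ∇ (f g))`. -/
theorem Ldv_prod {t : MF n} {f g : V n → ℝ} {U : Set (V n)} (hU : IsOpen U)
    (ht : ∀ i j, ContDiffOn ℝ ∞ (fun x => t x i j) U) (hsy : ∀ x i j, t x i j = t x j i)
    (hf : ContDiffOn ℝ ∞ f U) (hg : ContDiffOn ℝ ∞ g U) {x : V n} (hx : x ∈ U) :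
    Ldv t (fun y => f y * g y) x =
      f x * Ldv t g x + g x * Ldv t f x + 2 * ∑ i, ∑ j, t x i j * (pd i f x * pd j g x) := by
  have hd : ∀ {h : V n → ℝ}, ContDiffOn ℝ ∞ h U → ∀ y ∈ U, DifferentiableAt ℝ h y :=
    fun hh y hy => (hh.contDiffAt (hU.mem_nhds hy)).differentiableAt (by simp)
  have d1 : ∀ {h : V n → ℝ}, ContDiffOn ℝ ∞ h U → ∀ i, DifferentiableAt ℝ
      (fun y => ∑ j, t y i j * pd j h y) x := fun hh i =>
    DifferentiableAt.fun_sum fun j _ => (hd (ht i j) x hx).mul (hd (cdo_pd hU hh j) x hx)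
  have key : ∀ i, pd i (fun y => ∑ j, t y i j * pd j (fun y => f y * g y) y) x =
      (f x * pd i (fun y => ∑ j, t y i j * pd j g y) x + (∑ j, t x i j * pd j g x) * pd i f x) +
      (g x * pd i (fun y => ∑ j, t y i j * pd j f y) x + (∑ j, t x i j * pd j f x) * pd i g x) := by
    intro i
    have e1 : (fun y => ∑ j, t y i j * pd j (fun y => f y * g y) y) =ᶠ[𝓝 x]
        fun y => f y * (∑ j, t y i j * pd j g y) + g y * ∑ j, t y i j * pd j f y := by
      filter_upwards [hU.mem_nhds hx] with y hy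
      rw [Finset.mul_sum, Finset.mul_sum, ← Finset.sum_add_distrib]
      refine Finset.sum_congr rfl fun j _ => ?_
      rw [pd_mul (hd hf y hy) (hd hg y hy)]
      ring
    have d2 : DifferentiableAt ℝ (fun y => f y * ∑ j, t y i j * pd j g y) x :=
      (hd hf x hx).mul (d1 hg i)
    have d3 : DifferentiableAt ℝ (fun y => g y * ∑ j, t y i j * pd j f y) x :=
      (hd hg x hx).mul (d1 hf i)
    rw [pd_ev e1, pd_add d2 d3, pd_mul (hd hf x hx) (d1 hg i), pd_mul (hd hg x hx) (d1 hf i)]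
  have e2 : ∑ i, (∑ j, t x i j * pd j g x) * pd i f x =
      ∑ i, ∑ j, t x i j * (pd i f x * pd j g x) := by
    refine Finset.sum_congr rfl fun i _ => ?_
    rw [Finset.sum_mul]
    exact Finset.sum_congr rfl fun j _ => by ring
  have e3 : ∑ i, (∑ j, t x i j * pd j f x) * pd i g x =
      ∑ i, ∑ j, t x i j * (pd i f x * pd j g x) := by
    rw [Finset.sum_comm (f := fun i j => t x i j * (pd i f x * pd j g x))]
    refine Finset.sum_congr rfl fun i _ => ?_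
    rw [Finset.sum_mul]
    refine Finset.sum_congr rfl fun j _ => ?_
    rw [hsy x i j]
    ring
  unfold Ldv
  rw [Finset.sum_congr rfl fun i _ => key i, Finset.sum_add_distrib, Finset.sum_add_distrib,
    Finset.sum_add_distrib, e2, e3, ← Finset.mul_sum, ← Finset.mul_sum]
  ring

/-- The first order coefficients of the scalar part. -/
def c0 (s : MF n) (i : Fin n) (y : V n) : ℝ :=
  -(2 * ((n - 2 : ℕ) : ℝ)) * ∑ j, ks s y i j * (y j * (HY.sq y ^ 1)⁻¹)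

/-- The first order coefficients of the inverted system. -/
def tD (s : MF n) (B : B1 n m) : B1 n m := fun a b i y =>
  (if a = b then c0 s i y else 0) + tB B a b i y

/-- The inversion of the scalar operator, without Kelvin factor. -/
theorem kel0 (hn : 3 ≤ n) {s : MF n} (hs : SmM s) (hy : ∀ x, (s x).IsSymm) {U : Set (V n)}
    {u : V n → ℝ} (hU : IsOpen U) (h0 : ∀ y ∈ U, y ≠ 0) (hu : ContDiffOn ℝ ∞ u U) {y : V n}
    (hyU : y ∈ U) :
    Ldv s (fun x => u (iv x)) (iv y) =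
      HY.sq y ^ 2 * (Ldv (ks s) u y + ∑ i, c0 s i y * pd i u y) := by
  have hy0 := h0 y hyU
  have hnw : ContDiffOn ℝ ∞ (nw n) U := fun z hz => (cd_nw (h0 z hz)).contDiffWithinAt
  have hk := kel_id hn hs hy hU h0 (hnw.mul hu) hyU
  have e1 : (fun x => nw n x * (nw n (iv x) * u (iv x))) =ᶠ[𝓝 (iv y)] fun x => u (iv x) := by
    filter_upwards [isOpen_ne.mem_nhds (iv_ne hy0)] with x hx
    rw [nw_iv hx]
    have := (nw_pos hx).ne'
    field_simp
  have e2 : Ldv s (fun x => nw n x * (nw n (iv x) * u (iv x))) (iv y) =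
      Ldv s (fun x => u (iv x)) (iv y) := by
    unfold Ldv
    refine Finset.sum_congr rfl fun i _ => pd_ev ?_ i
    filter_upwards [e1.eventuallyEq_nhds] with x hx
    exact Finset.sum_congr rfl fun j _ => by rw [pd_ev hx]
  have hpos := (nw_pos hy0).ne'
  have hq := (sq_pos hy0).ne'
  have hk2 : Ldv s (fun x => u (iv x)) (iv y) = (nw n y)⁻¹ * HY.sq y ^ 2 *
      (Ldv (ks s) (fun y => nw n y * u y) y + kv s y * (nw n y * u y)) := by
    rw [← e2]
    exact hk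
  rw [hk2, Ldv_prod hU (fun i j => (ks_sm hs i j).mono h0) (ks_sy hy) hnw hu hyU]
  have e3 : ∑ i, ∑ j, ks s y i j * (pd i (nw n) y * pd j u y) =
      nw n y * ∑ i, (-((n - 2 : ℕ) : ℝ) * ∑ j, ks s y i j * (y j * (HY.sq y ^ 1)⁻¹)) * pd i u y := by
    rw [Finset.sum_comm, Finset.mul_sum]
    refine Finset.sum_congr rfl fun i _ => ?_
    rw [Finset.mul_sum, Finset.sum_mul, Finset.mul_sum]
    refine Finset.sum_congr rfl fun j _ => ?_
    rw [pd_nw j hy0, ks_sy hy y j i, pow_one]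
    ring
  have e4 : ∑ i, c0 s i y * pd i u y = 2 * ∑ i, (-((n - 2 : ℕ) : ℝ) *
      ∑ j, ks s y i j * (y j * (HY.sq y ^ 1)⁻¹)) * pd i u y := by
    rw [Finset.mul_sum]
    refine Finset.sum_congr rfl fun i _ => ?_
    unfold c0
    ring
  rw [e3, e4]
  unfold kv
  obtain ⟨S1, hS1⟩ : ∃ S1, S1 = ∑ i, (-((n - 2 : ℕ) : ℝ) *
      ∑ j, ks s y i j * (y j * (HY.sq y ^ 1)⁻¹)) * pd i u y := ⟨_, rfl⟩
  rw [← hS1]
  field_simp
  ring

/-- **The inversion for systems**, without Kelvin factor. -/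
theorem kelS (hn : 3 ≤ n) {s : MF n} (hs : SmM s) (hy : ∀ x, (s x).IsSymm) (B : B1 n m)
    {U : Set (V n)} {u : Fin m → V n → ℝ} (hU : IsOpen U) (h0 : ∀ y ∈ U, y ≠ 0)
    (hu : ∀ a, ContDiffOn ℝ ∞ (u a) U) (a : Fin m) {y : V n} (hyU : y ∈ U) :
    L1 s B (fun a x => u a (iv x)) a (iv y) = HY.sq y ^ 2 * L1 (ks s) (tD s B) u a y := by
  have hy0 := h0 y hyU
  have hdu : ∀ b, DifferentiableAt ℝ (u b) (iv (iv y)) := fun b => by
    rw [iv_iv hy0]
    exact ((hu b).contDiffAt (hU.mem_nhds hyU)).differentiableAt (by simp)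
  have hq := (sq_pos hy0).ne'
  unfold L1
  rw [kel0 hn hs hy hU h0 (hu a) hyU]
  have h5 : ∀ b l, pd l (fun x => u b (iv x)) (iv y) =
      HY.sq y ^ 2 * ∑ i, rf y i l * (HY.sq y ^ 1)⁻¹ * pd i (u b) y := by
    intro b l
    rw [pd_comp_iv (iv_ne hy0) (hdu b), Finset.mul_sum]
    refine Finset.sum_congr rfl fun i _ => ?_
    rw [rf_iv hy0, sq_iv hy0, iv_iv hy0, inv_inv]
    field_simp
  have h6 : ∀ b, ∑ l, B a b l (iv y) * pd l (fun x => u b (iv x)) (iv y) =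
      HY.sq y ^ 2 * ∑ i, tB B a b i y * pd i (u b) y := by
    intro b
    have h7 : ∑ i, tB B a b i y * pd i (u b) y =
        ∑ l, B a b l (iv y) * ∑ i, rf y i l * (HY.sq y ^ 1)⁻¹ * pd i (u b) y := by
      unfold tB
      simp only [Finset.sum_mul, Finset.mul_sum]
      rw [Finset.sum_comm]
      exact Finset.sum_congr rfl fun l _ => Finset.sum_congr rfl fun i _ => by ring
    rw [h7, Finset.mul_sum]
    refine Finset.sum_congr rfl fun l _ => ?_
    rw [h5]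
    ring
  rw [Finset.sum_congr rfl fun b _ => h6 b, ← Finset.mul_sum, ← mul_add, add_assoc]
  congr 2
  have h8 : ∀ b, ∑ i, tD s B a b i y * pd i (u b) y =
      (if a = b then ∑ i, c0 s i y * pd i (u b) y else 0) + ∑ i, tB B a b i y * pd i (u b) y := by
    intro b
    unfold tD
    by_cases hab : a = b
    · simp only [if_pos hab]
      rw [← Finset.sum_add_distrib]
      exact Finset.sum_congr rfl fun i _ => by ring
    · simp only [if_neg hab]
      simp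
  rw [Finset.sum_congr rfl fun b _ => h8 b, Finset.sum_add_distrib, Finset.sum_ite_eq]
  simp

/-! ## Coefficients defined everywhere -/

/-- Coefficients near those of the Laplacian, flat off the ball of radius `32`. -/
structure Cf (K : ℕ) (ε M : ℝ) (s : MF n) (B : B1 n m) : Prop where
  ss : SmM s
  sy : ∀ x, (s x).IsSymm
  sb : ∀ a b l, ContDiff ℝ ∞ (B a b l)
  cs : ∀ i j, Cl K ε (fun x => s x i j - (1 : Matrix (Fin n) (Fin n) ℝ) i j)
  cb : ∀ a b l, Cl K M (B a b l)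

section glob

variable {χ χa ψ χ2 : V n → ℝ}

/-- `χ (1 - ψ) χ₂`. -/
def cu (χ ψ χ2 : V n → ℝ) (y : V n) : ℝ := χ y * ((1 - ψ y) * χ2 y)

theorem cu_cd (h : Cuts χ χa ψ χ2) : ContDiff ℝ ∞ (cu χ ψ χ2) :=
  h.s.mul ((contDiff_const.sub h.sψ).mul h.s2)

theorem cu_c (h : Cuts χ χa ψ χ2) : HasCompactSupport (cu χ ψ χ2) := h.c.mul_right

theorem cu_one (h : Cuts χ χa ψ χ2) {y : V n} (h1 : (1 / 32) ^ 2 ≤ HY.sq y)
    (h2 : HY.sq y ≤ (5 / 4) ^ 2) : cu χ ψ χ2 y = 1 := by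
  unfold cu
  rw [h.one y h2, h.zeroψ y h1, h.one2 y (le_trans (by norm_num) h1) (h2.trans (by norm_num))]
  ring

/-- A coefficient which is smooth off the origin, cut off. -/
theorem cuf_cd (h : Cuts χ χa ψ χ2) {f : V n → ℝ} (hf : ContDiffOn ℝ ∞ f {y : V n | y ≠ 0}) :
    ContDiff ℝ ∞ fun y => cu χ ψ χ2 y * f y := by
  have h1 : ContDiff ℝ ∞ fun y => χ2 y * f y := XK.smx' isOpen_ne h.s2 h.t2 hf
  have h2 : (fun y => cu χ ψ χ2 y * f y) = fun y => (χ y * (1 - ψ y)) * (χ2 y * f y) := by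
    funext y
    unfold cu
    ring
  rw [h2]
  exact (h.s.mul (contDiff_const.sub h.sψ)).mul h1

theorem cuf_c (h : Cuts χ χa ψ χ2) (f : V n → ℝ) :
    HasCompactSupport fun y => cu χ ψ χ2 y * f y := (cu_c h).mul_right

/-- The exponent of the Kelvin factor, cut off: `-(n - 2) log |y|`. -/
def ph (χ ψ χ2 : V n → ℝ) (y : V n) : ℝ :=
  cu χ ψ χ2 y * (-(((n - 2 : ℕ) : ℝ) / 2) * Real.log (HY.sq y))

theorem ph_cd (h : Cuts χ χa ψ χ2) : ContDiff ℝ ∞ (ph χ ψ χ2) :=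
  cuf_cd h fun y hy => (contDiffAt_const.mul
    ((sq_cd (n := n)).contDiffAt.log (sq_pos hy).ne')).contDiffWithinAt

theorem ph_c (h : Cuts χ χa ψ χ2) : HasCompactSupport (ph χ ψ χ2) := cuf_c h _

theorem pdph_c (h : Cuts χ χa ψ χ2) (j : Fin n) : HasCompactSupport (pd j (ph χ ψ χ2)) :=
  ((ph_c h).fderiv (𝕜 := ℝ)).comp_left (g := fun L : V n →L[ℝ] ℝ => L (Pi.single j 1)) rfl

theorem ph_pd (h : Cuts χ χa ψ χ2) {y : V n} (h1 : (1 / 32) ^ 2 < HY.sq y)
    (h2 : HY.sq y < (5 / 4) ^ 2) (j : Fin n) :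
    pd j (ph χ ψ χ2) y = -((n - 2 : ℕ) : ℝ) * (y j * (HY.sq y ^ 1)⁻¹) := by
  have hy : y ≠ 0 := by
    intro h0
    rw [h0] at h1
    have h3 : HY.sq (0 : V n) = 0 := by simp [sq_def]
    rw [h3] at h1
    norm_num at h1
  have e1 : ph χ ψ χ2 =ᶠ[𝓝 y] fun z => -(((n - 2 : ℕ) : ℝ) / 2) * Real.log (HY.sq z) := by
    have a1 : ∀ᶠ x : V n in 𝓝 y, (1 / 32) ^ 2 < HY.sq x :=
      (isOpen_lt continuous_const sq_cont).mem_nhds h1
    have a2 : ∀ᶠ x : V n in 𝓝 y, HY.sq x < (5 / 4) ^ 2 :=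
      (isOpen_lt sq_cont continuous_const).mem_nhds h2
    filter_upwards [a1, a2] with z b1 b2
    unfold ph
    rw [cu_one h b1.le b2.le, one_mul]
  have hq := (sq_pos hy).ne'
  have e2 : HasFDerivAt (fun z : V n => -(((n - 2 : ℕ) : ℝ) / 2) * Real.log (HY.sq z))
      (-(((n - 2 : ℕ) : ℝ) / 2) • ((HY.sq y)⁻¹ • fderiv ℝ (HY.sq : V n → ℝ) y)) y :=
    ((sq_da y).hasFDerivAt.log hq).const_mul _
  rw [pd_ev e1]
  unfold pd
  rw [e2.fderiv]
  have e3 : fderiv ℝ (HY.sq : V n → ℝ) y (Pi.single j 1) = 2 * y j := pd_sq j y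
  show -(((n - 2 : ℕ) : ℝ) / 2) * ((HY.sq y)⁻¹ * fderiv ℝ (HY.sq : V n → ℝ) y (Pi.single j 1)) = _
  rw [e3, pow_one]
  ring

/-- The small first order coefficients, defined everywhere. -/
def gB (χ ψ χ2 : V n → ℝ) (B : B1 n m) : B1 n m := fun a b i y =>
  ∑ l, (cu χ ψ χ2 y * (rf y i l * (HY.sq y ^ 1)⁻¹)) * B a b l (Tt χ2 y)

/-- The first order coefficients, defined everywhere. -/
def gD (χ χa ψ χ2 : V n → ℝ) (s : MF n) (B : B1 n m) : B1 n m := fun a b i y =>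
  (if a = b then 2 * ∑ j, st χ χa ψ χ2 s y i j * pd j (ph χ ψ χ2) y else 0) +
    gB χ ψ χ2 B a b i y

theorem st_eq (h : Cuts χ χa ψ χ2) {s : MF n} (hs1 : ∀ x ∉ Eb (0 : V n) 32, s x = 1) {z : V n}
    (hz : z ≠ 0) (hz2 : HY.sq z ≤ (5 / 4) ^ 2) : st χ χa ψ χ2 s z = ks s z := by
  ext i j
  show (1 : Matrix (Fin n) (Fin n) ℝ) i j + χ z * Ht χa ψ χ2 i j s z = _
  rw [h.one z hz2, Ht_eq h hs1 hz (hz2.trans (by norm_num))]
  ring

theorem ne_of_sq {y : V n} {c : ℝ} (hc : 0 < c) (h1 : c ≤ HY.sq y) : y ≠ 0 := by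
  intro h
  rw [h] at h1
  have h2 : HY.sq (0 : V n) = 0 := by simp [sq_def]
  linarith

theorem gD_eq (h : Cuts χ χa ψ χ2) {s : MF n} (hs1 : ∀ x ∉ Eb (0 : V n) 32, s x = 1) (B : B1 n m)
    {y : V n} (h1 : (1 / 32) ^ 2 < HY.sq y) (h2 : HY.sq y < (5 / 4) ^ 2) (a b : Fin m)
    (i : Fin n) : gD χ χa ψ χ2 s B a b i y = tD s B a b i y := by
  have hy := ne_of_sq (by norm_num) h1.le
  unfold gD gB tD tB c0
  rw [cu_one h h1.le h2.le, Tt_eq h (le_trans (by norm_num) h1.le) (h2.le.trans (by norm_num)),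
    st_eq h hs1 hy h2.le]
  congr 1
  · by_cases hab : a = b
    · rw [if_pos hab, if_pos hab, Finset.mul_sum, Finset.mul_sum]
      refine Finset.sum_congr rfl fun j _ => ?_
      rw [ph_pd h h1 h2]
      ring
    · rw [if_neg hab, if_neg hab]
  · refine Finset.sum_congr rfl fun l _ => ?_
    ring

theorem gB_zero (h : Cuts χ χa ψ χ2) (B : B1 n m) {y : V n} (hy : 4 ≤ HY.sq y)
    (a b : Fin m) (i : Fin n) : gB χ ψ χ2 B a b i y = 0 := by
  unfold gB cu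
  rw [h.zero y (by norm_num; exact hy)]
  simp

end glob

/-- Sums of bounded functions. -/
theorem cl_sum {ι : Type*} (t : Finset ι) {k : ℕ} {A : ℝ} {f : ι → V n → ℝ}
    (hf : ∀ i, ContDiff ℝ ∞ (f i)) (h : ∀ i, Cl k A (f i)) :
    Cl k (t.card * A) (fun x => ∑ i ∈ t, f i x) := by
  classical
  induction t using Finset.induction_on with
  | empty =>
    intro l hl x
    simp only [Finset.sum_empty, Finset.card_empty, Nat.cast_zero, zero_mul]
    have : iteratedFDeriv ℝ l (fun _ : V n => (0 : ℝ)) x = 0 := by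
      rw [show (fun _ : V n => (0 : ℝ)) = 0 from rfl, iteratedFDeriv_zero]
      rfl
    rw [this, norm_zero]
  | insert a t ha ih =>
    simp only [Finset.sum_insert ha, Finset.card_insert_of_notMem ha]
    refine cl_le' (cl_add' (hf a) (ContDiff.sum fun i _ => hf i) (h a) ih) (le_of_eq ?_)
    push_cast
    ring

theorem cl_zeroF {k : ℕ} {A : ℝ} (hA : 0 ≤ A) : Cl k A (fun _ : V n => (0 : ℝ)) := by
  intro l hl x
  have : iteratedFDeriv ℝ l (fun _ : V n => (0 : ℝ)) x = 0 := by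
    rw [show (fun _ : V n => (0 : ℝ)) = 0 from rfl, iteratedFDeriv_zero]
    rfl
  rw [this, norm_zero]
  exact hA

/-- The small coefficients are linear in the data. -/
theorem gB_bd {χ χa ψ χ2 : V n → ℝ} (h : Cuts χ χa ψ χ2) :
    ∃ A : ℝ, 0 ≤ A ∧ ∀ (m : ℕ) (B : B1 n m) (b : ℝ), (∀ a b l, ContDiff ℝ ∞ (B a b l)) →
      (∀ a a' l, Cl 1 b (B a a' l)) → (∀ a a' i, ContDiff ℝ ∞ (gB χ ψ χ2 B a a' i)) ∧
      ∀ a a' i, Cl 1 (A * b) (gB χ ψ χ2 B a a' i) := by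
  obtain ⟨T, hT0, hT⟩ := cl_comp' 1 (Tt_cd h) (Tt_c h)
  have e1 : ∀ i l : Fin n, ContDiff ℝ ∞ fun y => cu χ ψ χ2 y * (rf y i l * (HY.sq y ^ 1)⁻¹) :=
    fun i l => cuf_cd h (cdo_rfq i l)
  choose E1 hE1 HE1 using fun i l => cl_mulA (n := n) 1 (e1 i l) (cuf_c h _)
  obtain ⟨Z1, hZ1⟩ : ∃ Z : ℝ, Z = ∑ i, ∑ l, E1 i l := ⟨_, rfl⟩
  have hZ1p : 0 ≤ Z1 := by
    rw [hZ1]; exact Finset.sum_nonneg fun i _ => Finset.sum_nonneg fun l _ => hE1 i l
  have hle1 : ∀ i l, E1 i l ≤ Z1 := by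
    intro i l
    rw [hZ1]
    exact (Finset.single_le_sum (f := fun l => E1 i l) (fun j _ => hE1 i j)
      (Finset.mem_univ l)).trans (Finset.single_le_sum (f := fun i => ∑ l, E1 i l)
        (fun i _ => Finset.sum_nonneg fun l _ => hE1 i l) (Finset.mem_univ i))
  refine ⟨n * (Z1 * T), by positivity, fun m B b hB hb => ?_⟩
  have hbT : ∀ a a' l, ContDiff ℝ ∞ (fun y => B a a' l (Tt χ2 y)) := fun a a' l =>
    (hB a a' l).comp (Tt_cd h)
  have lb : ∀ a a' l, Cl 1 (T * b) (fun y => B a a' l (Tt χ2 y)) := fun a a' l =>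
    hT _ _ (hB a a' l) (hb a a' l)
  have s1 : ∀ a a' i l, ContDiff ℝ ∞
      (fun y => (cu χ ψ χ2 y * (rf y i l * (HY.sq y ^ 1)⁻¹)) * B a a' l (Tt χ2 y)) :=
    fun a a' i l => (e1 i l).mul (hbT a a' l)
  have b1 : ∀ a a' i l, Cl 1 (Z1 * (T * b))
      (fun y => (cu χ ψ χ2 y * (rf y i l * (HY.sq y ^ 1)⁻¹)) * B a a' l (Tt χ2 y)) := by
    intro a a' i l
    have hb0 : 0 ≤ b := (norm_nonneg _).trans (hb a a' l 0 (Nat.zero_le _) 0)
    exact cl_le' (HE1 i l _ _ (hbT a a' l) (lb a a' l))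
      (mul_le_mul_of_nonneg_right (hle1 i l) (by positivity))
  refine ⟨fun a a' i => ContDiff.sum fun l _ => s1 a a' i l, fun a a' i => ?_⟩
  have h3 := cl_sum Finset.univ (fun l => s1 a a' i l) (fun l => b1 a a' i l)
  rw [Finset.card_univ, Fintype.card_fin] at h3
  refine cl_le' h3 (le_of_eq ?_)
  ring

/-- The coefficients of the inverted system are smooth and bounded, and flat off the ball of
radius `2`. -/
theorem gD_bd (m : ℕ) {χ χa ψ χ2 : V n → ℝ} (h : Cuts χ χa ψ χ2) (M : ℝ) :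
    ∃ A : ℝ, 0 ≤ A ∧ ∀ (ε : ℝ) (s : MF n) (B : B1 n m), 0 ≤ ε → ε ≤ 1 → Cf 3 ε M s B →
      (∀ a b i, ContDiff ℝ ∞ (gD χ χa ψ χ2 s B a b i)) ∧
      ∀ a b i, Cl 1 A (gD χ χa ψ χ2 s B a b i) := by
  have hb : ∀ i j, BO 1 (1 + 2) (fun s y => χ y * Ht χa ψ χ2 i j s y) := fun i j =>
    (Ht_bo h (by omega : 1 ≤ 1 + 2) i j).mulA h.s h.c
  choose Cs hCs0 hCs using hb
  obtain ⟨T, hT0, hT⟩ := cl_comp' 1 (Tt_cd h) (Tt_c h)
  have e1 : ∀ i l : Fin n, ContDiff ℝ ∞ fun y => cu χ ψ χ2 y * (rf y i l * (HY.sq y ^ 1)⁻¹) :=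
    fun i l => cuf_cd h (cdo_rfq i l)
  have e3 : ∀ j : Fin n, ContDiff ℝ ∞ (pd j (ph χ ψ χ2)) := fun j =>
    ((ph_cd h).fderiv_right (m := ∞) (by simp)).clm_apply contDiff_const
  choose E1 hE1 HE1 using fun i l => cl_mulA (n := n) 1 (e1 i l) (cuf_c h _)
  choose E3 hE3 HE3 using fun j => cl_mulA (n := n) 1 (e3 j) (pdph_c h j)
  obtain ⟨Z1, hZ1⟩ : ∃ Z : ℝ, Z = ∑ i, ∑ l, E1 i l := ⟨_, rfl⟩
  obtain ⟨Z3, hZ3⟩ : ∃ Z : ℝ, Z = ∑ l, E3 l := ⟨_, rfl⟩
  obtain ⟨Z0, hZ0⟩ : ∃ Z : ℝ, Z = ∑ i, ∑ j, Cs i j := ⟨_, rfl⟩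
  have hZ1p : 0 ≤ Z1 := by
    rw [hZ1]; exact Finset.sum_nonneg fun i _ => Finset.sum_nonneg fun l _ => hE1 i l
  have hZ3p : 0 ≤ Z3 := by rw [hZ3]; exact Finset.sum_nonneg fun l _ => hE3 l
  have hZ0p : 0 ≤ Z0 := by
    rw [hZ0]; exact Finset.sum_nonneg fun i _ => Finset.sum_nonneg fun l _ => hCs0 i l
  have hle1 : ∀ i l, E1 i l ≤ Z1 := by
    intro i l
    rw [hZ1]
    exact (Finset.single_le_sum (f := fun l => E1 i l) (fun j _ => hE1 i j)
      (Finset.mem_univ l)).trans (Finset.single_le_sum (f := fun i => ∑ l, E1 i l)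
        (fun i _ => Finset.sum_nonneg fun l _ => hE1 i l) (Finset.mem_univ i))
  have hle0 : ∀ i l, Cs i l ≤ Z0 := by
    intro i l
    rw [hZ0]
    exact (Finset.single_le_sum (f := fun l => Cs i l) (fun j _ => hCs0 i j)
      (Finset.mem_univ l)).trans (Finset.single_le_sum (f := fun i => ∑ l, Cs i l)
        (fun i _ => Finset.sum_nonneg fun l _ => hCs0 i l) (Finset.mem_univ i))
  have hle3 : ∀ l, E3 l ≤ Z3 := by
    intro l
    rw [hZ3]
    exact Finset.single_le_sum (f := fun l => E3 l) (fun j _ => hE3 j) (Finset.mem_univ l)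
  have hnn : (0 : ℝ) ≤ n := by positivity
  have hn2 : (0 : ℝ) ≤ ((n - 2 : ℕ) : ℝ) := by positivity
  obtain ⟨S3, hS3⟩ : ∃ S : ℝ, S = ∑ i : Fin n, ∑ j : Fin n, (0 : ℝ) := ⟨_, rfl⟩
  refine ⟨2 * (n * (Z3 * (1 + Z0))) + n * (Z1 * (T * |M|)), by positivity, ?_⟩
  intro ε s B hε hε1 hc
  have hin : Inp (1 + 2) ε s := ⟨hc.ss, hε, hc.cs⟩
  have hbT : ∀ a b l, ContDiff ℝ ∞ (fun y => B a b l (Tt χ2 y)) := fun a b l =>
    (hc.sb a b l).comp (Tt_cd h)
  have lb : ∀ a b l, Cl 1 (T * |M|) (fun y => B a b l (Tt χ2 y)) := fun a b l =>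
    hT _ _ (hc.sb a b l) fun k hk x => (hc.cb a b l k (by omega) x).trans (le_abs_self M)
  have hst : ∀ i j, ContDiff ℝ ∞ (fun y => st χ χa ψ χ2 s y i j) := by
    intro i j
    show ContDiff ℝ ∞ fun y => (1 : Matrix (Fin n) (Fin n) ℝ) i j + χ y * Ht χa ψ χ2 i j s y
    exact contDiff_const.add (hCs i j s ε hin).1
  have h1c : ∀ c : ℝ, |c| ≤ 1 → Cl 1 1 (fun _ : V n => c) := by
    intro c hc l hl x
    rcases Nat.eq_zero_or_pos l with h0 | h0
    · subst h0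
      rw [norm_iteratedFDeriv_zero, Real.norm_eq_abs]
      exact hc
    · rw [iteratedFDeriv_const_of_ne (by omega)]
      simp
  have lst : ∀ i j, Cl 1 (1 + Z0) (fun y => st χ χa ψ χ2 s y i j) := by
    intro i j
    have h2 : |(1 : Matrix (Fin n) (Fin n) ℝ) i j| ≤ 1 := by
      rw [Matrix.one_apply]; split_ifs <;> simp
    refine cl_add' contDiff_const (hCs i j s ε hin).1 (h1c _ h2)
      (cl_le' (hCs i j s ε hin).2 ?_)
    calc Cs i j * ε ≤ Cs i j * 1 := mul_le_mul_of_nonneg_left hε1 (hCs0 i j)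
      _ ≤ Z0 := by rw [mul_one]; exact hle0 i j
  have s1 : ∀ a b i l, ContDiff ℝ ∞
      (fun y => (cu χ ψ χ2 y * (rf y i l * (HY.sq y ^ 1)⁻¹)) * B a b l (Tt χ2 y)) :=
    fun a b i l => (e1 i l).mul (hbT a b l)
  have hcm : ∀ i j, (fun y => st χ χa ψ χ2 s y i j * pd j (ph χ ψ χ2) y) =
      fun y => pd j (ph χ ψ χ2) y * st χ χa ψ χ2 s y i j := fun i j => by
    funext y
    ring
  have s3 : ∀ i j, ContDiff ℝ ∞ (fun y => st χ χa ψ χ2 s y i j * pd j (ph χ ψ χ2) y) :=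
    fun i j => (hst i j).mul (e3 j)
  have b1 : ∀ a b i l, Cl 1 (Z1 * (T * |M|))
      (fun y => (cu χ ψ χ2 y * (rf y i l * (HY.sq y ^ 1)⁻¹)) * B a b l (Tt χ2 y)) :=
    fun a b i l => cl_le' (HE1 i l _ _ (hbT a b l) (lb a b l))
      (mul_le_mul_of_nonneg_right (hle1 i l) (by positivity))
  have b3 : ∀ i j, Cl 1 (Z3 * (1 + Z0)) (fun y =>
      st χ χa ψ χ2 s y i j * pd j (ph χ ψ χ2) y) := by
    intro i j
    rw [hcm]
    exact cl_le' (HE3 j _ _ (hst i j) (lst i j))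
      (mul_le_mul_of_nonneg_right (hle3 j) (by positivity))
  have s3' : ∀ i, ContDiff ℝ ∞ (fun y => ∑ j,
      st χ χa ψ χ2 s y i j * pd j (ph χ ψ χ2) y) := fun i =>
    ContDiff.sum fun j _ => s3 i j
  have b3' : ∀ i, Cl 1 (n * (Z3 * (1 + Z0))) (fun y => ∑ j,
      st χ χa ψ χ2 s y i j * pd j (ph χ ψ χ2) y) := by
    intro i
    have h3 := cl_sum Finset.univ (fun j => s3 i j) (fun j => b3 i j)
    rwa [Finset.card_univ, Fintype.card_fin] at h3
  have hsm : ∀ (c A : ℝ) (f : V n → ℝ), ContDiff ℝ ∞ f → Cl 1 A f →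
      Cl 1 (|c| * A) (fun y => c * f y) := by
    intro c A f hf hA l hl x
    have h4 : iteratedFDeriv ℝ l (fun y => c * f y) x = c • iteratedFDeriv ℝ l f x := by
      have := iteratedFDeriv_const_smul_apply (𝕜 := ℝ) (i := l) (a := c) (f := f) (x := x)
        (hf.of_le (by exact_mod_cast le_top)).contDiffAt
      simpa [Pi.smul_def, smul_eq_mul] using this
    rw [h4, norm_smul, Real.norm_eq_abs]
    exact mul_le_mul_of_nonneg_left (hA l hl x) (abs_nonneg _)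
  have s0 : ∀ (a b : Fin m) (i : Fin n), ContDiff ℝ ∞ (fun y => if a = b then
      2 * ∑ j, st χ χa ψ χ2 s y i j * pd j (ph χ ψ χ2) y else 0) := by
    intro a b i
    by_cases hab : a = b
    · simp only [if_pos hab]
      exact contDiff_const.mul (s3' i)
    · simp only [if_neg hab]
      exact contDiff_const
  have b0 : ∀ (a b : Fin m) (i : Fin n), Cl 1 (2 * (n * (Z3 * (1 + Z0))))
      (fun y => if a = b then
      2 * ∑ j, st χ χa ψ χ2 s y i j * pd j (ph χ ψ χ2) y else 0) := by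
    intro a b i
    by_cases hab : a = b
    · simp only [if_pos hab]
      refine cl_le' (hsm _ _ _ (s3' i) (b3' i)) (le_of_eq ?_)
      rw [abs_of_nonneg (by norm_num)]
    · simp only [if_neg hab]
      exact cl_zeroF (by positivity)
  refine ⟨fun a b i => (s0 a b i).add (ContDiff.sum fun l _ => s1 a b i l), fun a b i => ?_⟩
  have h3 := cl_sum Finset.univ (fun l => s1 a b i l) (fun l => b1 a b i l)
  rw [Finset.card_univ, Fintype.card_fin] at h3
  exact cl_add' (s0 a b i) (ContDiff.sum fun l _ => s1 a b i l) (b0 a b i) h3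

/-- The operators with the coefficients defined everywhere agree with the inverted ones on
`1/32 ≤ |y| < 5/4`. -/
theorem L1_inv {χ χa ψ χ2 : V n → ℝ} (h : Cuts χ χa ψ χ2) {s : MF n}
    (hs1 : ∀ x ∉ Eb (0 : V n) 32, s x = 1) (B : B1 n m) (u : Fin m → V n → ℝ) (a : Fin m) {y : V n}
    (h1 : (1 / 32) ^ 2 < HY.sq y) (h2 : HY.sq y < (5 / 4) ^ 2) :
    L1 (st χ χa ψ χ2 s) (gD χ χa ψ χ2 s B) u a y = L1 (ks s) (tD s B) u a y := by
  have hy := ne_of_sq (by norm_num) h1.le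
  unfold L1
  congr 1
  · refine Ldv_ev ?_
    have e1 : ∀ᶠ x in 𝓝 y, x ≠ 0 := isOpen_ne.mem_nhds hy
    have e2 : ∀ᶠ x in 𝓝 y, HY.sq x < (5 / 4) ^ 2 :=
      (isOpen_lt sq_cont continuous_const).mem_nhds h2
    filter_upwards [e1, e2] with z h3 h4
    exact st_eq h hs1 h3 h4.le
  · refine Finset.sum_congr rfl fun b _ => Finset.sum_congr rfl fun l _ => ?_
    rw [gD_eq h hs1 B h1 h2]

end Vale.Agent.P088.S4.H561
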