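import Vale.Agent.P088.R2.H561.S4.Sh
import Vale.Agent.P088.R2.H561.S4.SpecH

/-!
# P088, stage 4: the a priori estimate for systems from the scalar estimate with localised gains
-/

open MeasureTheory Set Filter
open scoped ContDiff Matrix Topology

noncomputable section

namespace Vale.Agent.P088.S4.H561

open Vale.Agent.P088.LR
open Vale.Agent.P088.HY (VV)
open Vale.Agent.P088.HY.T3 (Ldv)
open Vale.Agent.P088.R2.H269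
open Vale.Agent.P088.S4.H437

variable {n m : ℕ}

theorem c2_nn (x : V n) : 0 ≤ c2 x := Real.smoothTransition.nonneg _

theorem c2_one {x : V n} (h : HY.sq x < 4) : c2 x = 1 :=
  Real.smoothTransition.one_of_one_le (by linarith)

theorem c2_sm : ContDiff ℝ ∞ (c2 : V n → ℝ) :=
  Real.smoothTransition.contDiff.comp (contDiff_const.sub HY.H437.Kel.sq_cd)

theorem tt_gf {W a₁ a₂ : VV n → ℝ} (hW : S W) (h1 : Tt univ a₁) (h2 : Tt univ a₂) :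
    Tt univ (gf W a₁ a₂) := by
  unfold gf
  refine tt_sum _ fun i => tt_add (tt_mulL (s_fst c2_sm) (tt_add ?_ ?_))
    (tt_mulL (s_snd c2_sm) (tt_add ?_ ?_))
  · exact tt_sq (tt_sub (tt_dx h1 i) (tt_mulL (S.dx hW i) h1))
  · exact tt_sq (tt_add (tt_dx h2 i) (tt_mulL (S.dx hW i) h2))
  · exact tt_sq (tt_add (tt_dy h1 i) (tt_mulL (S.dy hW i) h1))
  · exact tt_sq (tt_sub (tt_dy h2 i) (tt_mulL (S.dy hW i) h2))

/-! ## The integration -/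

section pert

variable {s₁ s₂ : MF n} {W w o₁ o₂ : VV n → ℝ} {a₁ a₂ D1 D2 : Fin m → VV n → ℝ}

theorem est_pert {C₀ g₀ G₀ L1 L2 : ℝ} (hC₀ : 0 ≤ C₀) (g1 : 4 * C₀ * m * L1 ≤ g₀)
    (g2 : 4 * C₀ * m * L2 ≤ G₀) (hs₁ : SmM s₁) (hs₂ : SmM s₂) (hW : ContDiff ℝ ∞ W)
    (cw : Continuous w) (co₁ : Continuous o₁) (p₁ : ∀ z, 0 < o₁ z) (b₁ : ∀ z, o₁ z ≤ C₀)
    (co₂ : Continuous o₂) (p₂ : ∀ z, 0 < o₂ z) (b₂ : ∀ z, o₂ z ≤ C₀)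
    (est : ∀ a₁ a₂ : VV n → ℝ, Tt univ a₁ → Tt univ a₂ →
      (∫ z, w z * (a₁ z ^ 2 + a₂ z ^ 2)) + g₀ * (∫ z, gf W a₁ a₂ z) +
          G₀ * (∫ z, (a₁ z ^ 2 + a₂ z ^ 2)) ≤
        ∫ z, (o₁ z * (QX s₁ W a₁ z + QY s₂ W a₂ z) ^ 2
          + o₂ z * (PY s₂ W a₁ z - PX s₁ W a₂ z) ^ 2))
    (h1 : ∀ a, Tt univ (a₁ a)) (h2 : ∀ a, Tt univ (a₂ a)) (t1 : ∀ a, Tt univ (D1 a))
    (t2 : ∀ a, Tt univ (D2 a))
    (bd1 : ∀ a z, D1 a z ^ 2 ≤ L1 * (∑ b, gf W (a₁ b) (a₂ b) z) +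
      L2 * ∑ b, (a₁ b z ^ 2 + a₂ b z ^ 2))
    (bd2 : ∀ a z, D2 a z ^ 2 ≤ L1 * (∑ b, gf W (a₁ b) (a₂ b) z) +
      L2 * ∑ b, (a₁ b z ^ 2 + a₂ b z ^ 2)) :
    ∫ z, (w z / 2) * ∑ a, (a₁ a z ^ 2 + a₂ a z ^ 2) ≤
      ∫ z, (o₁ z * ∑ a, ((QX s₁ W (a₁ a) z + QY s₂ W (a₂ a) z) + D1 a z) ^ 2
        + o₂ z * ∑ a, ((PY s₂ W (a₁ a) z - PX s₁ W (a₂ a) z) + D2 a z) ^ 2) := by
  -- pointwise
  obtain ⟨F, hF⟩ : ∃ F : VV n → ℝ, F = fun z => ∑ b, gf W (a₁ b) (a₂ b) z := ⟨_, rfl⟩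
  obtain ⟨Z, hZ⟩ : ∃ Z : VV n → ℝ, Z = fun z => ∑ b, (a₁ b z ^ 2 + a₂ b z ^ 2) := ⟨_, rfl⟩
  obtain ⟨T, hT⟩ : ∃ T : VV n → ℝ, T = fun z => ∑ a, (o₁ z * (QX s₁ W (a₁ a) z +
    QY s₂ W (a₂ a) z) ^ 2 + o₂ z * (PY s₂ W (a₁ a) z - PX s₁ W (a₂ a) z) ^ 2) := ⟨_, rfl⟩
  have bd1' : ∀ a z, D1 a z ^ 2 ≤ L1 * F z + L2 * Z z := by
    rw [hF, hZ]
    exact bd1
  have bd2' : ∀ a z, D2 a z ^ 2 ≤ L1 * F z + L2 * Z z := by
    rw [hF, hZ]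
    exact bd2
  have hpt : ∀ z, T z / 2 - 2 * C₀ * m * (L1 * F z + L2 * Z z) ≤
      o₁ z * ∑ a, ((QX s₁ W (a₁ a) z + QY s₂ W (a₂ a) z) + D1 a z) ^ 2
        + o₂ z * ∑ a, ((PY s₂ W (a₁ a) z - PX s₁ W (a₂ a) z) + D2 a z) ^ 2 := by
    intro z
    have k1 : ∀ a, o₁ z * (QX s₁ W (a₁ a) z + QY s₂ W (a₂ a) z) ^ 2 / 2 -
        C₀ * (L1 * F z + L2 * Z z) ≤
        o₁ z * ((QX s₁ W (a₁ a) z + QY s₂ W (a₂ a) z) + D1 a z) ^ 2 := by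
      intro a
      have e1 := half_sq (QX s₁ W (a₁ a) z + QY s₂ W (a₂ a) z) (D1 a z)
      have e3 := mul_le_mul_of_nonneg_left e1 (p₁ z).le
      have e4 : o₁ z * D1 a z ^ 2 ≤ C₀ * (L1 * F z + L2 * Z z) :=
        mul_le_mul (b₁ z) (bd1' a z) (sq_nonneg _) hC₀
      linarith
    have k2 : ∀ a, o₂ z * (PY s₂ W (a₁ a) z - PX s₁ W (a₂ a) z) ^ 2 / 2 -
        C₀ * (L1 * F z + L2 * Z z) ≤
        o₂ z * ((PY s₂ W (a₁ a) z - PX s₁ W (a₂ a) z) + D2 a z) ^ 2 := by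
      intro a
      have e1 := half_sq (PY s₂ W (a₁ a) z - PX s₁ W (a₂ a) z) (D2 a z)
      have e3 := mul_le_mul_of_nonneg_left e1 (p₂ z).le
      have e4 : o₂ z * D2 a z ^ 2 ≤ C₀ * (L1 * F z + L2 * Z z) :=
        mul_le_mul (b₂ z) (bd2' a z) (sq_nonneg _) hC₀
      linarith
    have k3 := Finset.sum_le_sum fun a (_ : a ∈ (Finset.univ : Finset (Fin m))) =>
      add_le_add (k1 a) (k2 a)
    have k4 : ∑ a : Fin m, ((o₁ z * (QX s₁ W (a₁ a) z + QY s₂ W (a₂ a) z) ^ 2 / 2 -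
        C₀ * (L1 * F z + L2 * Z z)) +
        (o₂ z * (PY s₂ W (a₁ a) z - PX s₁ W (a₂ a) z) ^ 2 / 2 -
        C₀ * (L1 * F z + L2 * Z z))) =
        T z / 2 - 2 * C₀ * m * (L1 * F z + L2 * Z z) := by
      have e5 : ∀ a : Fin m, ((o₁ z * (QX s₁ W (a₁ a) z + QY s₂ W (a₂ a) z) ^ 2 / 2 -
        C₀ * (L1 * F z + L2 * Z z)) +
        (o₂ z * (PY s₂ W (a₁ a) z - PX s₁ W (a₂ a) z) ^ 2 / 2 -
        C₀ * (L1 * F z + L2 * Z z))) =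
        (o₁ z * (QX s₁ W (a₁ a) z + QY s₂ W (a₂ a) z) ^ 2
          + o₂ z * (PY s₂ W (a₁ a) z - PX s₁ W (a₂ a) z) ^ 2) / 2 -
          2 * C₀ * (L1 * F z + L2 * Z z) := fun a => by ring
      rw [Finset.sum_congr rfl fun a _ => e5 a, Finset.sum_sub_distrib, Finset.sum_const,
        Finset.card_univ, Fintype.card_fin, nsmul_eq_mul, ← Finset.sum_div, hT]
      ring
    have k5 : ∑ a, (o₁ z * ((QX s₁ W (a₁ a) z + QY s₂ W (a₂ a) z) + D1 a z) ^ 2 +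
        o₂ z * ((PY s₂ W (a₁ a) z - PX s₁ W (a₂ a) z) + D2 a z) ^ 2) =
        o₁ z * ∑ a, ((QX s₁ W (a₁ a) z + QY s₂ W (a₂ a) z) + D1 a z) ^ 2
          + o₂ z * ∑ a, ((PY s₂ W (a₁ a) z - PX s₁ W (a₂ a) z) + D2 a z) ^ 2 := by
      rw [Finset.sum_add_distrib, ← Finset.mul_sum, ← Finset.mul_sum]
    rw [k4, k5] at k3
    exact k3
  -- integrability
  have i1 : ∀ a, Integrable (fun z => o₁ z * (QX s₁ W (a₁ a) z + QY s₂ W (a₂ a) z) ^ 2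
      + o₂ z * (PY s₂ W (a₁ a) z - PX s₁ W (a₂ a) z) ^ 2) := fun a =>
    (int_ct co₁ (tt_sq (tt_add (tt_QX hs₁ hW (h1 a)) (tt_QY hs₂ hW (h2 a))))).add
      (int_ct co₂ (tt_sq (tt_sub (tt_PY hs₂ hW (h1 a)) (tt_PX hs₁ hW (h2 a)))))
  have i2 : ∀ a, Integrable (gf W (a₁ a) (a₂ a)) := fun a =>
    (tt_gf hW (h1 a) (h2 a)).s.continuous.integrable_of_hasCompactSupport
      (tt_gf hW (h1 a) (h2 a)).c
  have i2' : ∀ a, Integrable (fun z => a₁ a z ^ 2 + a₂ a z ^ 2) := fun a =>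
    (tt_add (tt_sq (h1 a)) (tt_sq (h2 a))).s.continuous.integrable_of_hasCompactSupport
      (tt_add (tt_sq (h1 a)) (tt_sq (h2 a))).c
  have i3 : Integrable (fun z => o₁ z * ∑ a, ((QX s₁ W (a₁ a) z + QY s₂ W (a₂ a) z) + D1 a z) ^ 2
      + o₂ z * ∑ a, ((PY s₂ W (a₁ a) z - PX s₁ W (a₂ a) z) + D2 a z) ^ 2) :=
    (int_ct co₁ (tt_sum _ fun a => tt_sq (tt_add (tt_add (tt_QX hs₁ hW (h1 a))
      (tt_QY hs₂ hW (h2 a))) (t1 a)))).add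
      (int_ct co₂ (tt_sum _ fun a => tt_sq (tt_add (tt_sub (tt_PY hs₂ hW (h1 a))
        (tt_PX hs₁ hW (h2 a))) (t2 a))))
  have i4 : ∀ a, Integrable (fun z => w z * (a₁ a z ^ 2 + a₂ a z ^ 2)) := fun a =>
    int_ct cw (tt_add (tt_sq (h1 a)) (tt_sq (h2 a)))
  have j1 : Integrable T := by
    rw [hT]
    exact integrable_finsetSum _ fun a _ => i1 a
  have j2 : Integrable F := by
    rw [hF]
    exact integrable_finsetSum _ fun a _ => i2 a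
  have j2' : Integrable Z := by
    rw [hZ]
    exact integrable_finsetSum _ fun a _ => i2' a
  have j2s : Integrable (fun z => L1 * F z + L2 * Z z) := (j2.const_mul L1).add (j2'.const_mul L2)
  have j3 : Integrable (fun z => T z / 2 - 2 * C₀ * m * (L1 * F z + L2 * Z z)) :=
    (j1.div_const 2).sub (j2s.const_mul (2 * C₀ * m))
  have hint := integral_mono j3 i3 hpt
  rw [integral_sub (j1.div_const 2) (j2s.const_mul (2 * C₀ * m)), integral_div,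
    integral_const_mul, integral_add (j2.const_mul L1) (j2'.const_mul L2), integral_const_mul,
    integral_const_mul] at hint
  have hTs : ∫ z, T z = ∑ a, ∫ z, (o₁ z * (QX s₁ W (a₁ a) z + QY s₂ W (a₂ a) z) ^ 2
      + o₂ z * (PY s₂ W (a₁ a) z - PX s₁ W (a₂ a) z) ^ 2) := by
    rw [hT]
    exact integral_finsetSum _ fun a _ => i1 a
  have hFs : ∫ z, F z = ∑ a, ∫ z, gf W (a₁ a) (a₂ a) z := by
    rw [hF]
    exact integral_finsetSum _ fun a _ => i2 a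
  have hZs : ∫ z, Z z = ∑ a, ∫ z, (a₁ a z ^ 2 + a₂ a z ^ 2) := by
    rw [hZ]
    exact integral_finsetSum _ fun a _ => i2' a
  have hsum := Finset.sum_le_sum fun a (_ : a ∈ (Finset.univ : Finset (Fin m))) =>
    est (a₁ a) (a₂ a) (h1 a) (h2 a)
  rw [Finset.sum_add_distrib, Finset.sum_add_distrib, ← Finset.mul_sum, ← Finset.mul_sum, ← hTs,
    ← hFs, ← hZs] at hsum
  have e6 : ∫ z, (w z / 2) * ∑ a, (a₁ a z ^ 2 + a₂ a z ^ 2) =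
      (∑ a, ∫ z, w z * (a₁ a z ^ 2 + a₂ a z ^ 2)) / 2 := by
    rw [← integral_finsetSum _ fun a _ => i4 a, ← integral_div]
    congr 1
    funext z
    rw [← Finset.mul_sum]
    ring
  have Fn : 0 ≤ ∫ z, F z := by
    refine integral_nonneg fun z => ?_
    rw [hF]
    refine Finset.sum_nonneg fun b _ => ?_
    unfold gf
    refine Finset.sum_nonneg fun i _ => ?_
    have q1 := c2_nn z.1
    have q2 := c2_nn z.2
    positivity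
  have Zn : 0 ≤ ∫ z, Z z := by
    refine integral_nonneg fun z => ?_
    rw [hZ]
    exact Finset.sum_nonneg fun b _ => by positivity
  have m1 := mul_le_mul_of_nonneg_right g1 Fn
  have m2 := mul_le_mul_of_nonneg_right g2 Zn
  rw [e6]
  refine le_trans ?_ hint
  nlinarith

end pert

/-! ## The perturbation -/

/-- The conditions on the first order terms `2 s ∇φ + β`. -/
structure Pb (δ M : ℝ) (s : MF n) (φ : V n → ℝ) (β : Fin n → V n → Matrix (Fin m) (Fin m) ℝ) :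
    Prop where
  ss : SmM s
  sy : ∀ x, (s x).IsSymm
  sφ : ContDiff ℝ ∞ φ
  sβ : ∀ i a b, ContDiff ℝ ∞ (fun x => β i x a b)
  q : ∀ x, |qq s φ x| ≤ M
  g : ∀ i x, |pd i φ x| ≤ M
  b0 : ∀ i a b x, |β i x a b| ≤ δ
  b1 : ∀ i a b x, |pd i (fun y => β i y a b) x| ≤ δ
  sp : ∀ i x, 4 ≤ HY.sq x → β i x = 0

theorem qq_sm {s : MF n} (hs : SmM s) {φ : V n → ℝ} (hφ : ContDiff ℝ ∞ φ) :
    ContDiff ℝ ∞ (qq s φ) := by
  unfold qq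
  refine ContDiff.add ?_ (ContDiff.sum fun i _ => ContDiff.sum fun j _ =>
    (hs i j).mul ((s_pd hφ i).mul (s_pd hφ j)))
  unfold Ldv
  exact ContDiff.sum fun i _ => s_pd (ContDiff.sum fun j _ => (hs i j).mul (s_pd hφ j)) i

/-- One slot, adjoint. -/
def P1 (s : MF n) (φ : V n → ℝ) (β : Fin n → V n → Matrix (Fin m) (Fin m) ℝ) (x : V n)
    (f : Fin m → ℝ) (u : Fin n → Fin m → ℝ) (a : Fin m) : ℝ :=
  -(qq s φ x * f a) + -(∑ i, ∑ b, β i x b a * u i b) +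
    -(∑ i, ∑ b, (β i x b a * pd i φ x + pd i (fun x => β i x b a) x) * f b)

/-- One slot. -/
def P2 (s : MF n) (φ : V n → ℝ) (β : Fin n → V n → Matrix (Fin m) (Fin m) ℝ) (x : V n)
    (f : Fin m → ℝ) (u : Fin n → Fin m → ℝ) (a : Fin m) : ℝ :=
  -(qq s φ x * f a) + (∑ i, ∑ b, β i x a b * u i b) +
    -(∑ i, ∑ b, (β i x a b * pd i φ x) * f b)

theorem sq3 (p q r : ℝ) : (p + q + r) ^ 2 ≤ 3 * (p ^ 2 + q ^ 2 + r ^ 2) := by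
  nlinarith [sq_nonneg (p - q), sq_nonneg (p - r), sq_nonneg (q - r)]

theorem P1_le {δ M : ℝ} (h0 : 0 ≤ δ) (h1 : δ ≤ 1) (hM : 0 ≤ M) {s : MF n} {φ : V n → ℝ}
    {β : Fin n → V n → Matrix (Fin m) (Fin m) ℝ} (h : Pb δ M s φ β) (x : V n) (f : Fin m → ℝ)
    (u : Fin n → Fin m → ℝ) (a : Fin m) :
    P1 s φ β x f u a ^ 2 ≤ 3 * (n * m * δ ^ 2) * (c2 x * ∑ b, ∑ i, u i b ^ 2) +
      3 * (M ^ 2 + n * (n * m * (M + 1) ^ 2)) * ∑ b, f b ^ 2 := by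
  have e1 : (∑ i, ∑ b, β i x b a * u i b) ^ 2 ≤ (n * m * δ ^ 2) * (c2 x * ∑ b, ∑ i, u i b ^ 2) := by
    by_cases hx : 4 ≤ HY.sq x
    · have : ∑ i, ∑ b, β i x b a * u i b = 0 := by
        refine Finset.sum_eq_zero fun i _ => Finset.sum_eq_zero fun b _ => ?_
        rw [h.sp i x hx]
        simp
      rw [this, zero_pow two_ne_zero]
      have := c2_nn x
      positivity
    · rw [c2_one (not_le.1 hx), one_mul]
      exact cs2 fun i b => h.b0 i b a x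
  have e2 : (∑ i, ∑ b, (β i x b a * pd i φ x + pd i (fun x => β i x b a) x) * f b) ^ 2 ≤
      (n * m * (M + 1) ^ 2) * (n * ∑ b, f b ^ 2) := by
    have h3 := cs2 (n := n) (m := m) (M := M + 1)
      (c := fun i b => β i x b a * pd i φ x + pd i (fun x => β i x b a) x)
      (x := fun _ b => f b) (fun i b => by
        refine (abs_add_le _ _).trans ?_
        rw [abs_mul]
        have h4 : |β i x b a| * |pd i φ x| ≤ 1 * M :=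
          mul_le_mul ((h.b0 i b a x).trans h1) (h.g i x) (abs_nonneg _) zero_le_one
        have h5 := h.b1 i b a x
        linarith)
    rwa [sum_const_n] at h3
  have e3 : (qq s φ x * f a) ^ 2 ≤ M ^ 2 * ∑ b, f b ^ 2 := by
    rw [mul_pow]
    refine mul_le_mul ?_ (Finset.single_le_sum (f := fun b => f b ^ 2)
      (fun _ _ => sq_nonneg _) (Finset.mem_univ a)) (sq_nonneg _) (sq_nonneg _)
    rw [← sq_abs]
    exact pow_le_pow_left₀ (abs_nonneg _) (h.q x) 2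
  have e4 := sq3 (-(qq s φ x * f a)) (-(∑ i, ∑ b, β i x b a * u i b))
    (-(∑ i, ∑ b, (β i x b a * pd i φ x + pd i (fun x => β i x b a) x) * f b))
  simp only [neg_sq] at e4
  unfold P1
  refine e4.trans ?_
  have e5 : (n : ℝ) * m * (M + 1) ^ 2 * (n * ∑ b, f b ^ 2) =
    n * (n * m * (M + 1) ^ 2) * ∑ b, f b ^ 2 := by ring
  rw [e5] at e2
  linarith

theorem P2_le {δ M : ℝ} (h0 : 0 ≤ δ) (h1 : δ ≤ 1) (hM : 0 ≤ M) {s : MF n} {φ : V n → ℝ}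
    {β : Fin n → V n → Matrix (Fin m) (Fin m) ℝ} (h : Pb δ M s φ β) (x : V n) (f : Fin m → ℝ)
    (u : Fin n → Fin m → ℝ) (a : Fin m) :
    P2 s φ β x f u a ^ 2 ≤ 3 * (n * m * δ ^ 2) * (c2 x * ∑ b, ∑ i, u i b ^ 2) +
      3 * (M ^ 2 + n * (n * m * (M + 1) ^ 2)) * ∑ b, f b ^ 2 := by
  have e1 : (∑ i, ∑ b, β i x a b * u i b) ^ 2 ≤ (n * m * δ ^ 2) * (c2 x * ∑ b, ∑ i, u i b ^ 2) := by
    by_cases hx : 4 ≤ HY.sq x
    · have : ∑ i, ∑ b, β i x a b * u i b = 0 := by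
        refine Finset.sum_eq_zero fun i _ => Finset.sum_eq_zero fun b _ => ?_
        rw [h.sp i x hx]
        simp
      rw [this, zero_pow two_ne_zero]
      have := c2_nn x
      positivity
    · rw [c2_one (not_le.1 hx), one_mul]
      exact cs2 fun i b => h.b0 i a b x
  have e2 : (∑ i, ∑ b, (β i x a b * pd i φ x) * f b) ^ 2 ≤
      (n * m * (M + 1) ^ 2) * (n * ∑ b, f b ^ 2) := by
    have h3 := cs2 (n := n) (m := m) (M := M + 1)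
      (c := fun i b => β i x a b * pd i φ x)
      (x := fun _ b => f b) (fun i b => by
        rw [abs_mul]
        have h4 : |β i x a b| * |pd i φ x| ≤ 1 * M :=
          mul_le_mul ((h.b0 i a b x).trans h1) (h.g i x) (abs_nonneg _) zero_le_one
        linarith)
    rwa [sum_const_n] at h3
  have e3 : (qq s φ x * f a) ^ 2 ≤ M ^ 2 * ∑ b, f b ^ 2 := by
    rw [mul_pow]
    refine mul_le_mul ?_ (Finset.single_le_sum (f := fun b => f b ^ 2)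
      (fun _ _ => sq_nonneg _) (Finset.mem_univ a)) (sq_nonneg _) (sq_nonneg _)
    rw [← sq_abs]
    exact pow_le_pow_left₀ (abs_nonneg _) (h.q x) 2
  have e4 := sq3 (-(qq s φ x * f a)) (∑ i, ∑ b, β i x a b * u i b)
    (-(∑ i, ∑ b, (β i x a b * pd i φ x) * f b))
  simp only [neg_sq] at e4
  unfold P2
  refine e4.trans ?_
  have e5 : (n : ℝ) * m * (M + 1) ^ 2 * (n * ∑ b, f b ^ 2) =
    n * (n * m * (M + 1) ^ 2) * ∑ b, f b ^ 2 := by ring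
  rw [e5] at e2
  linarith

section fin

variable {s₁ s₂ : MF n} {φ : V n → ℝ} {β₁ β₂ : Fin n → V n → Matrix (Fin m) (Fin m) ℝ}
  {W : VV n → ℝ} {a₁ a₂ : Fin m → VV n → ℝ}

/-- The perturbation of the first square. -/
def D1 (s₁ s₂ : MF n) (φ : V n → ℝ) (β₁ β₂ : Fin n → V n → Matrix (Fin m) (Fin m) ℝ)
    (W : VV n → ℝ) (a₁ a₂ : Fin m → VV n → ℝ) (a : Fin m) (z : VV n) : ℝ :=
  P1 s₁ φ β₁ z.1 (fun b => a₁ b z) (fun i b => HY.dx i (a₁ b) z - HY.dx i W z * a₁ b z) a +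
  P1 s₂ φ β₂ z.2 (fun b => a₂ b z) (fun i b => HY.dy i (a₂ b) z - HY.dy i W z * a₂ b z) a

/-- The perturbation of the second square. -/
def D2 (s₁ s₂ : MF n) (φ : V n → ℝ) (β₁ β₂ : Fin n → V n → Matrix (Fin m) (Fin m) ℝ)
    (W : VV n → ℝ) (a₁ a₂ : Fin m → VV n → ℝ) (a : Fin m) (z : VV n) : ℝ :=
  P2 s₂ φ β₂ z.2 (fun b => a₁ b z) (fun i b => HY.dy i (a₁ b) z + HY.dy i W z * a₁ b z) a -
  P2 s₁ φ β₁ z.1 (fun b => a₂ b z) (fun i b => HY.dx i (a₂ b) z + HY.dx i W z * a₂ b z) a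

theorem Q_sh {δ M : ℝ} (k₁ : Pb δ M s₁ φ β₁) (k₂ : Pb δ M s₂ φ β₂) (hW : ContDiff ℝ ∞ W)
    (a : Fin m) (z : VV n) :
    QXN s₁ (cB s₁ φ β₁) (shW φ W) a₁ a z + QYN s₂ (cB s₂ φ β₂) (shW φ W) a₂ a z =
      (QX s₁ W (a₁ a) z + QY s₂ W (a₂ a) z) + D1 s₁ s₂ φ β₁ β₂ W a₁ a₂ a z := by
  rw [QXN_sh k₁.ss k₁.sy hW k₁.sφ k₁.sβ, QYN_sh k₂.ss k₂.sy hW k₂.sφ k₂.sβ]
  unfold D1 P1
  ring

theorem P_sh {δ M : ℝ} (k₁ : Pb δ M s₁ φ β₁) (k₂ : Pb δ M s₂ φ β₂) (hW : ContDiff ℝ ∞ W)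
    (a : Fin m) (z : VV n) :
    PYN s₂ (cB s₂ φ β₂) (shW φ W) a₁ a z - PXN s₁ (cB s₁ φ β₁) (shW φ W) a₂ a z =
      (PY s₂ W (a₁ a) z - PX s₁ W (a₂ a) z) + D2 s₁ s₂ φ β₁ β₂ W a₁ a₂ a z := by
  rw [PXN_sh k₁.ss k₁.sy hW k₁.sφ, PYN_sh k₂.ss k₂.sy hW k₂.sφ]
  unfold D2 P2
  ring

theorem tt_P1 {δ M : ℝ} (k : Pb δ M s₁ φ β₁) {g : VV n → V n} (hg : ContDiff ℝ ∞ g)
    {f : Fin m → VV n → ℝ} {u : Fin n → Fin m → VV n → ℝ} (hf : ∀ b, Tt univ (f b))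
    (hu : ∀ i b, Tt univ (u i b)) (a : Fin m) :
    Tt univ (fun z => P1 s₁ φ β₁ (g z) (fun b => f b z) (fun i b => u i b z) a) := by
  have hc : ∀ {c : V n → ℝ}, ContDiff ℝ ∞ c → S fun z : VV n => c (g z) := fun hc => hc.comp hg
  unfold P1
  refine tt_add (tt_add ?_ ?_) ?_
  · exact tt_neg (tt_mulL (hc (qq_sm k.ss k.sφ)) (hf a))
  · exact tt_neg (tt_sum _ fun i => tt_sum _ fun b => tt_mulL (hc (k.sβ i b a)) (hu i b))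
  · exact tt_neg (tt_sum _ fun i => tt_sum _ fun b => tt_mulL
      (hc (((k.sβ i b a).mul (s_pd k.sφ i)).add (s_pd (k.sβ i b a) i))) (hf b))

theorem tt_P2 {δ M : ℝ} (k : Pb δ M s₁ φ β₁) {g : VV n → V n} (hg : ContDiff ℝ ∞ g)
    {f : Fin m → VV n → ℝ} {u : Fin n → Fin m → VV n → ℝ} (hf : ∀ b, Tt univ (f b))
    (hu : ∀ i b, Tt univ (u i b)) (a : Fin m) :
    Tt univ (fun z => P2 s₁ φ β₁ (g z) (fun b => f b z) (fun i b => u i b z) a) := by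
  have hc : ∀ {c : V n → ℝ}, ContDiff ℝ ∞ c → S fun z : VV n => c (g z) := fun hc => hc.comp hg
  unfold P2
  refine tt_add (tt_add ?_ ?_) ?_
  · exact tt_neg (tt_mulL (hc (qq_sm k.ss k.sφ)) (hf a))
  · exact tt_sum _ fun i => tt_sum _ fun b => tt_mulL (hc (k.sβ i a b)) (hu i b)
  · exact tt_neg (tt_sum _ fun i => tt_sum _ fun b => tt_mulL
      (hc ((k.sβ i a b).mul (s_pd k.sφ i))) (hf b))

theorem gf_sum (z : VV n) : ∑ b, gf W (a₁ b) (a₂ b) z =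
    c2 z.1 * (∑ b, ∑ i, (HY.dx i (a₁ b) z - HY.dx i W z * a₁ b z) ^ 2) +
    c2 z.1 * (∑ b, ∑ i, (HY.dx i (a₂ b) z + HY.dx i W z * a₂ b z) ^ 2) +
    (c2 z.2 * (∑ b, ∑ i, (HY.dy i (a₁ b) z + HY.dy i W z * a₁ b z) ^ 2) +
    c2 z.2 * (∑ b, ∑ i, (HY.dy i (a₂ b) z - HY.dy i W z * a₂ b z) ^ 2)) := by
  unfold gf
  simp only [Finset.mul_sum, ← Finset.sum_add_distrib]
  exact Finset.sum_congr rfl fun b _ => Finset.sum_congr rfl fun i _ => by ring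

theorem D_le {δ M : ℝ} (h0 : 0 ≤ δ) (h1 : δ ≤ 1) (hM : 0 ≤ M) (k₁ : Pb δ M s₁ φ β₁)
    (k₂ : Pb δ M s₂ φ β₂) (a : Fin m) (z : VV n) :
    D1 s₁ s₂ φ β₁ β₂ W a₁ a₂ a z ^ 2 ≤
      (6 * (n * m * δ ^ 2)) * (∑ b, gf W (a₁ b) (a₂ b) z) +
      (6 * (M ^ 2 + n * (n * m * (M + 1) ^ 2))) * ∑ b, (a₁ b z ^ 2 + a₂ b z ^ 2) ∧
    D2 s₁ s₂ φ β₁ β₂ W a₁ a₂ a z ^ 2 ≤
      (6 * (n * m * δ ^ 2)) * (∑ b, gf W (a₁ b) (a₂ b) z) +
      (6 * (M ^ 2 + n * (n * m * (M + 1) ^ 2))) * ∑ b, (a₁ b z ^ 2 + a₂ b z ^ 2) := by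
  have q1 := c2_nn z.1
  have q2 := c2_nn z.2
  rw [gf_sum, Finset.sum_add_distrib]
  obtain ⟨X1, hX1⟩ : ∃ x, x = c2 z.1 * (∑ b, ∑ i, (HY.dx i (a₁ b) z - HY.dx i W z * a₁ b z) ^ 2) :=
    ⟨_, rfl⟩
  obtain ⟨X2, hX2⟩ : ∃ x, x = c2 z.1 * (∑ b, ∑ i, (HY.dx i (a₂ b) z + HY.dx i W z * a₂ b z) ^ 2) :=
    ⟨_, rfl⟩
  obtain ⟨X3, hX3⟩ : ∃ x, x = c2 z.2 * (∑ b, ∑ i, (HY.dy i (a₁ b) z + HY.dy i W z * a₁ b z) ^ 2) :=
    ⟨_, rfl⟩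
  obtain ⟨X4, hX4⟩ : ∃ x, x = c2 z.2 * (∑ b, ∑ i, (HY.dy i (a₂ b) z - HY.dy i W z * a₂ b z) ^ 2) :=
    ⟨_, rfl⟩
  have p1 : 0 ≤ X1 := by rw [hX1]; positivity
  have p2 : 0 ≤ X2 := by rw [hX2]; positivity
  have p3 : 0 ≤ X3 := by rw [hX3]; positivity
  have p4 : 0 ≤ X4 := by rw [hX4]; positivity
  rw [← hX1, ← hX2, ← hX3, ← hX4]
  have r1 := P1_le h0 h1 hM k₁ z.1 (fun b => a₁ b z)
    (fun i b => HY.dx i (a₁ b) z - HY.dx i W z * a₁ b z) a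
  have r2 := P1_le h0 h1 hM k₂ z.2 (fun b => a₂ b z)
    (fun i b => HY.dy i (a₂ b) z - HY.dy i W z * a₂ b z) a
  have r3 := P2_le h0 h1 hM k₂ z.2 (fun b => a₁ b z)
    (fun i b => HY.dy i (a₁ b) z + HY.dy i W z * a₁ b z) a
  have r4 := P2_le h0 h1 hM k₁ z.1 (fun b => a₂ b z)
    (fun i b => HY.dx i (a₂ b) z + HY.dx i W z * a₂ b z) a
  rw [← hX1] at r1
  rw [← hX4] at r2
  rw [← hX3] at r3
  rw [← hX2] at r4
  have hk : 0 ≤ (n : ℝ) * m * δ ^ 2 := by positivity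
  have l1 := mul_nonneg hk p1
  have l2 := mul_nonneg hk p2
  have l3 := mul_nonneg hk p3
  have l4 := mul_nonneg hk p4
  constructor
  · unfold D1
    have h2 : ∀ x y : ℝ, (x + y) ^ 2 ≤ 2 * (x ^ 2 + y ^ 2) := fun x y => by
      nlinarith [sq_nonneg (x - y)]
    refine (h2 _ _).trans ?_
    linarith
  · unfold D2
    have h2 : ∀ x y : ℝ, (x - y) ^ 2 ≤ 2 * (x ^ 2 + y ^ 2) := fun x y => by
      nlinarith [sq_nonneg (x + y)]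
    refine (h2 _ _).trans ?_
    linarith

end fin

/-- **The estimate for systems.** -/
theorem estH (n m : ℕ) {M C₀ g₀ : ℝ} (hM : 0 ≤ M) (hC₀ : 0 ≤ C₀) (hg : 0 < g₀) :
    ∃ δ G₀ : ℝ, 0 < δ ∧ δ ≤ 1 ∧ 0 ≤ G₀ ∧
    ∀ (s₁ s₂ : MF n) (φ : V n → ℝ) (β₁ β₂ : Fin n → V n → Matrix (Fin m) (Fin m) ℝ),
    Pb δ M s₁ φ β₁ → Pb δ M s₂ φ β₂ →
    ∀ W : VV n → ℝ, ContDiff ℝ ∞ W → ∀ w o₁ o₂ : VV n → ℝ, Continuous w →
    Continuous o₁ → (∀ z, 0 < o₁ z) → (∀ z, o₁ z ≤ C₀) → Continuous o₂ → (∀ z, 0 < o₂ z) →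
    (∀ z, o₂ z ≤ C₀) →
    (∀ a₁ a₂ : VV n → ℝ, Tt univ a₁ → Tt univ a₂ →
      (∫ z, w z * (a₁ z ^ 2 + a₂ z ^ 2)) + g₀ * (∫ z, gf W a₁ a₂ z) +
          G₀ * (∫ z, (a₁ z ^ 2 + a₂ z ^ 2)) ≤
        ∫ z, (o₁ z * (QX s₁ W a₁ z + QY s₂ W a₂ z) ^ 2
          + o₂ z * (PY s₂ W a₁ z - PX s₁ W a₂ z) ^ 2)) →
    ∀ a₁ a₂ : Fin m → VV n → ℝ, (∀ a, Tt univ (a₁ a)) → (∀ a, Tt univ (a₂ a)) →
      ∫ z, (w z / 2) * ∑ a, (a₁ a z ^ 2 + a₂ a z ^ 2) ≤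
        ∫ z, (o₁ z * ∑ a, (QXN s₁ (cB s₁ φ β₁) (shW φ W) a₁ a z +
            QYN s₂ (cB s₂ φ β₂) (shW φ W) a₂ a z) ^ 2
          + o₂ z * ∑ a, (PYN s₂ (cB s₂ φ β₂) (shW φ W) a₁ a z -
            PXN s₁ (cB s₁ φ β₁) (shW φ W) a₂ a z) ^ 2) := by
  obtain ⟨κ, hκ⟩ : ∃ κ : ℝ, κ = 4 * C₀ * m * (6 * (n * m)) := ⟨_, rfl⟩
  have κ0 : 0 ≤ κ := by rw [hκ]; positivity
  refine ⟨min 1 (g₀ / (κ + 1)), 4 * C₀ * m * (6 * (M ^ 2 + n * (n * m * (M + 1) ^ 2))),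
    lt_min one_pos (by positivity), min_le_left _ _, by positivity, ?_⟩
  obtain ⟨δ, hδ⟩ : ∃ δ : ℝ, δ = min 1 (g₀ / (κ + 1)) := ⟨_, rfl⟩
  rw [← hδ]
  have δ0 : 0 < δ := by rw [hδ]; exact lt_min one_pos (by positivity)
  have δ1 : δ ≤ 1 := by rw [hδ]; exact min_le_left _ _
  have δ2 : δ ≤ g₀ / (κ + 1) := by rw [hδ]; exact min_le_right _ _
  intro s₁ s₂ φ β₁ β₂ k₁ k₂ W hW w o₁ o₂ cw co₁ p₁ b₁ co₂ p₂ b₂ est a₁ a₂ h1 h2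
  simp only [Q_sh k₁ k₂ hW, P_sh k₁ k₂ hW]
  refine est_pert (L1 := 6 * (n * m * δ ^ 2))
    (L2 := 6 * (M ^ 2 + n * (n * m * (M + 1) ^ 2))) hC₀ ?_ le_rfl k₁.ss k₂.ss hW cw co₁ p₁ b₁ co₂
    p₂ b₂ est h1 h2 (fun a => ?_) (fun a => ?_) (fun a z => (D_le δ0.le δ1 hM k₁ k₂ a z).1)
    fun a z => (D_le δ0.le δ1 hM k₁ k₂ a z).2
  · have e1 : 4 * C₀ * m * (6 * (n * m * δ ^ 2)) = κ * δ ^ 2 := by rw [hκ]; ring
    rw [e1]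
    have e2 : δ ^ 2 ≤ δ := by nlinarith
    have e3 : κ * δ ≤ κ * (g₀ / (κ + 1)) := mul_le_mul_of_nonneg_left δ2 κ0
    have e4 : κ * (g₀ / (κ + 1)) ≤ g₀ := by
      rw [mul_div_assoc', div_le_iff₀ (by positivity)]
      nlinarith
    have e5 := mul_le_mul_of_nonneg_left e2 κ0
    linarith
  · exact tt_add (tt_P1 k₁ contDiff_fst h1 (fun i b => tt_sub (tt_dx (h1 b) i)
      (tt_mulL (S.dx hW i) (h1 b))) a) (tt_P1 k₂ contDiff_snd h2 (fun i b => tt_sub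
      (tt_dy (h2 b) i) (tt_mulL (S.dy hW i) (h2 b))) a)
  · exact tt_sub (tt_P2 k₂ contDiff_snd h1 (fun i b => tt_add (tt_dy (h1 b) i)
      (tt_mulL (S.dy hW i) (h1 b))) a) (tt_P2 k₁ contDiff_fst h2 (fun i b => tt_add
      (tt_dx (h2 b) i) (tt_mulL (S.dx hW i) (h2 b))) a)

end Vale.Agent.P088.S4.H561
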