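import Vale.Agent.P088.R2.H561.S4.Ad8
import Vale.Agent.P088.R2.H561.S4.EstH

/-!
# P088, stage 4, adapter for systems, part 10: the shift of the weight, the corrections
-/

open MeasureTheory Set Filter Topology
open scoped ContDiff Matrix

noncomputable section

namespace Vale.Agent.P088.S4.H561

open Vale.Agent.P088.LR Vale.Agent.P088.LR.U Vale.Agent.P088.LR.H158 Vale.Agent.P088.HY
open Vale.Agent.P088.PJ
open Vale.Agent.P088.HY.T3 (Ldv ks iv Eb Ac Ao isOpen_Ao isClosed_Ac isCompact_Ac rt_ball)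
open Vale.Agent.P088.HY.T4 (Oc Zq gx kk gy)
open Vale.Agent.P088.HY.H437.Kel (Cuts st)
open Vale.Agent.P088.R2.H269 (Tn Wt Tt DX DY ky Zi Zq_iv Zq_ne Ac_iv Ac_ne iv_dist_le iv_dist_ge
  num_w kk_ky kk_iv qf qf_nn)
open Vale.Agent.P088.S4.H437 (s_pd)

variable {n N m : ℕ}

/-! ## The split of the coefficients -/

section split

variable {χ χa ψ χ2 : V n → ℝ}

theorem Bx_cB (s : MF n) (B : B1 n m) : Bx (gD χ χa ψ χ2 s B) =
    cB (st χ χa ψ χ2 s) (ph χ ψ χ2) (Bx (gB χ ψ χ2 B)) := by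
  funext i x
  ext a b
  obtain ⟨⟨p, q⟩, rfl⟩ := (en m).surjective a
  obtain ⟨⟨p', q'⟩, rfl⟩ := (en m).surjective b
  rw [cB_ap, Bx_ap, Bx_ap]
  unfold gD
  have e1 : (en m (p, q) = en m (p', q')) ↔ (p = p' ∧ q = q') := by
    rw [(en m).injective.eq_iff, Prod.mk.injEq]
  by_cases hq : q = q'
  · by_cases hp : p = p'
    · simp [hq, hp]
    · have : ¬(en m (p, q) = en m (p', q')) := fun h => hp (e1.1 h).1
      rw [if_neg this]
      simp [hq, hp]
  · have : ¬(en m (p, q) = en m (p', q')) := fun h => hq (e1.1 h).2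
    rw [if_neg this]
    simp [hq]

theorem By_cB (s : MF n) (B : B1 n m) : By (gD χ χa ψ χ2 s B) =
    cB (st χ χa ψ χ2 s) (ph χ ψ χ2) (By (gB χ ψ χ2 B)) := by
  funext i x
  ext a b
  obtain ⟨⟨p, q⟩, rfl⟩ := (en m).surjective a
  obtain ⟨⟨p', q'⟩, rfl⟩ := (en m).surjective b
  rw [cB_ap, By_ap, By_ap]
  unfold gD
  have e1 : (en m (p, q) = en m (p', q')) ↔ (p = p' ∧ q = q') := by
    rw [(en m).injective.eq_iff, Prod.mk.injEq]
  by_cases hq : q = q'
  · by_cases hp : p = p'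
    · simp [hq, hp]
    · have : ¬(en m (p, q) = en m (p', q')) := fun h => hp (e1.1 h).1
      rw [if_neg this]
      simp [hq, hp]
  · by_cases hp : p = p'
    · have : ¬(en m (p, q) = en m (p', q')) := fun h => hq (e1.1 h).2
      rw [if_neg this]
      simp [hq, hp]
    · have : ¬(en m (p, q) = en m (p', q')) := fun h => hq (e1.1 h).2
      rw [if_neg this]
      simp [hp]

end split

/-! ## Bounds of `φ` -/

/-- Bounds of `φ` with two derivatives. -/
structure Bph (P : ℝ) (φ : V n → ℝ) : Prop where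
  sm : ContDiff ℝ ∞ φ
  p0 : ∀ x, |φ x| ≤ P
  p1 : ∀ j x, |pd j φ x| ≤ P
  p2 : ∀ i j x, |pd i (pd j φ) x| ≤ P

theorem bph_ex {χ χa ψ χ2 : V n → ℝ} (h : Cuts χ χa ψ χ2) :
    ∃ P : ℝ, 0 ≤ P ∧ Bph P (ph χ ψ χ2) := by
  have cs : ∀ {f : V n → ℝ}, HasCompactSupport f → ContDiff ℝ ∞ f → ∀ j,
      HasCompactSupport (pd j f) := fun hf _ j =>
    (hf.fderiv (𝕜 := ℝ)).comp_left (g := fun L : V n →L[ℝ] ℝ => L (Pi.single j 1)) rfl
  have sm := ph_cd h
  obtain ⟨P0, h0⟩ := (ph_c h).exists_bound_of_continuous sm.continuous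
  have e1 : ∀ j, ∃ C, ∀ x, ‖pd j (ph χ ψ χ2) x‖ ≤ C := fun j =>
    (cs (ph_c h) sm j).exists_bound_of_continuous (s_pd sm j).continuous
  have e2 : ∀ i j, ∃ C, ∀ x, ‖pd i (pd j (ph χ ψ χ2)) x‖ ≤ C := fun i j =>
    (cs (cs (ph_c h) sm j) (s_pd sm j) i).exists_bound_of_continuous
      (s_pd (s_pd sm j) i).continuous
  choose P1 h1 using e1
  choose P2 h2 using e2
  refine ⟨|P0| + ∑ j, |P1 j| + ∑ i, ∑ j, |P2 i j|, by positivity, sm, fun x => ?_, fun j x => ?_,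
    fun i j x => ?_⟩
  · have a1 := h0 x
    rw [Real.norm_eq_abs] at a1
    have a2 : 0 ≤ ∑ j, |P1 j| := by positivity
    have a3 : 0 ≤ ∑ i, ∑ j, |P2 i j| := by positivity
    have := le_abs_self P0
    linarith
  · have a1 := h1 j x
    rw [Real.norm_eq_abs] at a1
    have a2 : |P1 j| ≤ ∑ j, |P1 j| :=
      Finset.single_le_sum (f := fun j => |P1 j|) (fun _ _ => abs_nonneg _) (Finset.mem_univ j)
    have a3 : 0 ≤ ∑ i, ∑ j, |P2 i j| := by positivity
    have := le_abs_self (P1 j)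
    have := abs_nonneg P0
    linarith
  · have a1 := h2 i j x
    rw [Real.norm_eq_abs] at a1
    have a2 : 0 ≤ ∑ j, |P1 j| := by positivity
    have a3 : |P2 i j| ≤ ∑ i, ∑ j, |P2 i j| :=
      (Finset.single_le_sum (f := fun j => |P2 i j|) (fun _ _ => abs_nonneg _)
        (Finset.mem_univ j)).trans (Finset.single_le_sum (f := fun i => ∑ j, |P2 i j|)
          (fun _ _ => Finset.sum_nonneg fun _ _ => abs_nonneg _) (Finset.mem_univ i))
    have := le_abs_self (P2 i j)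
    have := abs_nonneg P0
    linarith

theorem sum2_le {f : Fin n → Fin n → ℝ} {c : ℝ} (h : ∀ i j, |f i j| ≤ c) :
    |∑ i, ∑ j, f i j| ≤ n * (n * c) := by
  refine (Finset.abs_sum_le_sum_abs _ _).trans ?_
  have h1 : ∀ i : Fin n, |∑ j, f i j| ≤ n * c := by
    intro i
    refine (Finset.abs_sum_le_sum_abs _ _).trans ((Finset.sum_le_sum fun j _ => h i j).trans ?_)
    rw [Finset.sum_const, Finset.card_univ, Fintype.card_fin, nsmul_eq_mul]
  refine (Finset.sum_le_sum fun i _ => h1 i).trans ?_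
  rw [Finset.sum_const, Finset.card_univ, Fintype.card_fin, nsmul_eq_mul]

theorem qq_le {s : MF n} (h : Tn 2 s) {φ : V n → ℝ} {P : ℝ} (hP : 0 ≤ P) (hφ : Bph P φ) (x : V n) :
    |qq s φ x| ≤ n * (n * (4 * P + 2 * P ^ 2)) := by
  have e1 : Ldv s φ x = ∑ i, ∑ j, (s x i j * pd i (pd j φ) x +
      pd j φ x * pd i (fun y => s y i j) x) := by
    unfold Ldv
    refine Finset.sum_congr rfl fun i _ => ?_
    rw [HY.H437.Kel.pd_sum (f := fun j x => s x i j * pd j φ x) fun j _ =>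
      ((h.sm i j).mul (s_pd hφ.sm j)).differentiable (by simp) _]
    refine Finset.sum_congr rfl fun j _ => ?_
    have d1 : DifferentiableAt ℝ (fun y => s y i j) x := (h.sm i j).differentiable (by simp) x
    have d2 : DifferentiableAt ℝ (pd j φ) x := (s_pd hφ.sm j).differentiable (by simp) x
    unfold pd at d2 ⊢
    rw [fderiv_fun_mul d1 d2]
    rfl
  unfold qq
  rw [e1, ← Finset.sum_add_distrib]
  simp only [← Finset.sum_add_distrib]
  refine sum2_le fun i j => ?_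
  have b0 := h.b0 x i j
  have b1 := h.b1 x i j i
  have p1 := hφ.p1
  have p2 := hφ.p2 i j x
  refine (abs_add_le _ _).trans ?_
  have t1 : |s x i j * pd i (pd j φ) x + pd j φ x * pd i (fun y => s y i j) x| ≤
      2 * P + P * 2 := by
    refine (abs_add_le _ _).trans (add_le_add ?_ ?_)
    · rw [abs_mul]
      exact mul_le_mul b0 p2 (abs_nonneg _) (by norm_num)
    · rw [abs_mul]
      exact mul_le_mul (p1 j x) b1 (abs_nonneg _) hP
  have t2 : |s x i j * (pd i φ x * pd j φ x)| ≤ 2 * (P * P) := by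
    rw [abs_mul, abs_mul]
    exact mul_le_mul b0 (mul_le_mul (p1 i x) (p1 j x) (abs_nonneg _) hP) (by positivity)
      (by norm_num)
  nlinarith

/-! ## The shifted weight -/

theorem dxx_sh {φ : V n → ℝ} {W : VV n → ℝ} (hW : ContDiff ℝ ∞ W) (hφ : ContDiff ℝ ∞ φ)
    (i j : Fin n) (z : VV n) :
    HY.dx i (HY.dx j (shW φ W)) z = HY.dx i (HY.dx j W) z - pd i (pd j φ) z.1 := by
  have e0 : HY.dx j (shW φ W) = fun w => HY.dx j W w - pd j φ w.1 := by
    funext w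
    exact dx_shW hW hφ j w
  have s1 : ContDiff ℝ ∞ (HY.dx j W) := R2.H269.S.dx hW j
  have s2 : ContDiff ℝ ∞ (fun w : VV n => pd j φ w.1) := (s_pd hφ j).comp contDiff_fst
  rw [e0, dx_sb (s1.differentiable (by simp) z) (s2.differentiable (by simp) z) i]
  congr 1
  rw [HY.QM.dx_eq (s2.differentiable (by simp) z)]

theorem dyy_sh {φ : V n → ℝ} {W : VV n → ℝ} (hW : ContDiff ℝ ∞ W) (hφ : ContDiff ℝ ∞ φ)
    (i j : Fin n) (z : VV n) :
    HY.dy i (HY.dy j (shW φ W)) z = HY.dy i (HY.dy j W) z - pd i (pd j φ) z.2 := by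
  have e0 : HY.dy j (shW φ W) = fun w => HY.dy j W w - pd j φ w.2 := by
    funext w
    exact dy_shW hW hφ j w
  have s1 : ContDiff ℝ ∞ (HY.dy j W) := R2.H269.S.dy hW j
  have s2 : ContDiff ℝ ∞ (fun w : VV n => pd j φ w.2) := (s_pd hφ j).comp contDiff_snd
  rw [e0, dy_sb (s1.differentiable (by simp) z) (s2.differentiable (by simp) z) i]
  congr 1
  rw [HY.QM.dy_eq (s2.differentiable (by simp) z)]

theorem dxy_sh {φ : V n → ℝ} {W : VV n → ℝ} (hW : ContDiff ℝ ∞ W) (hφ : ContDiff ℝ ∞ φ)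
    (i j : Fin n) (z : VV n) :
    HY.dx i (HY.dy j (shW φ W)) z = HY.dx i (HY.dy j W) z := by
  have e0 : HY.dy j (shW φ W) = fun w => HY.dy j W w - pd j φ w.2 := by
    funext w
    exact dy_shW hW hφ j w
  have s1 : ContDiff ℝ ∞ (HY.dy j W) := R2.H269.S.dy hW j
  have s2 : ContDiff ℝ ∞ (fun w : VV n => pd j φ w.2) := (s_pd hφ j).comp contDiff_snd
  rw [e0, dx_sb (s1.differentiable (by simp) z) (s2.differentiable (by simp) z) i,
    HY.QM.dx_eq (s2.differentiable (by simp) z)]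
  have : pd i (fun _ : V n => pd j φ z.2) z.1 = 0 := HY.H437.Kel.pd_const _ i z.1
  rw [this, sub_zero]

theorem wt_sh {B P : ℝ} (hB : 0 ≤ B) (hP : 0 ≤ P) {φ : V n → ℝ} (hφ : Bph P φ) {W : VV n → ℝ}
    (h : Wt B W) : Wt (2 * B + 2 * P ^ 2 + 2 * P) (shW φ W) := by
  have q : ∀ z : VV n, 0 ≤ qf z := qf_nn
  have key1 : ∀ {a b : ℝ} {z : VV n}, a ^ 2 ≤ B * (1 + qf z) → |b| ≤ P →
      (a - b) ^ 2 ≤ (2 * B + 2 * P ^ 2 + 2 * P) * (1 + qf z) := by
    intro a b z ha hb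
    have h1 : b ^ 2 ≤ P ^ 2 := by
      rw [← sq_abs]
      exact pow_le_pow_left₀ (abs_nonneg _) hb 2
    have h2 : (a - b) ^ 2 ≤ 2 * a ^ 2 + 2 * b ^ 2 := by nlinarith [_root_.sq_nonneg (a + b)]
    have h3 := q z
    have h4 : 0 ≤ P ^ 2 * qf z := by positivity
    have h5 : 0 ≤ P * (1 + qf z) := by positivity
    nlinarith
  have key2 : ∀ {a b : ℝ} {z : VV n}, |a| ≤ B * (1 + qf z) → |b| ≤ P →
      |a - b| ≤ (2 * B + 2 * P ^ 2 + 2 * P) * (1 + qf z) := by
    intro a b z ha hb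
    have h2 : |a - b| ≤ |a| + |b| := abs_sub a b
    have h3 := q z
    have h4 : 0 ≤ P ^ 2 * (1 + qf z) := by positivity
    have h5 : 0 ≤ P * qf z := by positivity
    have h6 : 0 ≤ B * (1 + qf z) := by positivity
    nlinarith
  refine ⟨shW_sm h.sm hφ.sm, fun z => ?_, fun i z => ?_, fun i z => ?_, fun i j z => ?_,
    fun i j z => ?_, fun i j z => ?_⟩
  · have h1 := h.lo z
    have h2 := (abs_le.1 (hφ.p0 z.1)).2
    have h3 := (abs_le.1 (hφ.p0 z.2)).2
    show _ ≤ W z - φ z.1 - φ z.2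
    nlinarith
  · rw [dx_shW h.sm hφ.sm]
    exact key1 (h.x1 i z) (hφ.p1 i z.1)
  · rw [dy_shW h.sm hφ.sm]
    exact key1 (h.y1 i z) (hφ.p1 i z.2)
  · rw [dxx_sh h.sm hφ.sm]
    exact key2 (h.xx i j z) (hφ.p2 i j z.1)
  · rw [dxy_sh h.sm hφ.sm]
    have := key2 (h.xy i j z) (b := 0) (by rw [abs_zero]; exact hP)
    rwa [sub_zero] at this
  · rw [dyy_sh h.sm hφ.sm]
    exact key2 (h.yy i j z) (hφ.p2 i j z.2)

end Vale.Agent.P088.S4.H561
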