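import Vale.Agent.P088.R2.H561.S4.Ad10

/-!
# P088, stage 4: the adapter for systems, `RowSOLWN` from `RowSOL3N` and `RowESTh`
-/

open MeasureTheory Set Filter Topology
open scoped ContDiff Matrix

noncomputable section

namespace Vale.Agent.P088.S4.H561

open Vale.Agent.P088.LR Vale.Agent.P088.LR.U Vale.Agent.P088.LR.H158 Vale.Agent.P088.HY
open Vale.Agent.P088.PJ
open Vale.Agent.P088.HY.T3 (iv Eb Ac Ao isOpen_Ao isClosed_Ac isCompact_Ac rt_ball)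
open Vale.Agent.P088.HY.T4 (Oc Zq gx kk gy)
open Vale.Agent.P088.HY.H437.Kel (Cuts st exists_cuts)
open Vale.Agent.P088.R2.H269 (ky Zi Zq_iv Zq_ne Ac_iv Ac_ne iv_dist_le iv_dist_ge num_w
  kk_ky kk_iv cd_i2 Tn Wt Tt)

variable {n N m : ℕ}

/-- The solvability from the a priori estimate with localised gains. -/
theorem solWNh_of (hS : RowSOL3N) (hn : 3 ≤ n) {χ χa ψ χ2 : V n → ℝ} (h : Cuts χ χa ψ χ2)
    {δ M g₀ G₀ C₂ P : ℝ} (hM : 2 ≤ M) (hP : 0 ≤ P) (hph : Bph P (ph χ ψ χ2))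
    (hG : ∀ (s₁ s₂ : MF n) (φ : V n → ℝ)
      (β₁ β₂ : Fin n → V n → Matrix (Fin ((N * 2) * (N * 2))) (Fin ((N * 2) * (N * 2))) ℝ),
      Pb δ M s₁ φ β₁ → Pb δ M s₂ φ β₂ →
      ∀ W : VV n → ℝ, ContDiff ℝ ∞ W → ∀ w o₁ o₂ : VV n → ℝ, Continuous w →
      Continuous o₁ → (∀ z, 0 < o₁ z) → (∀ z, o₁ z ≤ C₂) → Continuous o₂ → (∀ z, 0 < o₂ z) →
      (∀ z, o₂ z ≤ C₂) →
      (∀ a₁ a₂ : VV n → ℝ, Tt univ a₁ → Tt univ a₂ →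
        (∫ z, w z * (a₁ z ^ 2 + a₂ z ^ 2)) + g₀ * (∫ z, gf W a₁ a₂ z) +
            G₀ * (∫ z, (a₁ z ^ 2 + a₂ z ^ 2)) ≤
          ∫ z, (o₁ z * (R2.H269.QX s₁ W a₁ z + R2.H269.QY s₂ W a₂ z) ^ 2
            + o₂ z * (R2.H269.PY s₂ W a₁ z - R2.H269.PX s₁ W a₂ z) ^ 2)) →
      ∀ a₁ a₂ : Fin ((N * 2) * (N * 2)) → VV n → ℝ, (∀ a, Tt univ (a₁ a)) →
        (∀ a, Tt univ (a₂ a)) →
        ∫ z, (w z / 2) * ∑ a, (a₁ a z ^ 2 + a₂ a z ^ 2) ≤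
          ∫ z, (o₁ z * ∑ a, (QXN s₁ (cB s₁ φ β₁) (shW φ W) a₁ a z +
              QYN s₂ (cB s₂ φ β₂) (shW φ W) a₂ a z) ^ 2
            + o₂ z * ∑ a, (PYN s₂ (cB s₂ φ β₂) (shW φ W) a₁ a z -
              PXN s₁ (cB s₁ φ β₁) (shW φ W) a₂ a z) ^ 2))
    {d : PD n N} (d₁ : Dm d.s₁ d.β) (d₂ : Dm d.s₂ (b2 d))
    (T₁ : Tn M (st χ χa ψ χ2 d.s₁) ∧ Ue M (st χ χa ψ χ2 d.s₁))
    (T₂ : Tn M (st χ χa ψ χ2 d.s₂) ∧ Ue M (st χ χa ψ χ2 d.s₂))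
    (b₁ : (∀ a b i, ContDiff ℝ ∞ (gD χ χa ψ χ2 d.s₁ (hB d.s₁ d.β) a b i)) ∧
      ∀ a b i, Cl 1 M (gD χ χa ψ χ2 d.s₁ (hB d.s₁ d.β) a b i))
    (b₂ : (∀ a b i, ContDiff ℝ ∞ (gD χ χa ψ χ2 d.s₂ (hB d.s₂ fun l x => (b2 d l x)ᵀ) a b i)) ∧
      ∀ a b i, Cl 1 M (gD χ χa ψ χ2 d.s₂ (hB d.s₂ fun l x => (b2 d l x)ᵀ) a b i))
    (p₁ : Pb δ M (st χ χa ψ χ2 d.s₁) (ph χ ψ χ2) (Bx (gB χ ψ χ2 (hB d.s₁ d.β))))
    (p₂ : Pb δ M (st χ χa ψ χ2 d.s₂) (ph χ ψ χ2)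
      (By (gB χ ψ χ2 (hB d.s₂ fun l x => (b2 d l x)ᵀ))))
    {σ a b c C ν R kap Gs : ℝ} {W w : VV n → ℝ}
    (he : EBh (st χ χa ψ χ2 d.s₁) (st χ χa ψ χ2 d.s₂) σ a b c C ν R kap Gs g₀ G₀ C₂ W w) (r : ℝ)
    {C₃ : ℝ} (hC₃ : C₂ ≤ C₃) :
    SolWN d r (fun z => shW (ph χ ψ χ2) W (iz z)) (fun z => (2 * (kA n * C₃))⁻¹ * w (iz z)) := by
  obtain ⟨B0, hB00, hB0⟩ := he.wt
  obtain ⟨o₁, o₂, c₁, c₂, q₁, q₂, est⟩ := he.est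
  obtain ⟨B, hBd⟩ : ∃ B : ℝ, B = 2 * B0 + 2 * P ^ 2 + 2 * P := ⟨_, rfl⟩
  have hB : Wt B (shW (ph χ ψ χ2) W) := by rw [hBd]; exact wt_sh hB00 hP hph hB0
  have hM0 : 0 ≤ M := by linarith
  have C₂p : 0 < C₃ := ((q₁ (0, 0)).1.trans_le (q₁ (0, 0)).2).trans_le hC₃
  have kp : 0 < 2 * (kA n * C₃) := by have := kA_pos n; positivity
  have hbx := bn_x hM0 b₁.1 b₁.2
  have hby := bn_y hM0 b₂.1 b₂.2
  have hest := hG _ _ _ _ _ p₁ p₂ W hB0.sm w o₁ o₂ he.wc c₁ (fun z => (q₁ z).1)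
    (fun z => (q₁ z).2) c₂ (fun z => (q₂ z).1) (fun z => (q₂ z).2)
    fun a₁ a₂ h1 h2 => est a₁ a₂ h1.s h1.c h2.s h2.c
  rw [← Bx_cB, ← By_cB] at hest
  have hbn : ∀ {M' : ℝ} (_ : M ≤ M')
      {P : Fin n → V n → Matrix (Fin ((N * 2) * (N * 2))) (Fin ((N * 2) * (N * 2))) ℝ},
      Bn M P → Bn M' P := fun hMM _ hP => ⟨hP.sm, fun i a b x => (hP.b0 i a b x).trans hMM,
        fun k i a b x => (hP.b1 k i a b x).trans hMM⟩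
  have hM1 : M ≤ max M B := le_max_left _ _
  have htn : ∀ {s : MF n}, Tn M s → Tn (max M B) s := fun hs => ⟨hs.sm, hs.sy, hs.pos,
    fun x i j => (hs.b0 x i j).trans hM1, fun x i j k => (hs.b1 x i j k).trans hM1⟩
  have hue : ∀ {s : MF n}, Ue M s → Ue (max M B) s := by
    intro s hs x ξ
    have h1 := hs x ξ
    have h2 : 0 ≤ ∑ i, ξ i ^ 2 := Finset.sum_nonneg fun _ _ => _root_.sq_nonneg _
    have h3 : 0 ≤ ∑ i, ∑ j, s x i j * (ξ i * ξ j) := by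
      by_contra h4
      push Not at h4
      nlinarith
    exact h1.trans (mul_le_mul_of_nonneg_right hM1 h3)
  have hsol := hS n ((N * 2) * (N * 2)) (by omega) (max M B) (hM0.trans hM1) _ _ (htn T₁.1)
    (htn T₂.1) (hue T₁.2) (hue T₂.2) _ _ (hbn hM1 hbx) (hbn hM1 hby) (Bx_By _ _)
    (shW (ph χ ψ χ2) W)
    (R2.H269.Wt.mono (le_max_right _ _) hB) (fun z => w z / 2) o₁ o₂
    (he.wc.div_const 2) (fun z => half_pos (he.w0 z)) c₁ (fun z => (q₁ z).1) c₂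
    (fun z => (q₂ z).1) C₂ (fun z => (q₂ z).2) hest
  intro K0 hK hKc hsu
  obtain ⟨K1, k1, k2, k3, k4, k5⟩ := sol_tr hn h d₁ d₂ T₁.1.sm T₂.1.sm b₁.1 b₂.1 hB.sm.continuous
    (he.wc.div_const 2) (fun z => half_pos (he.w0 z)) (fun z => (q₁ z).1)
    (fun z => (q₁ z).2.trans hC₃) hsol (K := fun z => -K0 z) (fun a b => (hK a b).neg)
    (fun z hz => by
      have hz' : K0 z ≠ 0 := fun h0 => hz (by rw [h0, neg_zero])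
      exact ⟨(hsu z hz').1, (hsu z hz').2.1⟩)
  have L1 : ∀ z, Lk d.s₁ d.β (fun z => -K0 z) z = -LxK d K0 z := fun z => Lk_neg _ _ _ _
  have L2 : ∀ z, Rk d.s₂ (b2 d) (fun z => -K0 z) z = -RyK d K0 z := fun z => Rk_neg _ _ _ _
  refine ⟨K1, k1, fun z hz => (k2 z hz).trans (L1 z), fun z hz => (k3 z hz).trans (L2 z), k4,
    k5.trans (le_of_eq ?_)⟩
  rw [← integral_const_mul]
  refine integral_congr_ae (Eventually.of_forall fun z => ?_)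
  show kA n * C₃ * (Real.exp (-(2 * shW (ph χ ψ χ2) W (iz z))) *
    (nq (Lk d.s₁ d.β (fun z => -K0 z) z) +
    nq (Rk d.s₂ (b2 d) (fun z => -K0 z) z)) / (w (iz z) / 2)) = _
  rw [L1, L2, nq_neg, nq_neg]
  have hw := (he.w0 (iz z)).ne'
  have hk := kp.ne'
  have hk1 := (kA_pos n).ne'
  have hk2 := C₂p.ne'
  field_simp

/-- The small coefficients. -/
theorem pb_x {χ χa ψ χ2 : V n → ℝ} (h : Cuts χ χa ψ χ2) {s : MF n} {M δ P : ℝ} (h0 : 0 ≤ δ)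
    (hs : Tn 2 s) (hP : 0 ≤ P) (hph : Bph P (ph χ ψ χ2)) (hM : n * (n * (4 * P + 2 * P ^ 2)) ≤ M)
    (hMP : P ≤ M) {B : B1 n m} (sB : ∀ a b i, ContDiff ℝ ∞ (gB χ ψ χ2 B a b i))
    (cBd : ∀ a b i, Cl 1 δ (gB χ ψ χ2 B a b i)) : Pb δ M s (ph χ ψ χ2) (Bx (gB χ ψ χ2 B)) := by
  have hbn := bn_x h0 sB cBd
  refine ⟨hs.sm, hs.sy, hph.sm, hbn.sm, fun x => (qq_le hs hP hph x).trans hM,
    fun i x => (hph.p1 i x).trans hMP, hbn.b0, fun i a b x => hbn.b1 i i a b x, fun i x hx => ?_⟩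
  ext a b
  simp only [Bx, Matrix.of_apply, Matrix.zero_apply]
  split_ifs
  · exact gB_zero h B hx _ _ i
  · rfl

theorem pb_y {χ χa ψ χ2 : V n → ℝ} (h : Cuts χ χa ψ χ2) {s : MF n} {M δ P : ℝ} (h0 : 0 ≤ δ)
    (hs : Tn 2 s) (hP : 0 ≤ P) (hph : Bph P (ph χ ψ χ2)) (hM : n * (n * (4 * P + 2 * P ^ 2)) ≤ M)
    (hMP : P ≤ M) {B : B1 n m} (sB : ∀ a b i, ContDiff ℝ ∞ (gB χ ψ χ2 B a b i))
    (cBd : ∀ a b i, Cl 1 δ (gB χ ψ χ2 B a b i)) : Pb δ M s (ph χ ψ χ2) (By (gB χ ψ χ2 B)) := by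
  have hbn := bn_y h0 sB cBd
  refine ⟨hs.sm, hs.sy, hph.sm, hbn.sm, fun x => (qq_le hs hP hph x).trans hM,
    fun i x => (hph.p1 i x).trans hMP, hbn.b0, fun i a b x => hbn.b1 i i a b x, fun i x hx => ?_⟩
  ext a b
  simp only [By, Matrix.of_apply, Matrix.zero_apply]
  split_ifs
  · exact gB_zero h B hx _ _ i
  · rfl

/-- **WBN from EBh.** -/
theorem wbnh_of (hn : 3 ≤ n) {t₁ t₂ : MF n} {d : PD n N} {σ a b c C ν R kap Gs g₀ G₀ C₂ : ℝ}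
    {W w : VV n → ℝ}
    (h : EBh t₁ t₂ σ a b c C ν R kap Gs g₀ G₀ C₂ W w) (hc : 0 < c) {φ : V n → ℝ} {P : ℝ}
    (hP : 0 ≤ P) (hφ : Bph P φ) (hRP : 4 * P ≤ c * R)
    (hR : 200 * (n + 1) ≤ R) (hk : 0 ≤ kap) {c' C' κ : ℝ} (κp : 0 < κ)
    (hCC : C + 2 + 2 * P ≤ C') (hC2 : 2 ≤ C') (hc0 : 0 < c') (hc1 : c' ≤ c * κ)
    (hc2 : c' * (n * 15 ^ 4) ≤ c) (hc3 : c' ≤ c / 2)
    (sol : SolWN d (1 / R ^ 2) (fun z => shW φ W (iz z)) (fun z => κ * w (iz z))) :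
    WBN d σ a b c' C' ν R kap Gs (fun z => shW φ W (iz z)) (fun z => κ * w (iz z)) := by
  have lo : ∀ x y : V n, W (x, y) - 2 * P ≤ shW φ W (x, y) := fun x y => by
    have h2 := (abs_le.1 (hφ.p0 x)).2
    have h3 := (abs_le.1 (hφ.p0 y)).2
    show _ ≤ W (x, y) - φ x - φ y
    linarith
  have up : ∀ z : VV n, shW φ W z ≤ W z + 2 * P := fun z => by
    have h2 := (abs_le.1 (hφ.p0 z.1)).1
    have h3 := (abs_le.1 (hφ.p0 z.2)).1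
    show W z - φ z.1 - φ z.2 ≤ _
    linarith
  have n1 : (3 : ℝ) ≤ n := by exact_mod_cast hn
  have hR1 : (800 : ℝ) ≤ R := by nlinarith
  have hR0 : (1 : ℝ) ≤ R := by linarith
  have hcc : c' ≤ c := by nlinarith
  have cW : Continuous (shW φ W) := by
    obtain ⟨B, _, hB⟩ := h.wt
    exact (shW_sm hB.sm hφ.sm).continuous
  have kyn : ∀ y : V n, 0 ≤ ky n σ R kap Gs y := fun y => mul_nonneg hk (Real.exp_pos _).le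
  have sn : √(n : ℝ) ≤ n := Real.sqrt_le_iff.2 ⟨by linarith, by nlinarith⟩
  have cl : ∀ x ∈ Zq n, ∀ y ∈ Zq n, ‖x - y‖ ≤ 1 / R ^ 2 → ‖iv x - iv y‖ ≤ 1 / R := by
    intro x hx y hy hxy
    have h1 := iv_dist_le (by norm_num) (by norm_num) hx.1 hy.1
    refine h1.trans ?_
    rw [div_le_div_iff₀ (by norm_num) (by linarith)]
    have h2 : ‖x - y‖ * R ^ 2 ≤ 1 := by
      rwa [le_div_iff₀ (by positivity)] at hxy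
    have h3 : ‖x - y‖ * R ≤ 1 / R := by
      rw [le_div_iff₀ (by linarith)]
      calc ‖x - y‖ * R * R = ‖x - y‖ * R ^ 2 := by ring
        _ ≤ 1 := h2
    have h4 : (n : ℝ) * (1 / R) ≤ 1 / 200 := by
      rw [mul_one_div, div_le_div_iff₀ (by linarith) (by norm_num)]
      nlinarith
    calc √(n : ℝ) * ‖x - y‖ * R = √(n : ℝ) * (‖x - y‖ * R) := by ring
      _ ≤ n * (1 / R) := mul_le_mul sn h3 (by positivity) (by positivity)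
      _ ≤ 1 / 200 := h4
      _ ≤ _ := by norm_num
  refine ⟨?_, ?_, ?_, ?_, ?_, ?_, ?_, ?_, sol⟩
  · intro z hz
    exact (cW.continuousAt.comp
      (cd_iz (oc_ne hz.1) (oc_ne hz.2)).continuousAt).continuousWithinAt
  · intro z hz
    exact (continuousAt_const.mul (h.wc.continuousAt.comp
      (cd_iz (oc_ne hz.1) (oc_ne hz.2)).continuousAt)).continuousWithinAt
  · intro z _
    exact mul_pos κp (h.w0 _)
  · -- W1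
    intro x hx y hy hxy
    have h1 := h.W1 (iv x) (Zq_iv hx) (iv y) (Zq_iv hy) (cl x hx y hy hxy)
    have h2 := iv_dist_ge (Zq_ne hx) (Zq_ne hy) hx.2 hy.2
    have h3 : c' * kk n σ R kap Gs x ^ 2 * ‖x - y‖ ^ 2 ≤
        c * ky n σ R kap Gs (iv x) ^ 2 * ‖iv x - iv y‖ ^ 2 := by
      rw [kk_ky]
      calc c' * ky n σ R kap Gs (iv x) ^ 2 * ‖x - y‖ ^ 2 ≤
          c' * ky n σ R kap Gs (iv x) ^ 2 * (n * 15 ^ 4 * ‖iv x - iv y‖ ^ 2) :=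
            mul_le_mul_of_nonneg_left h2 (by positivity)
        _ = (c' * (n * 15 ^ 4)) * (ky n σ R kap Gs (iv x) ^ 2 * ‖iv x - iv y‖ ^ 2) := by ring
        _ ≤ c * (ky n σ R kap Gs (iv x) ^ 2 * ‖iv x - iv y‖ ^ 2) :=
            mul_le_mul_of_nonneg_right hc2 (by positivity)
        _ = _ := by ring
    have h4 := lo (iv x) (iv y)
    show ν * R * (gy n σ (iv x) - Gs) + c' * kk n σ R kap Gs x ^ 2 * ‖x - y‖ ^ 2 - C' ≤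
      shW φ W (iv x, iv y)
    linarith
  · -- W2
    intro p hp z hz
    have hkk : 0 ≤ kk n σ R kap Gs p := kyn _
    have rc0 : 0 < R ^ C := Real.rpow_pos_of_pos (by linarith) _
    have rc1 : R ^ 2 ≤ R ^ C' := by
      calc R ^ 2 = R ^ (2 : ℝ) := by norm_num
        _ ≤ _ := Real.rpow_le_rpow_of_exponent_le hR0 hC2
    have rc2 : R ^ C ≤ R ^ C' := Real.rpow_le_rpow_of_exponent_le hR0 (by linarith)
    set ρ := 2 / (R ^ C' + kk n σ R kap Gs p) with hρ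
    have hρ0 : 0 ≤ ρ := by positivity
    have hρ1 : ρ ≤ 2 / R ^ 2 := by
      rw [hρ]
      exact div_le_div_of_nonneg_left (by norm_num) (by positivity) (by linarith)
    have hρ2 : (n + 1) * ρ ≤ 1 / 100 := by
      have h1 : (n + 1) * ρ ≤ (n + 1) * (2 / R ^ 2) := mul_le_mul_of_nonneg_left hρ1 (by positivity)
      refine h1.trans ?_
      rw [mul_div_assoc', div_le_div_iff₀ (by positivity) (by norm_num)]
      nlinarith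
    have dz : dist z (p, p) < ρ := hz
    rw [Prod.dist_eq] at dz
    have d1 : dist z.1 p < ρ := lt_of_le_of_lt (le_max_left _ _) dz
    have d2 : dist z.2 p < ρ := lt_of_le_of_lt (le_max_right _ _) dz
    have one : ∀ q : V n, dist q p < ρ →
        dist (iv q) (iv p) < 3 * n / (R ^ C + ky n σ R kap Gs (iv p)) := by
      intro q hq
      have h1 := (rt_ball hρ0 (Metric.mem_ball.2 hq)).1
      have h2 : (98 / 100 : ℝ) ≤ √(HY.sq q) := by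
        have := hp.1
        linarith
      have h3 := iv_dist_le (by norm_num) (by norm_num) h2 hp.1
      rw [dist_eq_norm] at hq ⊢
      refine lt_of_le_of_lt h3 ?_
      have h4 : √(n : ℝ) * ‖q - p‖ / (98 / 100 * (99 / 100)) ≤ n * (21 / 20 * ρ) := by
        have h5 : √(n : ℝ) * ‖q - p‖ ≤ n * ρ := mul_le_mul sn hq.le (norm_nonneg _) (by positivity)
        have h6 : 0 ≤ √(n : ℝ) * ‖q - p‖ := by positivity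
        have h7 : 0 ≤ (n : ℝ) * ρ := by positivity
        rw [div_le_iff₀ (by norm_num)]
        nlinarith
      refine lt_of_le_of_lt h4 ?_
      have h8 : ρ ≤ 2 / (R ^ C + ky n σ R kap Gs (iv p)) := by
        rw [hρ, kk_ky]
        exact div_le_div_of_nonneg_left (by norm_num) (by have := kyn (iv p); positivity)
          (by linarith)
      have h9 : 0 < R ^ C + ky n σ R kap Gs (iv p) := by have := kyn (iv p); positivity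
      calc (n : ℝ) * (21 / 20 * ρ) ≤ n * (21 / 20 * (2 / (R ^ C + ky n σ R kap Gs (iv p)))) := by
            gcongr
        _ = (21 / 10 * n) / (R ^ C + ky n σ R kap Gs (iv p)) := by ring
        _ < _ := by
            refine div_lt_div_of_pos_right ?_ h9
            linarith
    have hi : iv p ∈ HY.T3.Ac n (1 / 15) (100 / 99) :=
      Ac_iv (by norm_num) hp (by norm_num) (by norm_num)
    have hz' : iz z ∈ Metric.ball (iv p, iv p) (3 * n / (R ^ C + ky n σ R kap Gs (iv p))) := by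
      rw [Metric.mem_ball, Prod.dist_eq]
      exact max_lt (one _ d1) (one _ d2)
    have h1 := h.W2 (iv p) hi (iz z) hz'
    show shW φ W (iz z) ≤ ν * max (R * (gy n σ (iv p) - Gs)) (-Real.log kap) +
      C' * (1 + Real.log R)
    have h2 : (C + 2 * P) * (1 + Real.log R) ≤ C' * (1 + Real.log R) :=
      mul_le_mul_of_nonneg_right (by linarith) (by have := Real.log_nonneg hR0; linarith)
    have h3 : 0 ≤ P * Real.log R := mul_nonneg hP (Real.log_nonneg hR0)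
    have h4 := up (iz z)
    linarith
  · -- W3
    intro x hx y hy
    have h1 := h.W3 (iv x) (Ac_iv (by norm_num) hx (by norm_num) (by norm_num)) (iv y)
      (Ac_iv (by norm_num) hy (by norm_num) (by norm_num))
    have h2 : -(c * R) + 2 * P ≤ -(c' * R) := by nlinarith
    have u1 := up (iv x, iv y)
    have u2 := up (iv y, iv x)
    constructor
    · show shW φ W (iv x, iv y) ≤ _
      linarith [h1.1]
    · show shW φ W (iv y, iv x) ≤ _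
      linarith [h1.2]
  · -- w1
    intro x hx y hy hxy hg
    have h1 := h.w1 (iv x) (Zq_iv hx) (iv y) (Zq_iv hy) (cl x hx y hy hxy) hg
    rw [mul_assoc (c * R ^ (-C))] at h1
    have h2 := num_w κp hc hR0 (by linarith : C ≤ C')
      (mul_nonneg (Real.rpow_nonneg hk _) (Real.exp_pos _).le) hc1 h1
    rw [← mul_assoc] at h2
    exact h2
  · -- w2
    intro x hx y hy hxy
    have h1 := h.w2 (iv x) (Zq_iv hx) (iv y) (Zq_iv hy) (cl x hx y hy hxy)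
    rw [mul_assoc (c * R ^ (-C))] at h1
    have h2 := num_w κp hc hR0 (by linarith : C ≤ C')
      (mul_nonneg (Real.rpow_nonneg hk _) (Real.exp_pos _).le) hc1 h1
    rw [← mul_assoc] at h2
    exact h2

/-- All facts for one side. -/
theorem side_of {χ χa ψ χ2 : V n → ℝ} (h : Cuts χ χa ψ χ2) {Cm A AB P M δ ε₁ ε₂ : ℝ} {k : ℕ}
    (hCm : 1 ≤ Cm) (ε₂0 : 0 ≤ ε₂) (ε₂1 : ε₂ ≤ 1)
    (hA : ∀ (ε : ℝ) (s : MF n) (B : B1 n m), 0 ≤ ε → ε ≤ 1 → Cf 3 ε (Cm + n) s B →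
      (∀ a b i, ContDiff ℝ ∞ (gD χ χa ψ χ2 s B a b i)) ∧
      ∀ a b i, Cl 1 A (gD χ χa ψ χ2 s B a b i))
    (hAB : ∀ (B : B1 n m) (b : ℝ), (∀ a b l, ContDiff ℝ ∞ (B a b l)) →
      (∀ a a' l, Cl 1 b (B a a' l)) → (∀ a a' i, ContDiff ℝ ∞ (gB χ ψ χ2 B a a' i)) ∧
      ∀ a a' i, Cl 1 (AB * b) (gB χ ψ χ2 B a a' i))
    (hP0 : 0 ≤ P) (hP : Bph P (ph χ ψ χ2)) (hM2 : 2 ≤ M) (hMA : A ≤ M) (hMP : P ≤ M)
    (hMq : n * (n * (4 * P + 2 * P ^ 2)) ≤ M) (hδ0 : 0 ≤ δ) (hδ : AB * ((Cm + n) * ε₂) ≤ δ)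
    (hk : 1 ≤ k) (h0 : 0 ≤ ε₁) (e1 : n * ε₁ ≤ 1 / 2) (e2 : ε₁ ≤ 1 / 41)
    {s : MF n} (hs : SmM s) (hy : ∀ x, (s x).IsSymm)
    (cs : ∀ i j, Cl 4 ε₂ (fun x => s x i j - (1 : Matrix (Fin n) (Fin n) ℝ) i j))
    {B : B1 n m} (sB : ∀ p q l, ContDiff ℝ ∞ (B p q l))
    (cB' : ∀ p q l, Cl 3 (Cm * ε₂ + n * ε₂) (B p q l))
    (a1 : SmM (st χ χa ψ χ2 s)) (a3 : ∀ y, (st χ χa ψ χ2 s y).IsSymm)
    (a4 : ∀ i j, Cl k ε₁ (fun y => st χ χa ψ χ2 s y i j -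
      (1 : Matrix (Fin n) (Fin n) ℝ) i j)) :
    (Tn M (st χ χa ψ χ2 s) ∧ Ue M (st χ χa ψ χ2 s)) ∧
    ((∀ a b i, ContDiff ℝ ∞ (gD χ χa ψ χ2 s B a b i)) ∧
      ∀ a b i, Cl 1 M (gD χ χa ψ χ2 s B a b i)) ∧
    Pb δ M (st χ χa ψ χ2 s) (ph χ ψ χ2) (Bx (gB χ ψ χ2 B)) ∧
    Pb δ M (st χ χa ψ χ2 s) (ph χ ψ χ2) (By (gB χ ψ χ2 B)) := by
  have n0 : (0 : ℝ) ≤ n := Nat.cast_nonneg n
  have t1 : Cm * ε₂ + n * ε₂ ≤ Cm + n :=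
    add_le_add (mul_le_of_le_one_right (by linarith) ε₂1) (mul_le_of_le_one_right n0 ε₂1)
  have cf : Cf 3 ε₂ (Cm + n) s B := ⟨hs, hy, sB,
    fun i j => H605.cl_le' (cs i j) (by norm_num) le_rfl,
    fun p q l => H605.cl_le' (cB' p q l) le_rfl t1⟩
  have g := hA ε₂ s B ε₂0 ε₂1 cf
  have t2 : Cm * ε₂ + n * ε₂ = (Cm + n) * ε₂ := by ring
  have kk := hAB B ((Cm + n) * ε₂) sB fun p q l => by
    rw [← t2]
    exact H605.cl_le' (cB' p q l) (by norm_num) le_rfl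
  have T := tu_of hk h0 e1 e2 a1 a3 a4 hM2
  have T' := (tu_of hk h0 e1 e2 a1 a3 a4 (le_refl (2 : ℝ))).1
  exact ⟨T, ⟨g.1, fun a b i => H605.cl_le' (g.2 a b i) le_rfl hMA⟩,
    pb_x h hδ0 T' hP0 hP hMq hMP kk.1 fun a b i => H605.cl_le' (kk.2 a b i) le_rfl hδ,
    pb_y h hδ0 T' hP0 hP hMq hMP kk.1 fun a b i => H605.cl_le' (kk.2 a b i) le_rfl hδ⟩

theorem hsm_of {Ce kap : ℝ} (hk0 : 0 < kap) (h : Ce ^ 2 ≤ kap) :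
    Ce * kap⁻¹ ≤ kap ^ (-(1 / 2) : ℝ) := by
  have h1 : Ce ≤ kap ^ (1 / 2 : ℝ) := by
    rw [← Real.sqrt_eq_rpow]
    exact Real.le_sqrt_of_sq_le h
  have h2 : kap⁻¹ = kap ^ (-(1 / 2) : ℝ) * kap ^ (-(1 / 2) : ℝ) := by
    rw [← Real.rpow_add hk0]
    norm_num [Real.rpow_neg_one]
  have h3 : kap ^ (1 / 2 : ℝ) * kap ^ (-(1 / 2) : ℝ) = 1 := by
    rw [← Real.rpow_add hk0]
    norm_num
  have h4 : 0 < kap ^ (-(1 / 2) : ℝ) := Real.rpow_pos_of_pos hk0 _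
  calc Ce * kap⁻¹ = (Ce * kap ^ (-(1 / 2) : ℝ)) * kap ^ (-(1 / 2) : ℝ) := by rw [h2]; ring
    _ ≤ (kap ^ (1 / 2 : ℝ) * kap ^ (-(1 / 2) : ℝ)) * kap ^ (-(1 / 2) : ℝ) :=
        mul_le_mul_of_nonneg_right (mul_le_mul_of_nonneg_right h1 h4.le) h4.le
    _ = _ := by rw [h3, one_mul]

/-- The transfer of the smallness of the difference of the metrics. -/
theorem sm_tr {σ ν R kap Gs Ce : ℝ} {K K' : ℕ} (hK : K ≤ K') {s₁ s₂ t₁ t₂ : MF n}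
    (hj : ∀ (y : V n) (b : ℝ), (1 / 40) ^ 2 ≤ HY.sq y → HY.sq y ≤ 3 ^ 2 →
      (∀ i j, ∀ l ≤ K' + 1, ‖iteratedFDeriv ℝ l (fun x => s₂ x i j - s₁ x i j) (iv y)‖ ≤ b) →
      ∀ i j, ∀ l ≤ K', ‖iteratedFDeriv ℝ l (fun x => t₂ x i j - t₁ x i j) y‖ ≤ Ce * b)
    (hdf : ∀ i j, ∀ l ≤ K' + 1, ∀ x ∈ HY.T3.Ac n (4 / 5) 22, 1 ≤ kk n σ R kap Gs x →
      ‖iteratedFDeriv ℝ l (fun y => s₂ y i j - s₁ y i j) x‖ ≤
        kap⁻¹ * kk n σ R kap Gs x ^ (-(ν / 2)))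
    (hsm : Ce * kap⁻¹ ≤ kap ^ (-(1 / 2) : ℝ)) :
    ∀ y ∈ HY.T3.Ac n (1 / 22) 1, 1 ≤ ky n σ R kap Gs y → ∀ i j, ∀ l ≤ K,
      ‖iteratedFDeriv ℝ l (fun x => t₂ x i j - t₁ x i j) y‖ ≤
        kap ^ (-(1 / 2) : ℝ) * ky n σ R kap Gs y ^ (-(ν / 2)) := by
  intro y hy h1 i j l hl
  have y0 : y ≠ 0 := Ac_ne (by norm_num) hy
  have hy' : y ∈ HY.T3.Ac n (1 / 22) (5 / 4) := ⟨hy.1, hy.2.trans (by norm_num)⟩
  have hiv : iv y ∈ HY.T3.Ac n (4 / 5) 22 := Ac_iv (by norm_num) hy (by norm_num) (by norm_num)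
  have hq : 0 ≤ ky n σ R kap Gs y ^ (-(ν / 2)) :=
    Real.rpow_nonneg (by linarith) _
  have han := HY.H437.Kel.ann_sq hy'
  have d1 := hj y (kap⁻¹ * ky n σ R kap Gs y ^ (-(ν / 2))) han.1 han.2 (by
    intro i j l hl
    have := hdf i j l hl (iv y) hiv (by rw [kk_iv y0]; exact h1)
    rwa [kk_iv y0] at this)
  refine (d1 i j l (hl.trans hK)).trans ?_
  rw [← mul_assoc]
  exact mul_le_mul_of_nonneg_right hsm hq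

/-- The last step. -/
theorem fin_h (hS : RowSOL3N) (hn : 3 ≤ n) {χ χa ψ χ2 : V n → ℝ} (h : Cuts χ χa ψ χ2)
    {σ a b ν C₂ g₀ G₀ ε c C η R₀ Ce Cb δb A AB P M δ κ ε₁ ε₂ c' C' : ℝ} {K : ℕ} (hC₂ : 0 ≤ C₂)
    (n1 : (3 : ℝ) ≤ n) (n0 : (0 : ℝ) < n)
    (hbd : ∀ δ : ℝ, 0 ≤ δ → δ ≤ δb →
      ∀ (E : Set (V n)) (s : MF n) (P : MC n N) (G : Fin n → MC n N), Da (3 + 1) δ E s P G →
      (∀ x, IsUnit (P x).det) ∧ SmC (fun x => (P x)⁻¹) ∧ ClC 3 (Cb * δ) (fun x => (P x)⁻¹ - 1) ∧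
      (∀ j, SmC (bL s P G j)) ∧ (∀ j, SmC (bR s P G j)) ∧ (∀ j, ClC 3 (Cb * δ) (bL s P G j)) ∧
      ∀ j, ClC 3 (Cb * δ) (bR s P G j))
    (hA : ∀ (ε : ℝ) (s : MF n) (B : B1 n (N * 2)), 0 ≤ ε → ε ≤ 1 → Cf 3 ε (max 1 Cb + n) s B →
      (∀ a b i, ContDiff ℝ ∞ (gD χ χa ψ χ2 s B a b i)) ∧
      ∀ a b i, Cl 1 A (gD χ χa ψ χ2 s B a b i))
    (hAB : ∀ (m : ℕ) (B : B1 n m) (b : ℝ), (∀ a b l, ContDiff ℝ ∞ (B a b l)) →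
      (∀ a a' l, Cl 1 b (B a a' l)) → (∀ a a' i, ContDiff ℝ ∞ (gB χ ψ χ2 B a a' i)) ∧
      ∀ a a' i, Cl 1 (AB * b) (gB χ ψ χ2 B a a' i))
    (hP0 : 0 ≤ P) (hP : Bph P (ph χ ψ χ2)) (hM2 : 2 ≤ M) (hMA : A ≤ M) (hMP : P ≤ M)
    (hMq : n * (n * (4 * P + 2 * P ^ 2)) ≤ M) (hδ0 : 0 < δ)
    (hG : ∀ (s₁ s₂ : MF n) (φ : V n → ℝ)
      (β₁ β₂ : Fin n → V n → Matrix (Fin ((N * 2) * (N * 2))) (Fin ((N * 2) * (N * 2))) ℝ),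
      Pb δ M s₁ φ β₁ → Pb δ M s₂ φ β₂ →
      ∀ W : VV n → ℝ, ContDiff ℝ ∞ W → ∀ w o₁ o₂ : VV n → ℝ, Continuous w →
      Continuous o₁ → (∀ z, 0 < o₁ z) → (∀ z, o₁ z ≤ C₂) → Continuous o₂ → (∀ z, 0 < o₂ z) →
      (∀ z, o₂ z ≤ C₂) →
      (∀ a₁ a₂ : VV n → ℝ, Tt univ a₁ → Tt univ a₂ →
        (∫ z, w z * (a₁ z ^ 2 + a₂ z ^ 2)) + g₀ * (∫ z, gf W a₁ a₂ z) +
            G₀ * (∫ z, (a₁ z ^ 2 + a₂ z ^ 2)) ≤
          ∫ z, (o₁ z * (R2.H269.QX s₁ W a₁ z + R2.H269.QY s₂ W a₂ z) ^ 2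
            + o₂ z * (R2.H269.PY s₂ W a₁ z - R2.H269.PX s₁ W a₂ z) ^ 2)) →
      ∀ a₁ a₂ : Fin ((N * 2) * (N * 2)) → VV n → ℝ, (∀ a, Tt univ (a₁ a)) →
        (∀ a, Tt univ (a₂ a)) →
        ∫ z, (w z / 2) * ∑ a, (a₁ a z ^ 2 + a₂ a z ^ 2) ≤
          ∫ z, (o₁ z * ∑ a, (QXN s₁ (cB s₁ φ β₁) (shW φ W) a₁ a z +
              QYN s₂ (cB s₂ φ β₂) (shW φ W) a₂ a z) ^ 2
            + o₂ z * ∑ a, (PYN s₂ (cB s₂ φ β₂) (shW φ W) a₁ a z -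
              PXN s₁ (cB s₁ φ β₁) (shW φ W) a₂ a z) ^ 2))
    (hE : ∀ s₁ s₂ : MF n, Ivg K ε s₁ s₂ → ∀ R kap Gs : ℝ, R₀ ≤ R → 1 ≤ R →
      -η ≤ Gs → Gs ≤ 0 → 1 ≤ kap → R ^ C ≤ kap → kap ≤ Real.exp (η * R) →
      (∀ y ∈ HY.T3.Ac n (1 / 22) 1, 1 ≤ ky n σ R kap Gs y → ∀ i j, ∀ l ≤ K,
        ‖iteratedFDeriv ℝ l (fun x => s₂ x i j - s₁ x i j) y‖ ≤
          kap ^ (-(1 / 2) : ℝ) * ky n σ R kap Gs y ^ (-(ν / 2))) →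
      ∃ W w : VV n → ℝ, EBh s₁ s₂ σ a b c C ν R kap Gs g₀ G₀ C₂ W w)
    (hX : ∀ (ε : ℝ) (s₁ s₂ : MF n), 0 ≤ ε → HY.H437.Kel.Ch (max K 3 + 1) ε s₁ →
      HY.H437.Kel.Ch (max K 3 + 1) ε s₂ → (∀ x ∈ Eb (0 : V n) 1, s₂ x = s₁ x) →
      (∀ s, (s = s₁ ∨ s = s₂) → SmM (st χ χa ψ χ2 s) ∧
        ContDiff ℝ ∞ (HY.H437.Kel.vt χ χa ψ χ2 s) ∧
        (∀ y, (st χ χa ψ χ2 s y).IsSymm) ∧
        (∀ i j, Cl (max K 3) (Ce * ε) (fun y => st χ χa ψ χ2 s y i j -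
          (1 : Matrix (Fin n) (Fin n) ℝ) i j)) ∧
        Cl (max K 3) (Ce * ε) (HY.H437.Kel.vt χ χa ψ χ2 s) ∧
        (∀ y ∉ Eb (0 : V n) 2, st χ χa ψ χ2 s y = 1 ∧ HY.H437.Kel.vt χ χa ψ χ2 s y = 0) ∧
        (∀ y ∈ Eb (0 : V n) (5 / 4), y ≠ 0 → st χ χa ψ χ2 s y = HY.T3.ks s y ∧
          HY.H437.Kel.vt χ χa ψ χ2 s y = HY.T3.kv s y)) ∧
      (∀ y, 1 ≤ HY.sq y → st χ χa ψ χ2 s₂ y = st χ χa ψ χ2 s₁ y ∧
        HY.H437.Kel.vt χ χa ψ χ2 s₂ y = HY.H437.Kel.vt χ χa ψ χ2 s₁ y) ∧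
      ∀ (y : V n) (b : ℝ), (1 / 40) ^ 2 ≤ HY.sq y → HY.sq y ≤ 3 ^ 2 →
        (∀ i j, ∀ l ≤ max K 3 + 1,
          ‖iteratedFDeriv ℝ l (fun x => s₂ x i j - s₁ x i j) (iv y)‖ ≤ b) →
        (∀ i j, ∀ l ≤ max K 3, ‖iteratedFDeriv ℝ l
          (fun x => st χ χa ψ χ2 s₂ x i j - st χ χa ψ χ2 s₁ x i j) y‖ ≤ Ce * b) ∧
        ∀ l ≤ max K 3, ‖iteratedFDeriv ℝ l
          (fun x => HY.H437.Kel.vt χ χa ψ χ2 s₂ x - HY.H437.Kel.vt χ χa ψ χ2 s₁ x) y‖ ≤ Ce * b)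
    (hc : 0 < c) (hκ : κ = (2 * (kA n * (C₂ + 1)))⁻¹) (κp : 0 < κ)
    (ε₁p : 0 < ε₁) (ε₁a : ε₁ ≤ ε) (ε₁c : ε₁ ≤ 1 / 41) (ε₂p : 0 < ε₂) (ε₂a : ε₂ ≤ 1)
    (ε₂b : ε₂ ≤ δb) (ε₂c : Ce * ε₂ ≤ ε₁) (ε₂d : AB * ((max 1 Cb + n) * ε₂) ≤ δ)
    (en : (n : ℝ) * ε₁ ≤ 1 / 2) (hc' : c' = c * min κ (1 / (n * 15 ^ 4))) (hc'0 : 0 < c')
    (hc'h : c' ≤ c / 2) (hC'1 : C + 2 + 2 * P ≤ C') (hC'3 : 3 ≤ C') :
    ∀ (d : PD n N) (G : Set (V n)), NrmN (max K 3 + 1) ε₂ d G → ∀ R kap Gs : ℝ,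
      max (max R₀ (200 * (n + 1))) (max (Ce ^ 2) (4 * P / c)) ≤ R → 1 ≤ R →
      -η ≤ Gs → Gs ≤ 0 → 1 ≤ kap → R ^ C' ≤ kap → kap ≤ Real.exp (η * R) →
      (∀ i j, ∀ l ≤ max K 3 + 1, ∀ x ∈ HY.T3.Ac n (4 / 5) 22, 1 ≤ kk n σ R kap Gs x →
        ‖iteratedFDeriv ℝ l (fun y => d.s₂ y i j - d.s₁ y i j) x‖ ≤
          kap⁻¹ * kk n σ R kap Gs x ^ (-(ν / 2))) →
      ∃ W w : VV n → ℝ, WBN d σ a b c' C' ν R kap Gs W w := by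
  intro d G hd R kap Gs hR hR1 hG1 hG2 hk1 hk2 hk3 hdf
  have q₁ := hd.rp.rl.d₁
  have q₂ := hd.rp.rl.d₂
  have hK3 : 3 ≤ max K 3 := le_max_right _ _
  have q4 : ∀ {s : MF n}, (∀ i j, Cl (max K 3 + 1) ε₂
      (fun x => s x i j - (1 : Matrix (Fin n) (Fin n) ℝ) i j)) →
      ∀ i j, Cl 4 ε₂ (fun x => s x i j - (1 : Matrix (Fin n) (Fin n) ℝ) i j) :=
    fun hs i j => H605.cl_le' (hs i j) (by omega) le_rfl
  have o₁ : ∀ x ∉ Eb (0 : V n) 32, d.s₁ x = 1 := fun x hx => (hd.of x hx).1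
  have o₂ : ∀ x ∉ Eb (0 : V n) 32, d.s₂ x = 1 := fun x hx => (hd.of x hx).2.1
  have ch₁ : HY.H437.Kel.Ch (max K 3 + 1) ε₂ d.s₁ := ⟨q₁.ss, q₁.sy, q₁.cs, o₁⟩
  have ch₂ : HY.H437.Kel.Ch (max K 3 + 1) ε₂ d.s₂ := ⟨q₂.ss, q₂.sy, q₂.cs, o₂⟩
  have heq : ∀ x ∈ Eb (0 : V n) 1, d.s₂ x = d.s₁ x := by
    intro x hx
    refine hd.rp.rl.os x ?_ fun h1 => h1 (hd.b1 hx)
    have h1 : HY.sq (x - 0) < 1 ^ 2 := hx
    show HY.sq (x - 0) < 24 ^ 2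
    linarith
  obtain ⟨hs, ho, hj⟩ := hX ε₂ d.s₁ d.s₂ ε₂p.le ch₁ ch₂ heq
  obtain ⟨a1, -, a3, a4, -, a6, -⟩ := hs d.s₁ (Or.inl rfl)
  obtain ⟨b1, -, b3, b4, -, b6, -⟩ := hs d.s₂ (Or.inr rfl)
  -- the first order coefficients
  have hda : Da (3 + 1) ε₂ (Eb 0 24 ∩ Gᶜ) d.s₂ d.P₂ d.G₂ := ⟨q₂.ss, q₂.sy, q₂.sP, q₂.hP, q₂.sG,
    q₂.hG, q4 q₂.cs, H605.clC_mono q₂.cP (by omega) le_rfl,
    fun i => H605.clC_mono (q₂.cG i) (by omega) le_rfl, q₂.dq, q₂.pe⟩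
  obtain ⟨-, -, -, -, sR, -, cR⟩ := hbd ε₂ ε₂p.le ε₂b _ _ _ _ hda
  have hcl : ∀ {s : MF n}, (∀ i j, Cl (max K 3) (Ce * ε₂) (fun y => st χ χa ψ χ2 s y i j -
      (1 : Matrix (Fin n) (Fin n) ℝ) i j)) → ∀ i j, Cl (max K 3) ε₁ (fun y =>
      st χ χa ψ χ2 s y i j - (1 : Matrix (Fin n) (Fin n) ℝ) i j) := fun hs i j =>
    H605.cl_le' (hs i j) le_rfl ε₂c
  have hx1 : ε₂ ≤ max 1 Cb * ε₂ := le_mul_of_one_le_left ε₂p.le (le_max_left _ _)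
  have hx2 : Cb * ε₂ ≤ max 1 Cb * ε₂ := mul_le_mul_of_nonneg_right (le_max_right _ _) ε₂p.le
  have f₁ := fun p q l => hB_cl (k := 3) (δ := max 1 Cb * ε₂) q₁.ss (q4 q₁.cs) hd.rp.rl.sβ
    (fun i => H605.clC_mono (hd.rp.rl.cβ i) (by omega) hx1) p q l
  have f₂ := fun p q l => hB_cl (k := 3) (δ := max 1 Cb * ε₂) (β := fun l x => (b2 d l x)ᵀ) q₂.ss
    (q4 q₂.cs) (fun i a b => sR i b a) (fun i a b => H605.cl_le' (cR i b a) le_rfl hx2) p q l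
  obtain ⟨T₁, g₁, pb₁, -⟩ := side_of h (le_max_left 1 Cb) ε₂p.le ε₂a hA (hAB (N * 2)) hP0 hP hM2
    hMA hMP hMq hδ0.le ε₂d (by omega) ε₁p.le en ε₁c q₁.ss q₁.sy (q4 q₁.cs)
    (fun p q l => (f₁ p q l).1) (fun p q l => (f₁ p q l).2) a1 a3 (hcl a4)
  obtain ⟨T₂, g₂, -, pb₂⟩ := side_of h (le_max_left 1 Cb) ε₂p.le ε₂a hA (hAB (N * 2)) hP0 hP hM2
    hMA hMP hMq hδ0.le ε₂d (by omega) ε₁p.le en ε₁c q₂.ss q₂.sy (q4 q₂.cs)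
    (fun p q l => (f₂ p q l).1) (fun p q l => (f₂ p q l).2) b1 b3 (hcl b4)
  have hI : Ivg K ε (st χ χa ψ χ2 d.s₁) (st χ χa ψ χ2 d.s₂) :=
    ⟨a1, b1, a3, b3, fun i j => H605.cl_le' (hcl a4 i j) (le_max_left _ _) ε₁a,
      fun i j => H605.cl_le' (hcl b4 i j) (le_max_left _ _) ε₁a,
      fun x hx => ⟨(a6 x hx).1, (b6 x hx).1⟩, fun x hx => (ho x hx).1⟩
  -- the numbers
  have hRa : R₀ ≤ R := (le_max_left _ _).trans ((le_max_left _ _).trans hR)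
  have hRb : 200 * ((n : ℝ) + 1) ≤ R := (le_max_right _ _).trans ((le_max_left _ _).trans hR)
  have hRc : Ce ^ 2 ≤ R := (le_max_left _ _).trans ((le_max_right _ _).trans hR)
  have hRd : 4 * P ≤ c * R := by
    have e1 : 4 * P / c ≤ R := (le_max_right _ _).trans ((le_max_right _ _).trans hR)
    rw [div_le_iff₀ hc] at e1
    linarith
  have hk0 : 0 < kap := by linarith
  have hkR : R ≤ kap := by
    calc R = R ^ (1 : ℝ) := (Real.rpow_one R).symm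
      _ ≤ R ^ C' := Real.rpow_le_rpow_of_exponent_le hR1 (by linarith)
      _ ≤ kap := hk2
  have hkC : R ^ C ≤ kap := (Real.rpow_le_rpow_of_exponent_le hR1 (by linarith)).trans hk2
  have hsm : Ce * kap⁻¹ ≤ kap ^ (-(1 / 2) : ℝ) := hsm_of hk0 (hRc.trans hkR)
  obtain ⟨W, w, hW⟩ := hE _ _ hI R kap Gs hRa hR1 hG1 hG2 hk1 hkC hk3
    (sm_tr (le_max_left K 3) (fun y b h1 h2 h3 => (hj y b h1 h2 h3).1) hdf hsm)
  refine ⟨_, _, wbnh_of hn hW hc hP0 hP hRd hRb hk0.le κp hC'1 (by linarith) hc'0 ?_ ?_ hc'h ?_⟩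
  · rw [hc']
    exact mul_le_mul_of_nonneg_left (min_le_left _ _) hc.le
  · rw [hc']
    calc c * min κ (1 / (n * 15 ^ 4)) * (n * 15 ^ 4) ≤
          (c * (1 / (n * 15 ^ 4))) * (n * 15 ^ 4) := by
          refine mul_le_mul_of_nonneg_right ?_ (by positivity)
          exact mul_le_mul_of_nonneg_left (min_le_right _ _) hc.le
      _ = c := by field_simp
  · rw [hκ]
    exact solWNh_of hS hn h hM2 hP0 hP hG ⟨q₁.ss, q₁.sy, o₁, hd.rp.rl.sβ⟩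
      ⟨q₂.ss, q₂.sy, o₂, sR⟩ T₁ T₂
      g₁ g₂ pb₁ pb₂ hW _ (by linarith)

/-- **The adapter for systems.** -/
theorem rowSOLWNh (hS : RowSOL3N) (hE : RowESTh) : RowSOLWN := by
  intro n N hn hN
  obtain ⟨χ, χa, ψ, χ2, h⟩ := exists_cuts (n := n)
  obtain ⟨σ, a, b, ν₀, hσ, hσ1, ha, ha4, hb, hE⟩ := hE n hn
  refine ⟨σ, a, b, ν₀, hσ, hσ1, ha, ha4, hb, fun ν hν => ?_⟩
  obtain ⟨C₂, g₀, hC₂, hg₀, hE⟩ := hE ν hν
  have n1 : (3 : ℝ) ≤ n := by exact_mod_cast hn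
  have n0 : (0 : ℝ) < n := by linarith
  -- the constants of the coefficients
  obtain ⟨Cb, δb, hCb, hδb, hδb1, hbd⟩ := H808.bd_da n N 3
  obtain ⟨A, hA0, hA⟩ := gD_bd (N * 2) h (max 1 Cb + n)
  obtain ⟨AB, hAB0, hAB⟩ := gB_bd h
  obtain ⟨P, hP0, hP⟩ := bph_ex h
  obtain ⟨M, hM⟩ : ∃ M : ℝ, M = max (max 2 A) (max P (n * (n * (4 * P + 2 * P ^ 2)))) := ⟨_, rfl⟩
  have hM2 : 2 ≤ M := by rw [hM]; exact (le_max_left _ _).trans (le_max_left _ _)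
  have hMA : A ≤ M := by rw [hM]; exact (le_max_right _ _).trans (le_max_left _ _)
  have hMP : P ≤ M := by rw [hM]; exact (le_max_left _ _).trans (le_max_right _ _)
  have hMq : n * (n * (4 * P + 2 * P ^ 2)) ≤ M := by
    rw [hM]; exact (le_max_right _ _).trans (le_max_right _ _)
  obtain ⟨δ, G₀, hδ0, hδ1, hG₀, hG⟩ := estH n ((N * 2) * (N * 2)) (by linarith : 0 ≤ M) hC₂ hg₀
  obtain ⟨K, ε, c, C, η, R₀, hε, hc, hC, hη, hE⟩ := hE G₀ hG₀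
  obtain ⟨Ce, hCe, hX⟩ := HY.H437.Kel.ext_core hn h (max K 3)
  obtain ⟨κ, hκ⟩ : ∃ κ : ℝ, κ = (2 * (kA n * (C₂ + 1)))⁻¹ := ⟨_, rfl⟩
  have κp : 0 < κ := by
    rw [hκ]
    have := kA_pos n
    positivity
  obtain ⟨ε₁, hε₁⟩ : ∃ ε₁ : ℝ, ε₁ = min ε (min (1 / (2 * n)) (1 / 41)) := ⟨_, rfl⟩
  have ε₁p : 0 < ε₁ := by rw [hε₁]; exact lt_min hε (lt_min (by positivity) (by norm_num))
  have ε₁a : ε₁ ≤ ε := by rw [hε₁]; exact min_le_left _ _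
  have ε₁b : ε₁ ≤ 1 / (2 * n) := by rw [hε₁]; exact (min_le_right _ _).trans (min_le_left _ _)
  have ε₁c : ε₁ ≤ 1 / 41 := by rw [hε₁]; exact (min_le_right _ _).trans (min_le_right _ _)
  obtain ⟨Q, hQ⟩ : ∃ Q : ℝ, Q = AB * (max 1 Cb + n) + 1 := ⟨_, rfl⟩
  have hmx : 0 < max 1 Cb := lt_of_lt_of_le one_pos (le_max_left _ _)
  have hQp : 0 < Q := by rw [hQ]; positivity
  obtain ⟨ε₂, hε₂⟩ : ∃ ε₂ : ℝ, ε₂ = min (min 1 δb) (min (ε₁ / Ce) (δ / Q)) := ⟨_, rfl⟩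
  have ε₂p : 0 < ε₂ := by
    rw [hε₂]
    exact lt_min (lt_min one_pos hδb) (lt_min (div_pos ε₁p hCe) (div_pos hδ0 hQp))
  have ε₂a : ε₂ ≤ 1 := by rw [hε₂]; exact (min_le_left _ _).trans (min_le_left _ _)
  have ε₂b : ε₂ ≤ δb := by rw [hε₂]; exact (min_le_left _ _).trans (min_le_right _ _)
  have ε₂c : Ce * ε₂ ≤ ε₁ := by
    rw [hε₂]
    calc _ ≤ Ce * (ε₁ / Ce) :=
          mul_le_mul_of_nonneg_left ((min_le_right _ _).trans (min_le_left _ _)) hCe.le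
      _ = ε₁ := by field_simp
  have ε₂d : AB * ((max 1 Cb + n) * ε₂) ≤ δ := by
    have e1 : Q * ε₂ ≤ δ := by
      rw [hε₂]
      calc _ ≤ Q * (δ / Q) :=
            mul_le_mul_of_nonneg_left ((min_le_right _ _).trans (min_le_right _ _)) hQp.le
        _ = δ := by field_simp
    rw [hQ] at e1
    nlinarith
  have en : (n : ℝ) * ε₁ ≤ 1 / 2 := by
    calc (n : ℝ) * ε₁ ≤ n * (1 / (2 * n)) := mul_le_mul_of_nonneg_left ε₁b n0.le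
      _ = 1 / 2 := by field_simp
  have hm : 0 < min κ (1 / (n * 15 ^ 4) : ℝ) := lt_min κp (by positivity)
  obtain ⟨c', hc'⟩ : ∃ c' : ℝ, c' = c * min κ (1 / (n * 15 ^ 4)) := ⟨_, rfl⟩
  have hc'h : c' ≤ c / 2 := by
    rw [hc']
    have e1 : min κ (1 / (n * 15 ^ 4) : ℝ) ≤ 1 / 2 := by
      refine (min_le_right _ _).trans ?_
      rw [div_le_div_iff₀ (by positivity) (by norm_num)]
      nlinarith
    nlinarith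
  have hc'0 : 0 < c' := by rw [hc']; exact mul_pos hc hm
  obtain ⟨C', hC'⟩ : ∃ C' : ℝ, C' = max (C + 2 + 2 * P) 3 := ⟨_, rfl⟩
  have hC'1 : C + 2 + 2 * P ≤ C' := by rw [hC']; exact le_max_left _ _
  have hC'3 : 3 ≤ C' := by rw [hC']; exact le_max_right _ _
  refine ⟨max K 3 + 1, ε₂, c', C', η, max (max R₀ (200 * (n + 1))) (max (Ce ^ 2) (4 * P / c)),
    ε₂p, hc'0, hC'3, hη, ?_⟩
  exact fin_h hS hn h hC₂ n1 n0 hbd hA hAB hP0 hP hM2 hMA hMP hMq hδ0 hG hE hX hc hκ κp ε₁p ε₁a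
    ε₁c ε₂p ε₂a ε₂b ε₂c ε₂d en hc' hc'0 hc'h hC'1 hC'3

end Vale.Agent.P088.S4.H561
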