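import Vale.Agent.P088.R2.H561.S4.Ad1
import Vale.Agent.P088.R2.H338.V.OvA
import Vale.Agent.P088.R2.H673.QM2
import Vale.Agent.P088.R2.H455.S4.SpecE

/-!
# P088, stage 4, adapter for systems, part 2: matrix kernels as families of real functions
-/

open MeasureTheory Set Filter Topology
open scoped ContDiff Matrix

noncomputable section

namespace Vale.Agent.P088.S4.H561

open Vale.Agent.P088.LR Vale.Agent.P088.LR.U Vale.Agent.P088.LR.H158 Vale.Agent.P088.HY
open Vale.Agent.P088.PJ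
open Vale.Agent.P088.PJ.H338 (cp io cc rz recon rz_sum cp_mul ix xi ix_xi xi_ix sum_ix e1 sm_dxk
  sm_dyk)
open Vale.Agent.P088.HY.T3 (Ldv)

variable {n N m : ℕ}

/-! ## Numbers -/

/-- A real matrix as a complex one. -/
def ckn (A : Fin (N * 2) → Fin (N * 2) → ℝ) : Matrix (Fin N) (Fin N) ℂ := Matrix.of fun a b =>
  ∑ σ : Fin 2, ∑ τ : Fin 2, (A (xi a σ) (xi b τ) : ℂ) * io σ * io τ

/-- A complex matrix as a real one. -/
def knn (Z : Matrix (Fin N) (Fin N) ℂ) (p q : Fin (N * 2)) : ℝ :=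
  cp (ix p).2 (cc (ix q).2 * Z (ix p).1 (ix q).1)

theorem ckn_ap (A : Fin (N * 2) → Fin (N * 2) → ℝ) (a b : Fin N) :
    ckn A a b = ∑ σ : Fin 2, ∑ τ : Fin 2, (A (xi a σ) (xi b τ) : ℂ) * io σ * io τ := rfl

theorem ckn_knn (Z : Matrix (Fin N) (Fin N) ℂ) : ckn (knn Z) = Z := by
  ext a b
  rw [ckn_ap]
  simp only [knn, ix_xi]
  rw [Finset.sum_comm]
  have h1 : ∀ τ : Fin 2, ∑ σ : Fin 2, (cp σ (cc τ * Z a b) : ℂ) * io σ * io τ =
      cc τ * Z a b * io τ := by
    intro τ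
    rw [← Finset.sum_mul, recon]
  rw [Finset.sum_congr rfl fun τ _ => h1 τ, Fin.sum_univ_two]
  simp only [PJ.H338.io_zero, PJ.H338.io_one, PJ.H338.cc_zero, PJ.H338.cc_one]
  have h2 : Complex.I * Complex.I = -1 := Complex.I_mul_I
  linear_combination (-(1 / 2) * Z a b) * h2

theorem ckn_add (A B : Fin (N * 2) → Fin (N * 2) → ℝ) :
    ckn (fun p q => A p q + B p q) = ckn A + ckn B := by
  ext a b
  rw [Matrix.add_apply, ckn_ap, ckn_ap, ckn_ap, ← Finset.sum_add_distrib]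
  refine Finset.sum_congr rfl fun σ _ => ?_
  rw [← Finset.sum_add_distrib]
  refine Finset.sum_congr rfl fun τ _ => ?_
  push_cast
  ring

theorem ckn_smul (c : ℝ) (A : Fin (N * 2) → Fin (N * 2) → ℝ) :
    ckn (fun p q => c * A p q) = (c : ℂ) • ckn A := by
  ext a b
  rw [Matrix.smul_apply, ckn_ap, ckn_ap, smul_eq_mul, Finset.mul_sum]
  refine Finset.sum_congr rfl fun σ _ => ?_
  rw [Finset.mul_sum]
  refine Finset.sum_congr rfl fun τ _ => ?_
  push_cast
  ring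

theorem ckn_zero : ckn (fun _ _ => 0 : Fin (N * 2) → Fin (N * 2) → ℝ) = 0 := by
  ext a b
  rw [ckn_ap]
  simp

theorem ckn_neg (A : Fin (N * 2) → Fin (N * 2) → ℝ) : ckn (fun p q => -A p q) = -ckn A := by
  have h := ckn_smul (-1) A
  have h1 : (fun p q => -1 * A p q) = fun p q => -A p q := by
    funext p q
    ring
  rw [h1] at h
  rw [h]
  simp

theorem ckn_sum {ι : Type*} (t : Finset ι) (A : ι → Fin (N * 2) → Fin (N * 2) → ℝ) :
    ckn (fun p q => ∑ i ∈ t, A i p q) = ∑ i ∈ t, ckn (A i) := by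
  classical
  induction t using Finset.induction_on with
  | empty =>
    simp only [Finset.sum_empty]
    exact ckn_zero
  | insert a t ha ih =>
    simp only [Finset.sum_insert ha]
    rw [ckn_add, ih]

theorem ckn_mul_left (b : Matrix (Fin N) (Fin N) ℂ) (A : Fin (N * 2) → Fin (N * 2) → ℝ) :
    ckn (fun p q => ∑ p', rz (b (ix p).1 (ix p').1) (ix p).2 (ix p').2 * A p' q) = b * ckn A := by
  ext a c
  rw [ckn_ap, Matrix.mul_apply]
  simp only [ckn_ap, sum_ix, ix_xi, Complex.ofReal_sum, Complex.ofReal_mul, Finset.mul_sum,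
    Finset.sum_mul]
  rw [Finset.sum_comm (s := (Finset.univ : Finset (Fin 2))) (t := (Finset.univ : Finset (Fin 2)))]
  have h1 : ∀ τ : Fin 2, ∑ σ : Fin 2, ∑ d : Fin N, ∑ ρ : Fin 2,
      (rz (b a d) σ ρ : ℂ) * (A (xi d ρ) (xi c τ) : ℂ) * io σ * io τ =
      ∑ d : Fin N, ∑ ρ : Fin 2, b a d * ((A (xi d ρ) (xi c τ) : ℂ) * io ρ * io τ) := by
    intro τ
    rw [Finset.sum_comm]
    refine Finset.sum_congr rfl fun d _ => ?_
    rw [Finset.sum_comm]
    refine Finset.sum_congr rfl fun ρ _ => ?_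
    have h2 : ∀ σ : Fin 2, (rz (b a d) σ ρ : ℂ) * (A (xi d ρ) (xi c τ) : ℂ) * io σ * io τ =
        ((rz (b a d) σ ρ : ℂ) * io σ) * ((A (xi d ρ) (xi c τ) : ℂ) * io τ) := fun σ => by ring
    rw [Finset.sum_congr rfl fun σ _ => h2 σ, ← Finset.sum_mul, rz_sum]
    ring
  rw [Finset.sum_congr rfl fun τ _ => h1 τ, Finset.sum_comm]
  refine Finset.sum_congr rfl fun d _ => ?_
  rw [Finset.sum_comm]

theorem ckn_mul_right (b : Matrix (Fin N) (Fin N) ℂ) (A : Fin (N * 2) → Fin (N * 2) → ℝ) :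
    ckn (fun p q => ∑ q', rz (b (ix q').1 (ix q).1) (ix q).2 (ix q').2 * A p q') = ckn A * b := by
  ext a c
  rw [ckn_ap, Matrix.mul_apply]
  simp only [ckn_ap, sum_ix, ix_xi, Complex.ofReal_sum, Complex.ofReal_mul, Finset.sum_mul]
  have h1 : ∀ σ : Fin 2, ∑ τ : Fin 2, ∑ d : Fin N, ∑ ρ : Fin 2,
      (rz (b d c) τ ρ : ℂ) * (A (xi a σ) (xi d ρ) : ℂ) * io σ * io τ =
      ∑ d : Fin N, ∑ ρ : Fin 2, (A (xi a σ) (xi d ρ) : ℂ) * io σ * io ρ * b d c := by
    intro σ
    rw [Finset.sum_comm]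
    refine Finset.sum_congr rfl fun d _ => ?_
    rw [Finset.sum_comm]
    refine Finset.sum_congr rfl fun ρ _ => ?_
    have h2 : ∀ τ : Fin 2, (rz (b d c) τ ρ : ℂ) * (A (xi a σ) (xi d ρ) : ℂ) * io σ * io τ =
        ((rz (b d c) τ ρ : ℂ) * io τ) * ((A (xi a σ) (xi d ρ) : ℂ) * io σ) := fun τ => by ring
    rw [Finset.sum_congr rfl fun τ _ => h2 τ, ← Finset.sum_mul, rz_sum]
    ring
  rw [Finset.sum_congr rfl fun σ _ => h1 σ, Finset.sum_comm]

/-- The norm of a real matrix as a complex one. -/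
theorem nq_ckn (A : Fin (N * 2) → Fin (N * 2) → ℝ) : nq (ckn A) ≤ 4 * ∑ p, ∑ q, A p q ^ 2 := by
  have hio : ∀ σ : Fin 2, ‖io σ‖ = 1 := by
    intro σ
    have h0 : σ = 0 ∨ σ = 1 := by fin_cases σ <;> simp
    rcases h0 with rfl | rfl <;> simp
  have h1 : ∀ a b, ‖ckn A a b‖ ^ 2 ≤ 4 * ∑ σ : Fin 2, ∑ τ : Fin 2, A (xi a σ) (xi b τ) ^ 2 := by
    intro a b
    have h2 : ‖ckn A a b‖ ≤ ∑ σ : Fin 2, ∑ τ : Fin 2, |A (xi a σ) (xi b τ)| := by
      rw [ckn_ap]
      refine (norm_sum_le _ _).trans (Finset.sum_le_sum fun σ _ => (norm_sum_le _ _).trans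
        (Finset.sum_le_sum fun τ _ => le_of_eq ?_))
      rw [norm_mul, norm_mul, hio, hio, Complex.norm_real, Real.norm_eq_abs]
      ring
    refine (pow_le_pow_left₀ (norm_nonneg _) h2 2).trans ?_
    simp only [Fin.sum_univ_two]
    have h3 : ∀ x : ℝ, x ^ 2 = |x| ^ 2 := fun x => (_root_.sq_abs x).symm
    rw [h3 (A (xi a 0) (xi b 0)), h3 (A (xi a 0) (xi b 1)), h3 (A (xi a 1) (xi b 0)),
      h3 (A (xi a 1) (xi b 1))]
    nlinarith [_root_.sq_nonneg (|A (xi a 0) (xi b 0)| - |A (xi a 0) (xi b 1)|),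
      _root_.sq_nonneg (|A (xi a 0) (xi b 0)| - |A (xi a 1) (xi b 0)|),
      _root_.sq_nonneg (|A (xi a 0) (xi b 0)| - |A (xi a 1) (xi b 1)|),
      _root_.sq_nonneg (|A (xi a 0) (xi b 1)| - |A (xi a 1) (xi b 0)|),
      _root_.sq_nonneg (|A (xi a 0) (xi b 1)| - |A (xi a 1) (xi b 1)|),
      _root_.sq_nonneg (|A (xi a 1) (xi b 0)| - |A (xi a 1) (xi b 1)|)]
  unfold nq
  refine (Finset.sum_le_sum fun a _ => Finset.sum_le_sum fun b _ => h1 a b).trans (le_of_eq ?_)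
  simp only [sum_ix, Finset.mul_sum]
  refine Finset.sum_congr rfl fun a _ => ?_
  rw [Finset.sum_comm]

/-- The norm of a complex matrix as a real one. -/
theorem knn_nq (Z : Matrix (Fin N) (Fin N) ℂ) : ∑ p, ∑ q, knn Z p q ^ 2 ≤ nq Z := by
  simp only [sum_ix, knn, ix_xi]
  unfold nq
  refine Finset.sum_le_sum fun a _ => ?_
  rw [Finset.sum_comm]
  refine Finset.sum_le_sum fun b _ => ?_
  have h1 : ‖Z a b‖ ^ 2 = (Z a b).re ^ 2 + (Z a b).im ^ 2 := by
    rw [← Complex.normSq_eq_norm_sq, Complex.normSq_apply]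
    ring
  rw [h1]
  simp only [Fin.sum_univ_two, PJ.H338.cp_zero, PJ.H338.cp_one, PJ.H338.cc_zero, PJ.H338.cc_one,
    Complex.mul_re, Complex.mul_im, Complex.I_re, Complex.I_im, Complex.neg_re, Complex.neg_im]
  norm_num
  nlinarith [_root_.sq_nonneg (Z a b).re, _root_.sq_nonneg (Z a b).im]

/-! ## Functions -/

/-- A family of real functions. -/
abbrev RF (n m : ℕ) := Fin m → Fin m → VV n → ℝ

/-- A family of real functions as a matrix kernel. -/
def ck (F : RF n (N * 2)) : KC n N := fun z => ckn fun p q => F p q z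

/-- A matrix kernel as a family of real functions. -/
def kc (K : KC n N) : RF n (N * 2) := fun p q z => knn (K z) p q

theorem ck_kc (K : KC n N) : ck (kc K) = K := funext fun z => ckn_knn (K z)

theorem kc_kk (K : KC n N) (p q : Fin (N * 2)) : kc K p q = PJ.H338.kk K p q := rfl

theorem ck_sm {O : Set (VV n)} {F : RF n (N * 2)} (hF : ∀ p q, ContDiffOn ℝ ∞ (F p q) O) :
    SmK O (ck F) := by
  intro a b
  have h1 : ∀ σ τ : Fin 2, ContDiffOn ℝ ∞
      (fun z => (F (xi a σ) (xi b τ) z : ℂ) * io σ * io τ) O := fun σ τ =>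
    ((Complex.ofRealCLM.contDiff.comp_contDiffOn (hF (xi a σ) (xi b τ))).mul
      contDiffOn_const).mul contDiffOn_const
  have h2 : ContDiffOn ℝ ∞ (fun z => ∑ σ : Fin 2, ∑ τ : Fin 2,
      (F (xi a σ) (xi b τ) z : ℂ) * io σ * io τ) O :=
    ContDiffOn.sum fun σ _ => ContDiffOn.sum fun τ _ => h1 σ τ
  exact h2

theorem kc_sm {O : Set (VV n)} {K : KC n N} (hK : SmK O K) (p q : Fin (N * 2)) :
    ContDiffOn ℝ ∞ (kc K p q) O := PJ.H338.sm_kk hK p q

theorem fd_ck {F : RF n (N * 2)} {z : VV n} (hF : ∀ p q, DifferentiableAt ℝ (F p q) z)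
    (a b : Fin N) (v : VV n) : fderiv ℝ (fun z => ck F z a b) z v =
      ckn (fun p q => fderiv ℝ (F p q) z v) a b := by
  rw [ckn_ap]
  have h1 : ∀ σ τ : Fin 2, HasFDerivAt (fun z => (F (xi a σ) (xi b τ) z : ℂ) * io σ * io τ)
      ((io σ * io τ) • (Complex.ofRealCLM.comp (fderiv ℝ (F (xi a σ) (xi b τ)) z))) z := by
    intro σ τ
    have h2 : HasFDerivAt (fun z => (F (xi a σ) (xi b τ) z : ℂ))
        (Complex.ofRealCLM.comp (fderiv ℝ (F (xi a σ) (xi b τ)) z)) z :=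
      Complex.ofRealCLM.hasFDerivAt.comp z (hF _ _).hasFDerivAt
    have h3 := h2.mul_const (io σ * io τ)
    simp only [← mul_assoc] at h3
    exact h3
  have h4 : HasFDerivAt (fun z => ∑ σ : Fin 2, ∑ τ : Fin 2,
      (F (xi a σ) (xi b τ) z : ℂ) * io σ * io τ) (∑ σ : Fin 2, ∑ τ : Fin 2,
      (io σ * io τ) • (Complex.ofRealCLM.comp (fderiv ℝ (F (xi a σ) (xi b τ)) z))) z :=
    HasFDerivAt.fun_sum fun σ _ => HasFDerivAt.fun_sum fun τ _ => h1 σ τ
  have h5 : (fun z => ck F z a b) = fun z => ∑ σ : Fin 2, ∑ τ : Fin 2,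
      (F (xi a σ) (xi b τ) z : ℂ) * io σ * io τ := rfl
  rw [h5, h4.fderiv]
  simp only [_root_.sum_apply, _root_.smul_apply,
    ContinuousLinearMap.comp_apply, Complex.ofRealCLM_apply, smul_eq_mul]
  exact Finset.sum_congr rfl fun σ _ => Finset.sum_congr rfl fun τ _ => by ring

theorem dxk_ck {F : RF n (N * 2)} {z : VV n} (hF : ∀ p q, DifferentiableAt ℝ (F p q) z)
    (i : Fin n) : dxk i (ck F) z = ckn fun p q => dx i (F p q) z := by
  ext a b
  exact fd_ck hF a b _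

theorem dyk_ck {F : RF n (N * 2)} {z : VV n} (hF : ∀ p q, DifferentiableAt ℝ (F p q) z)
    (i : Fin n) : dyk i (ck F) z = ckn fun p q => dy i (F p q) z := by
  ext a b
  exact fd_ck hF a b _

theorem da_on {O : Set (VV n)} (hO : IsOpen O) {f : VV n → ℝ} (hf : ContDiffOn ℝ ∞ f O) {z : VV n}
    (hz : z ∈ O) : DifferentiableAt ℝ f z :=
  (hf.contDiffAt (hO.mem_nhds hz)).differentiableAt (by simp)

theorem ct_on {O : Set (VV n)} (hO : IsOpen O) {f : VV n → ℝ} (hf : ContDiffOn ℝ ∞ f O) {z : VV n}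
    (hz : z ∈ O) : ContDiffAt ℝ 2 f z :=
  (hf.contDiffAt (hO.mem_nhds hz)).of_le (WithTop.coe_le_coe.2 le_top)

theorem sm_dxo {O : Set (VV n)} (hO : IsOpen O) {f : VV n → ℝ} (hf : ContDiffOn ℝ ∞ f O)
    (i : Fin n) : ContDiffOn ℝ ∞ (dx i f) O :=
  (hf.fderiv_of_isOpen hO (m := ∞) (by simp)).clm_apply contDiffOn_const

theorem sm_dyo {O : Set (VV n)} (hO : IsOpen O) {f : VV n → ℝ} (hf : ContDiffOn ℝ ∞ f O)
    (i : Fin n) : ContDiffOn ℝ ∞ (dy i f) O :=
  (hf.fderiv_of_isOpen hO (m := ∞) (by simp)).clm_apply contDiffOn_const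

theorem dir_ev {f g : VV n → Matrix (Fin N) (Fin N) ℂ} {z : VV n} (h : f =ᶠ[𝓝 z] g)
    (v : VV n) (a b : Fin N) : fderiv ℝ (fun z => f z a b) z v = fderiv ℝ (fun z => g z a b) z v := by
  have h1 : (fun z => f z a b) =ᶠ[𝓝 z] fun z => g z a b := by
    filter_upwards [h] with w hw
    rw [hw]
  rw [h1.fderiv_eq]

theorem dxxk_ck {O : Set (VV n)} (hO : IsOpen O) {F : RF n (N * 2)}
    (hF : ∀ p q, ContDiffOn ℝ ∞ (F p q) O) {z : VV n} (hz : z ∈ O) (i j : Fin n) :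
    dxk i (dxk j (ck F)) z = ckn fun p q => dx i (dx j (F p q)) z := by
  have h1 : dxk j (ck F) =ᶠ[𝓝 z] ck fun p q => dx j (F p q) := by
    filter_upwards [hO.mem_nhds hz] with w hw
    exact dxk_ck (fun p q => da_on hO (hF p q) hw) j
  have h2 : dxk i (dxk j (ck F)) z = dxk i (ck fun p q => dx j (F p q)) z := by
    ext a b
    exact dir_ev h1 _ a b
  rw [h2]
  exact dxk_ck (fun p q => da_on hO (sm_dxo hO (hF p q) j) hz) i

theorem dyyk_ck {O : Set (VV n)} (hO : IsOpen O) {F : RF n (N * 2)}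
    (hF : ∀ p q, ContDiffOn ℝ ∞ (F p q) O) {z : VV n} (hz : z ∈ O) (i j : Fin n) :
    dyk i (dyk j (ck F)) z = ckn fun p q => dy i (dy j (F p q)) z := by
  have h1 : dyk j (ck F) =ᶠ[𝓝 z] ck fun p q => dy j (F p q) := by
    filter_upwards [hO.mem_nhds hz] with w hw
    exact dyk_ck (fun p q => da_on hO (hF p q) hw) j
  have h2 : dyk i (dyk j (ck F)) z = dyk i (ck fun p q => dy j (F p q)) z := by
    ext a b
    exact dir_ev h1 _ a b
  rw [h2]
  exact dyk_ck (fun p q => da_on hO (sm_dyo hO (hF p q) j) hz) i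

theorem sl_left {f : VV n → ℝ} {z : VV n} (hf : ContDiffAt ℝ 2 f z) :
    ContDiffAt ℝ 2 (fun x => f (x, z.2)) z.1 :=
  ContDiffAt.comp (g := f) (f := fun x => (x, z.2)) z.1 hf (by fun_prop)

theorem sl_right {f : VV n → ℝ} {z : VV n} (hf : ContDiffAt ℝ 2 f z) :
    ContDiffAt ℝ 2 (fun y => f (z.1, y)) z.2 :=
  ContDiffAt.comp (g := f) (f := fun y => (z.1, y)) z.2 hf (by fun_prop)

/-! ## The operators -/

/-- The operator `div (s ∇) + B·∇` in `x`, on the first index. -/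
def LX1 (s : MF n) (B : B1 n m) (F : RF n m) (p q : Fin m) (z : VV n) : ℝ :=
  L1 s B (fun p' x => F p' q (x, z.2)) p z.1

/-- The operator `div (s ∇) + B·∇` in `y`, on the second index. -/
def LY1 (s : MF n) (B : B1 n m) (F : RF n m) (p q : Fin m) (z : VV n) : ℝ :=
  L1 s B (fun q' y => F p q' (z.1, y)) q z.2

/-- First order coefficients in divergence form. -/
def hB (s : MF n) (β : Fin n → MC n N) : B1 n (N * 2) := fun p q l x =>
  rz (β l x (ix p).1 (ix q).1) (ix p).2 (ix q).2 -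
    if p = q then ∑ i, pd i (fun y => s y i l) x else 0

/-- Divergence form and non divergence form. -/
theorem Ldv_nd {s : MF n} (hs : SmM s) {f : V n → ℝ} {x : V n} (hf : ContDiffAt ℝ 2 f x) :
    Ldv s f x = Lv s f x + ∑ j, (∑ i, pd i (fun y => s y i j) x) * pd j f x := by
  have hd : ∀ j, DifferentiableAt ℝ (pd j f) x := by
    intro j
    have h : ContDiffAt ℝ 1 (fderiv ℝ f) x := hf.fderiv_right (by norm_num)
    exact (h.clm_apply contDiffAt_const).differentiableAt (by norm_num)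
  have hsd : ∀ i j, DifferentiableAt ℝ (fun y => s y i j) x := fun i j =>
    (hs i j).differentiable (by simp) x
  have h1 : ∀ i, pd i (fun y => ∑ j, s y i j * pd j f y) x =
      ∑ j, (s x i j * pd i (pd j f) x + pd j f x * pd i (fun y => s y i j) x) := by
    intro i
    rw [H437.Kel.pd_sum (f := fun j y => s y i j * pd j f y)
      (fun j _ => (hsd i j).mul (hd j))]
    exact Finset.sum_congr rfl fun j _ => H437.Kel.pd_mul (hsd i j) (hd j) i
  unfold Ldv Lv
  rw [Finset.sum_congr rfl fun i _ => h1 i]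
  simp only [Finset.sum_add_distrib, Finset.sum_mul]
  congr 1
  rw [Finset.sum_comm]
  exact Finset.sum_congr rfl fun j _ => Finset.sum_congr rfl fun i _ => by ring

theorem L1_nd {s : MF n} (hs : SmM s) (β : Fin n → MC n N) {w : Fin (N * 2) → V n → ℝ} {x : V n}
    (hw : ∀ p, ContDiffAt ℝ 2 (w p) x) (p : Fin (N * 2)) :
    L1 s (hB s β) w p x = Lv s (w p) x +
      ∑ l, ∑ p', rz (β l x (ix p).1 (ix p').1) (ix p).2 (ix p').2 * pd l (w p') x := by
  unfold L1
  rw [Ldv_nd hs (hw p)]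
  have h1 : ∀ b, ∑ l, hB s β p b l x * pd l (w b) x =
      (∑ l, rz (β l x (ix p).1 (ix b).1) (ix p).2 (ix b).2 * pd l (w b) x) -
      if p = b then ∑ l, (∑ i, pd i (fun y => s y i l) x) * pd l (w b) x else 0 := by
    intro b
    unfold hB
    by_cases hpb : p = b
    · simp only [if_pos hpb]
      rw [← Finset.sum_sub_distrib]
      exact Finset.sum_congr rfl fun l _ => by ring
    · simp only [if_neg hpb]
      simp
  rw [Finset.sum_congr rfl fun b _ => h1 b, Finset.sum_sub_distrib, Finset.sum_ite_eq]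
  simp only [Finset.mem_univ, if_true]
  rw [Finset.sum_comm]
  ring

/-- The operator in `x` of matrix kernels is the real one. -/
theorem Lk_ck {s : MF n} (hs : SmM s) (β : Fin n → MC n N) {O : Set (VV n)} (hO : IsOpen O)
    {F : RF n (N * 2)} (hF : ∀ p q, ContDiffOn ℝ ∞ (F p q) O) {z : VV n} (hz : z ∈ O) :
    Lk s β (ck F) z = ckn fun p q => LX1 s (hB s β) F p q z := by
  have h1 : ∀ p q, LX1 s (hB s β) F p q z = (∑ i, ∑ j, s z.1 i j * dx i (dx j (F p q)) z) +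
      ∑ l, ∑ p', rz (β l z.1 (ix p).1 (ix p').1) (ix p).2 (ix p').2 * dx l (F p' q) z := by
    intro p q
    unfold LX1
    rw [L1_nd hs β (fun p' => sl_left (ct_on hO (hF _ q) hz))]
    congr 1
    · have := QM.Lx_eq (z := z) s (ct_on hO (hF p q) hz)
      unfold Lx at this
      rw [this]
    · refine Finset.sum_congr rfl fun l _ => Finset.sum_congr rfl fun p' _ => ?_
      rw [QM.dx_eq (da_on hO (hF p' q) hz)]
  unfold Lk
  have h2 : (fun p q => LX1 s (hB s β) F p q z) = fun p q =>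
      (∑ i, ∑ j, s z.1 i j * dx i (dx j (F p q)) z) +
      ∑ l, ∑ p', rz (β l z.1 (ix p).1 (ix p').1) (ix p).2 (ix p').2 * dx l (F p' q) z := by
    funext p q
    exact h1 p q
  rw [h2, ckn_add, ckn_sum, ckn_sum]
  congr 1
  · refine Finset.sum_congr rfl fun i _ => ?_
    rw [ckn_sum]
    refine Finset.sum_congr rfl fun j _ => ?_
    rw [ckn_smul, dxxk_ck hO hF hz]
  · refine Finset.sum_congr rfl fun l _ => ?_
    rw [ckn_mul_left (β l z.1) (fun p q => dx l (F p q) z),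
      dxk_ck (fun p q => da_on hO (hF p q) hz)]

/-- The operator in `y` of matrix kernels is the real one. -/
theorem Rk_ck {s : MF n} (hs : SmM s) (β : Fin n → MC n N) {O : Set (VV n)} (hO : IsOpen O)
    {F : RF n (N * 2)} (hF : ∀ p q, ContDiffOn ℝ ∞ (F p q) O) {z : VV n} (hz : z ∈ O) :
    Rk s β (ck F) z = ckn fun p q => LY1 s (hB s fun l x => (β l x)ᵀ) F p q z := by
  have h1 : ∀ p q, LY1 s (hB s fun l x => (β l x)ᵀ) F p q z =
      (∑ i, ∑ j, s z.2 i j * dy i (dy j (F p q)) z) +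
      ∑ l, ∑ q', rz (β l z.2 (ix q').1 (ix q).1) (ix q).2 (ix q').2 * dy l (F p q') z := by
    intro p q
    unfold LY1
    rw [L1_nd hs _ (fun q' => sl_right (ct_on hO (hF p _) hz))]
    congr 1
    · have := QM.Ly_eq (z := z) s (ct_on hO (hF p q) hz)
      unfold Ly at this
      rw [this]
    · refine Finset.sum_congr rfl fun l _ => Finset.sum_congr rfl fun q' _ => ?_
      rw [QM.dy_eq (da_on hO (hF p q') hz)]
      rfl
  unfold Rk
  have h2 : (fun p q => LY1 s (hB s fun l x => (β l x)ᵀ) F p q z) = fun p q =>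
      (∑ i, ∑ j, s z.2 i j * dy i (dy j (F p q)) z) +
      ∑ l, ∑ q', rz (β l z.2 (ix q').1 (ix q).1) (ix q).2 (ix q').2 * dy l (F p q') z := by
    funext p q
    exact h1 p q
  rw [h2, ckn_add, ckn_sum, ckn_sum]
  congr 1
  · refine Finset.sum_congr rfl fun i _ => ?_
    rw [ckn_sum]
    refine Finset.sum_congr rfl fun j _ => ?_
    rw [ckn_smul, dyyk_ck hO hF hz]
  · refine Finset.sum_congr rfl fun l _ => ?_
    rw [ckn_mul_right (β l z.2) (fun p q => dy l (F p q) z),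
      dyk_ck (fun p q => da_on hO (hF p q) hz)]

end Vale.Agent.P088.S4.H561
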