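import Vale.Agent.P088.R2.H561.S4.Ad2
import Vale.Agent.P088.R2.H561.S4.Cov

/-!
# P088, stage 4, adapter for systems, part 3: the inversion in both slots, one index
-/

open MeasureTheory Set Filter Topology
open scoped ContDiff Matrix

noncomputable section

namespace Vale.Agent.P088.S4.H561

open Vale.Agent.P088.LR Vale.Agent.P088.LR.U Vale.Agent.P088.LR.H158 Vale.Agent.P088.HY
open Vale.Agent.P088.HY.T3 (Ldv ks iv Eb)
open Vale.Agent.P088.HY.H437.Kel (Cuts st iv_iv iv_ne sq_iv)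
open Vale.Agent.P088.R2.H269 (DX DY)

variable {n N m : ℕ}

/-! ## The inversion in both slots -/

/-- The operator in `x` under the inversion in both slots. -/
theorem LX1_iz (hn : 3 ≤ n) {χ χa ψ χ2 : V n → ℝ} (h : Cuts χ χa ψ χ2) {s : MF n} (hs : SmM s)
    (hy : ∀ x, (s x).IsSymm) (hs1 : ∀ x ∉ Eb (0 : V n) 32, s x = 1) (B : B1 n m) {O : Set (VV n)}
    (hO : IsOpen O) {G : RF n m} (hG : ∀ p q, ContDiffOn ℝ ∞ (G p q) O) (p q : Fin m) {z : VV n}
    (h0 : z.1 ≠ 0) (hz : iz z ∈ O) (h1 : (1 / 32) ^ 2 < HY.sq (iv z.1))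
    (h2 : HY.sq (iv z.1) < (5 / 4) ^ 2) :
    LX1 s B (fun p q z => G p q (iz z)) p q z = HY.sq (iv z.1) ^ 2 *
      LX1 (st χ χa ψ χ2 s) (gD χ χa ψ χ2 s B) G p q (iz z) := by
  have hU : IsOpen ({y : V n | y ≠ 0} ∩ {y : V n | (y, iv z.2) ∈ O}) :=
    isOpen_ne.inter (hO.preimage (by fun_prop))
  have hu : ∀ a, ContDiffOn ℝ ∞ (fun y => G a q (y, iv z.2))
      ({y : V n | y ≠ 0} ∩ {y : V n | (y, iv z.2) ∈ O}) := fun a =>
    (hG a q).comp (contDiff_id.prodMk contDiff_const).contDiffOn fun y hy => hy.2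
  have hmem : iv z.1 ∈ ({y : V n | y ≠ 0} ∩ {y : V n | (y, iv z.2) ∈ O}) := ⟨iv_ne h0, hz⟩
  have h3 := kelS hn hs hy B hU (fun y hy => hy.1) hu p hmem
  rw [iv_iv h0] at h3
  have h4 := L1_inv h hs1 B (fun a y => G a q (y, iv z.2)) p h1 h2
  show L1 s B (fun p' x => G p' q (iv x, iv z.2)) p z.1 = HY.sq (iv z.1) ^ 2 *
    L1 (st χ χa ψ χ2 s) (gD χ χa ψ χ2 s B) (fun p' x => G p' q (x, iv z.2)) p (iv z.1)
  rw [h4]
  exact h3

/-- The operator in `y` under the inversion in both slots. -/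
theorem LY1_iz (hn : 3 ≤ n) {χ χa ψ χ2 : V n → ℝ} (h : Cuts χ χa ψ χ2) {s : MF n} (hs : SmM s)
    (hy : ∀ x, (s x).IsSymm) (hs1 : ∀ x ∉ Eb (0 : V n) 32, s x = 1) (B : B1 n m) {O : Set (VV n)}
    (hO : IsOpen O) {G : RF n m} (hG : ∀ p q, ContDiffOn ℝ ∞ (G p q) O) (p q : Fin m) {z : VV n}
    (h0 : z.2 ≠ 0) (hz : iz z ∈ O) (h1 : (1 / 32) ^ 2 < HY.sq (iv z.2))
    (h2 : HY.sq (iv z.2) < (5 / 4) ^ 2) :
    LY1 s B (fun p q z => G p q (iz z)) p q z = HY.sq (iv z.2) ^ 2 *
      LY1 (st χ χa ψ χ2 s) (gD χ χa ψ χ2 s B) G p q (iz z) := by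
  have hU : IsOpen ({y : V n | y ≠ 0} ∩ {y : V n | (iv z.1, y) ∈ O}) :=
    isOpen_ne.inter (hO.preimage (by fun_prop))
  have hu : ∀ a, ContDiffOn ℝ ∞ (fun y => G p a (iv z.1, y))
      ({y : V n | y ≠ 0} ∩ {y : V n | (iv z.1, y) ∈ O}) := fun a =>
    (hG p a).comp (contDiff_const.prodMk contDiff_id).contDiffOn fun y hy => hy.2
  have hmem : iv z.2 ∈ ({y : V n | y ≠ 0} ∩ {y : V n | (iv z.1, y) ∈ O}) := ⟨iv_ne h0, hz⟩
  have h3 := kelS hn hs hy B hU (fun y hy => hy.1) hu q hmem
  rw [iv_iv h0] at h3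
  have h4 := L1_inv h hs1 B (fun a y => G p a (iv z.1, y)) q h1 h2
  show L1 s B (fun q' x => G p q' (iv z.1, iv x)) q z.2 = HY.sq (iv z.2) ^ 2 *
    L1 (st χ χa ψ χ2 s) (gD χ χa ψ χ2 s B) (fun q' x => G p q' (iv z.1, x)) q (iv z.2)
  rw [h4]
  exact h3

/-! ## One index -/

/-- The index of a pair of indices. -/
def en (m : ℕ) : Fin m × Fin m ≃ Fin (m * m) := finProdFinEquiv

/-- A family as a vector. -/
def fl (G : RF n m) : Fin (m * m) → VV n → ℝ := fun a => G ((en m).symm a).1 ((en m).symm a).2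

/-- A vector as a family. -/
def uf (f : Fin (m * m) → VV n → ℝ) : RF n m := fun p q => f (en m (p, q))

theorem uf_fl (G : RF n m) : uf (fl G) = G := by
  funext p q
  simp [uf, fl]

theorem sum_en {E : Type*} [AddCommMonoid E] (f : Fin (m * m) → E) :
    ∑ a, f a = ∑ p, ∑ q, f (en m (p, q)) := by
  rw [← Fintype.sum_prod_type', ← Equiv.sum_comp (en m)]

/-- The matrices of the operator in `x`. -/
def Bx (B : B1 n m) : Fin n → V n → Matrix (Fin (m * m)) (Fin (m * m)) ℝ := fun i x =>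
  Matrix.of fun a b => if ((en m).symm a).2 = ((en m).symm b).2 then
    B ((en m).symm a).1 ((en m).symm b).1 i x else 0

/-- The matrices of the operator in `y`. -/
def By (B : B1 n m) : Fin n → V n → Matrix (Fin (m * m)) (Fin (m * m)) ℝ := fun i x =>
  Matrix.of fun a b => if ((en m).symm a).1 = ((en m).symm b).1 then
    B ((en m).symm a).2 ((en m).symm b).2 i x else 0

theorem Bx_ap (B : B1 n m) (i : Fin n) (x : V n) (p q p' q' : Fin m) :
    Bx B i x (en m (p, q)) (en m (p', q')) = if q = q' then B p p' i x else 0 := by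
  simp [Bx]

theorem By_ap (B : B1 n m) (i : Fin n) (x : V n) (p q p' q' : Fin m) :
    By B i x (en m (p, q)) (en m (p', q')) = if p = p' then B q q' i x else 0 := by
  simp [By]

theorem Bx_By (B C : B1 n m) (i j : Fin n) (x y : V n) :
    Bx B i x * By C j y = By C j y * Bx B i x := by
  ext a b
  obtain ⟨⟨p, q⟩, rfl⟩ := (en m).surjective a
  obtain ⟨⟨p', q'⟩, rfl⟩ := (en m).surjective b
  rw [Matrix.mul_apply, Matrix.mul_apply, sum_en, sum_en]
  simp only [Bx_ap, By_ap, ite_mul, mul_ite, zero_mul, mul_zero]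
  have h1 : ∀ r : Fin m, ∑ t : Fin m, (if r = p' then (if q = t then B p r i x * C t q' j y
      else 0) else 0) = if r = p' then B p r i x * C q q' j y else 0 := by
    intro r
    by_cases hr : r = p'
    · simp only [if_pos hr]
      simp
    · simp only [if_neg hr]
      simp
  have h2 : ∀ r : Fin m, ∑ t : Fin m, (if t = q' then (if p = r then C q t j y * B r p' i x
      else 0) else 0) = if p = r then C q q' j y * B r p' i x else 0 := by
    intro r
    by_cases hr : p = r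
    · simp only [if_pos hr]
      simp
    · simp only [if_neg hr]
      simp
  rw [Finset.sum_congr rfl fun r _ => h1 r, Finset.sum_congr rfl fun r _ => h2 r]
  simp
  ring

theorem pd_zeroF (k : Fin n) (x : V n) : pd k (fun _ : V n => (0 : ℝ)) x = 0 :=
  HY.H437.Kel.pd_const 0 k x

theorem bn_x {B : B1 n m} {M : ℝ} (hM : 0 ≤ M) (hB : ∀ a b i, ContDiff ℝ ∞ (B a b i))
    (hc : ∀ a b i, Cl 1 M (B a b i)) : S4.Bn M (Bx B) := by
  refine ⟨fun i a b => ?_, fun i a b x => ?_, fun k i a b x => ?_⟩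
  · by_cases hab : ((en m).symm a).2 = ((en m).symm b).2
    · simp only [Bx, Matrix.of_apply, if_pos hab]
      exact hB _ _ i
    · simp only [Bx, Matrix.of_apply, if_neg hab]
      exact contDiff_const
  · by_cases hab : ((en m).symm a).2 = ((en m).symm b).2
    · simp only [Bx, Matrix.of_apply, if_pos hab]
      exact HY.H437.Kel.cl_zero' (hc _ _ i) x
    · simp only [Bx, Matrix.of_apply, if_neg hab]
      rw [abs_zero]
      exact hM
  · by_cases hab : ((en m).symm a).2 = ((en m).symm b).2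
    · simp only [Bx, Matrix.of_apply, if_pos hab]
      exact HY.H437.Kel.cl_one le_rfl (hB _ _ i) (hc _ _ i) k x
    · simp only [Bx, Matrix.of_apply, if_neg hab]
      rw [pd_zeroF, abs_zero]
      exact hM

theorem bn_y {B : B1 n m} {M : ℝ} (hM : 0 ≤ M) (hB : ∀ a b i, ContDiff ℝ ∞ (B a b i))
    (hc : ∀ a b i, Cl 1 M (B a b i)) : S4.Bn M (By B) := by
  refine ⟨fun i a b => ?_, fun i a b x => ?_, fun k i a b x => ?_⟩
  · by_cases hab : ((en m).symm a).1 = ((en m).symm b).1
    · simp only [By, Matrix.of_apply, if_pos hab]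
      exact hB _ _ i
    · simp only [By, Matrix.of_apply, if_neg hab]
      exact contDiff_const
  · by_cases hab : ((en m).symm a).1 = ((en m).symm b).1
    · simp only [By, Matrix.of_apply, if_pos hab]
      exact HY.H437.Kel.cl_zero' (hc _ _ i) x
    · simp only [By, Matrix.of_apply, if_neg hab]
      rw [abs_zero]
      exact hM
  · by_cases hab : ((en m).symm a).1 = ((en m).symm b).1
    · simp only [By, Matrix.of_apply, if_pos hab]
      exact HY.H437.Kel.cl_one le_rfl (hB _ _ i) (hc _ _ i) k x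
    · simp only [By, Matrix.of_apply, if_neg hab]
      rw [pd_zeroF, abs_zero]
      exact hM

/-! ## The operators of the estimate -/

theorem DX_sl {s : MF n} (hs : SmM s) {f : VV n → ℝ} (hf : ContDiff ℝ ∞ f) (z : VV n) :
    DX s f z = Ldv s (fun x => f (x, z.2)) z.1 := by
  have sdx : ∀ j, ContDiff ℝ ∞ (dx j f) := fun j =>
    (hf.fderiv_right (m := ∞) (by simp)).clm_apply contDiff_const
  have hd : ∀ w, DifferentiableAt ℝ f w := fun w => hf.differentiable (by simp) w
  have h1 : ∀ i j, dx i (fun w : VV n => s w.1 i j * dx j f w) z =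
      pd i (fun x => s x i j * pd j (fun x => f (x, z.2)) x) z.1 := by
    intro i j
    have h2 : DifferentiableAt ℝ (fun w : VV n => s w.1 i j * dx j f w) z :=
      ((((hs i j).comp contDiff_fst).mul (sdx j)).differentiable (by simp)) z
    rw [QM.dx_eq h2]
    have h3 : (fun x => s x i j * dx j f (x, z.2)) =
        fun x => s x i j * pd j (fun x => f (x, z.2)) x := by
      funext x
      rw [QM.dx_eq (z := (x, z.2)) (hd _) j]
    show pd i (fun x => s x i j * dx j f (x, z.2)) z.1 = _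
    rw [h3]
  have h4 : ContDiff ℝ ∞ fun x => f (x, z.2) := hf.comp (contDiff_id.prodMk contDiff_const)
  unfold DX Ldv
  refine Finset.sum_congr rfl fun i _ => ?_
  rw [HY.H437.Kel.pd_sum (f := fun j x => s x i j * pd j (fun x => f (x, z.2)) x) fun j _ => ?_]
  · exact Finset.sum_congr rfl fun j _ => h1 i j
  · exact (((hs i j).mul ((h4.fderiv_right (m := ∞) (by simp)).clm_apply
      contDiff_const)).differentiable (by simp)) z.1

theorem DY_sl {s : MF n} (hs : SmM s) {f : VV n → ℝ} (hf : ContDiff ℝ ∞ f) (z : VV n) :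
    DY s f z = Ldv s (fun y => f (z.1, y)) z.2 := by
  have sdy : ∀ j, ContDiff ℝ ∞ (dy j f) := fun j =>
    (hf.fderiv_right (m := ∞) (by simp)).clm_apply contDiff_const
  have hd : ∀ w, DifferentiableAt ℝ f w := fun w => hf.differentiable (by simp) w
  have h1 : ∀ i j, dy i (fun w : VV n => s w.2 i j * dy j f w) z =
      pd i (fun y => s y i j * pd j (fun y => f (z.1, y)) y) z.2 := by
    intro i j
    have h2 : DifferentiableAt ℝ (fun w : VV n => s w.2 i j * dy j f w) z :=
      ((((hs i j).comp contDiff_snd).mul (sdy j)).differentiable (by simp)) z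
    rw [QM.dy_eq h2]
    have h3 : (fun y => s y i j * dy j f (z.1, y)) =
        fun y => s y i j * pd j (fun y => f (z.1, y)) y := by
      funext y
      rw [QM.dy_eq (z := (z.1, y)) (hd _) j]
    show pd i (fun y => s y i j * dy j f (z.1, y)) z.2 = _
    rw [h3]
  have h4 : ContDiff ℝ ∞ fun y => f (z.1, y) := hf.comp (contDiff_const.prodMk contDiff_id)
  unfold DY Ldv
  refine Finset.sum_congr rfl fun i _ => ?_
  rw [HY.H437.Kel.pd_sum (f := fun j y => s y i j * pd j (fun y => f (z.1, y)) y) fun j _ => ?_]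
  · exact Finset.sum_congr rfl fun j _ => h1 i j
  · exact (((hs i j).mul ((h4.fderiv_right (m := ∞) (by simp)).clm_apply
      contDiff_const)).differentiable (by simp)) z.2

theorem AXN_eq {s : MF n} (hs : SmM s) (B : B1 n m) {f : Fin (m * m) → VV n → ℝ}
    (hf : ∀ a, ContDiff ℝ ∞ (f a)) (p q : Fin m) (z : VV n) :
    AXN s (Bx B) f (en m (p, q)) z = LX1 s B (uf f) p q z := by
  unfold AXN LX1 L1
  rw [DX_sl hs (hf _)]
  congr 1
  rw [Finset.sum_comm, sum_en]
  refine Finset.sum_congr rfl fun p' _ => ?_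
  rw [Finset.sum_comm]
  refine Finset.sum_congr rfl fun i _ => ?_
  simp only [Bx_ap, ite_mul, zero_mul, Finset.sum_ite_eq, Finset.mem_univ, if_true]
  rw [QM.dx_eq ((hf _).differentiable (by simp) z)]
  rfl

theorem AYN_eq {s : MF n} (hs : SmM s) (B : B1 n m) {f : Fin (m * m) → VV n → ℝ}
    (hf : ∀ a, ContDiff ℝ ∞ (f a)) (p q : Fin m) (z : VV n) :
    AYN s (By B) f (en m (p, q)) z = LY1 s B (uf f) p q z := by
  unfold AYN LY1 L1
  rw [DY_sl hs (hf _)]
  congr 1
  rw [Finset.sum_comm, sum_en, Finset.sum_comm]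
  refine Finset.sum_congr rfl fun q' _ => ?_
  rw [Finset.sum_comm]
  refine Finset.sum_congr rfl fun i _ => ?_
  simp only [By_ap, ite_mul, zero_mul, Finset.sum_ite_eq, Finset.mem_univ, if_true]
  rw [QM.dy_eq ((hf _).differentiable (by simp) z)]
  rfl

end Vale.Agent.P088.S4.H561
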