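import Vale.Agent.P088.R2.H561.S4.Ad3
import Vale.Agent.P088.R2.H455.S4.SpecB

/-!
# P088, stage 4, adapter for systems, part 4: transfer of the solutions
-/

open MeasureTheory Set Filter Topology
open scoped ContDiff Matrix

noncomputable section

namespace Vale.Agent.P088.S4.H561

open Vale.Agent.P088.LR Vale.Agent.P088.LR.U Vale.Agent.P088.LR.H158 Vale.Agent.P088.HY
open Vale.Agent.P088.PJ
open Vale.Agent.P088.PJ.H338 (cp io cc rz ix xi ix_xi xi_ix sum_ix e1)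
open Vale.Agent.P088.HY.T3 (Ldv ks iv Eb Ac Ao isOpen_Ao isClosed_Ac isCompact_Ac)
open Vale.Agent.P088.HY.T4 (Oc Zq)
open Vale.Agent.P088.HY.H437.Kel (Cuts st iv_iv iv_ne sq_iv sq_pos sq_nn cd_iv da_iv isCompact_sq
  sq_cont ao_sq mem_img isOpen_img iv_img)
open Vale.Agent.P088.R2.H269 (DX DY)

variable {n N m : ℕ}

/-! ## Sets -/

theorem oc_sq {x : V n} (hx : x ∈ Oc n) : (4 / 5) ^ 2 < HY.sq x ∧ HY.sq x < 24 ^ 2 :=
  ao_sq (by norm_num) hx

theorem oc_ne {x : V n} (hx : x ∈ Oc n) : x ≠ 0 := ne_of_sq (by norm_num) (oc_sq hx).1.le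

/-- The domain in the inverted chart. -/
def Oi (n : ℕ) : Set (V n) := iv '' Oc n

theorem oi_mem {y : V n} : y ∈ Oi n ↔ y ≠ 0 ∧ iv y ∈ Oc n := mem_img fun _ hx => oc_ne hx

theorem oi_open : IsOpen (Oi n) := isOpen_img (isOpen_Ao _ _) fun _ hx => oc_ne hx

theorem oi_img : iv '' Oi n = Oc n := iv_img fun _ hx => oc_ne hx

theorem oi_sq {y : V n} (hy : y ∈ Oi n) : (1 / 24) ^ 2 < HY.sq y ∧ HY.sq y < (5 / 4) ^ 2 := by
  obtain ⟨h0, h1⟩ := oi_mem.1 hy
  have h2 := oc_sq h1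
  rw [sq_iv h0] at h2
  have h3 := sq_pos h0
  constructor
  · have h4 := (inv_lt_comm₀ h3 (by norm_num)).1 h2.2
    exact lt_of_le_of_lt (by norm_num) h4
  · have h4 := (lt_inv_comm₀ (by norm_num) h3).1 h2.1
    exact h4.trans_le (by norm_num)

theorem zq_oc {x : V n} (hx : x ∈ Zq n) : x ∈ Oc n :=
  ⟨lt_of_lt_of_le (by norm_num) hx.1, lt_of_le_of_lt hx.2 (by norm_num)⟩

theorem ac_sq {a b : ℝ} (ha : 0 ≤ a) {x : V n} (hx : x ∈ Ac n a b) :
    a ^ 2 ≤ HY.sq x ∧ HY.sq x ≤ b ^ 2 := by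
  obtain ⟨h1, h2⟩ := hx
  have h3 : √(HY.sq x) ^ 2 = HY.sq x := Real.sq_sqrt (sq_nn x)
  constructor
  · rw [← h3]
    exact pow_le_pow_left₀ ha h1 2
  · rw [← h3]
    exact pow_le_pow_left₀ (Real.sqrt_nonneg _) h2 2

theorem zq_iv {y : V n} (h : iv y ∈ Zq n) :
    y ≠ 0 ∧ (1 / 15) ^ 2 ≤ HY.sq y ∧ HY.sq y ≤ (10 / 9) ^ 2 := by
  have h1 := ac_sq (by norm_num) h
  have h0 : y ≠ 0 := by
    intro h0
    have h2 : iv y = 0 := by
      rw [h0]
      funext i
      show (0 : V n) i / HY.sq 0 = 0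
      simp
    rw [h2] at h1
    have h3 : HY.sq (0 : V n) = 0 := by simp [HY.H437.Kel.sq_def]
    rw [h3] at h1
    norm_num at h1
  rw [sq_iv h0] at h1
  have h3 := sq_pos h0
  refine ⟨h0, ?_, ?_⟩
  · have h4 := (inv_le_comm₀ h3 (by norm_num)).1 h1.2
    exact le_trans (by norm_num) h4
  · have h4 := (le_inv_comm₀ (by norm_num) h3).1 h1.1
    exact h4.trans (by norm_num)

theorem zq_oi {y : V n} (h : iv y ∈ Zq n) : y ∈ Oi n := oi_mem.2 ⟨(zq_iv h).1, zq_oc h⟩

/-! ## Pull-back of functions -/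

theorem cd_iz {w : VV n} (h1 : w.1 ≠ 0) (h2 : w.2 ≠ 0) : ContDiffAt ℝ ∞ (iz : VV n → VV n) w :=
  ((cd_iv h1).comp w contDiffAt_fst).prodMk ((cd_iv h2).comp w contDiffAt_snd)

theorem pull_sm {f : VV n → ℝ} (hf : ContDiff ℝ ∞ f)
    (hs : ∀ z, f z ≠ 0 → z.1 ∈ Zq n ∧ z.2 ∈ Zq n) : ContDiff ℝ ∞ fun w => f (iz w) := by
  rw [contDiff_iff_contDiffAt]
  intro w
  by_cases h : w.1 ≠ 0 ∧ w.2 ≠ 0
  · exact hf.contDiffAt.comp w (cd_iz h.1 h.2)
  · have hev : (fun w => f (iz w)) =ᶠ[𝓝 w] fun _ => 0 := by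
      rcases not_and_or.1 h with h1 | h1
      · have h2 : w.1 = 0 := not_not.1 h1
        have e1 : ∀ᶠ w' : VV n in 𝓝 w, HY.sq w'.1 < (1 / 15) ^ 2 := by
          refine (isOpen_lt (sq_cont.comp continuous_fst) continuous_const).mem_nhds ?_
          show HY.sq w.1 < _
          rw [h2]
          have : HY.sq (0 : V n) = 0 := by simp [HY.H437.Kel.sq_def]
          rw [this]
          norm_num
        filter_upwards [e1] with w' hw'
        by_contra hne
        exact absurd (zq_iv (hs _ hne).1).2.1 (not_le.2 hw')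
      · have h2 : w.2 = 0 := not_not.1 h1
        have e1 : ∀ᶠ w' : VV n in 𝓝 w, HY.sq w'.2 < (1 / 15) ^ 2 := by
          refine (isOpen_lt (sq_cont.comp continuous_snd) continuous_const).mem_nhds ?_
          show HY.sq w.2 < _
          rw [h2]
          have : HY.sq (0 : V n) = 0 := by simp [HY.H437.Kel.sq_def]
          rw [this]
          norm_num
        filter_upwards [e1] with w' hw'
        by_contra hne
        exact absurd (zq_iv (hs _ hne).2).2.1 (not_le.2 hw')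
    exact contDiffAt_const.congr_of_eventuallyEq hev

theorem pull_cs {f : VV n → ℝ} (hs : ∀ z, f z ≠ 0 → z.1 ∈ Zq n ∧ z.2 ∈ Zq n) :
    HasCompactSupport fun w => f (iz w) := by
  refine HasCompactSupport.of_support_subset_isCompact
    ((isCompact_sq ((10 / 9) ^ 2)).prod (isCompact_sq ((10 / 9) ^ 2))) fun w hw => ?_
  exact ⟨(zq_iv (hs _ hw).1).2.2, (zq_iv (hs _ hw).2).2.2⟩

/-! ## Matrix kernels -/

theorem dxk_ev {K K' : KC n N} {z : VV n} (h : K =ᶠ[𝓝 z] K') (i : Fin n) :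
    dxk i K =ᶠ[𝓝 z] dxk i K' := by
  filter_upwards [h.eventuallyEq_nhds] with w hw
  ext a b
  exact dir_ev hw _ a b

theorem dyk_ev {K K' : KC n N} {z : VV n} (h : K =ᶠ[𝓝 z] K') (i : Fin n) :
    dyk i K =ᶠ[𝓝 z] dyk i K' := by
  filter_upwards [h.eventuallyEq_nhds] with w hw
  ext a b
  exact dir_ev hw _ a b

theorem Lk_ev (s : MF n) (β : Fin n → MC n N) {K K' : KC n N} {z : VV n} (h : K =ᶠ[𝓝 z] K') :
    Lk s β K z = Lk s β K' z := by
  unfold Lk
  congr 1
  · exact Finset.sum_congr rfl fun i _ => Finset.sum_congr rfl fun j _ => by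
      rw [(dxk_ev (dxk_ev h j) i).self_of_nhds]
  · exact Finset.sum_congr rfl fun i _ => by rw [(dxk_ev h i).self_of_nhds]

theorem Rk_ev (s : MF n) (β : Fin n → MC n N) {K K' : KC n N} {z : VV n} (h : K =ᶠ[𝓝 z] K') :
    Rk s β K z = Rk s β K' z := by
  unfold Rk
  congr 1
  · exact Finset.sum_congr rfl fun i _ => Finset.sum_congr rfl fun j _ => by
      rw [(dyk_ev (dyk_ev h j) i).self_of_nhds]
  · exact Finset.sum_congr rfl fun i _ => by rw [(dyk_ev h i).self_of_nhds]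

theorem dxk_neg (i : Fin n) (K : KC n N) : dxk i (fun z => -K z) = fun z => -dxk i K z := by
  funext z
  ext a b
  show fderiv ℝ (fun z => -(K z a b)) z _ = -fderiv ℝ (fun z => K z a b) z _
  rw [fderiv_fun_neg]
  rfl

theorem dyk_neg (i : Fin n) (K : KC n N) : dyk i (fun z => -K z) = fun z => -dyk i K z := by
  funext z
  ext a b
  show fderiv ℝ (fun z => -(K z a b)) z _ = -fderiv ℝ (fun z => K z a b) z _
  rw [fderiv_fun_neg]
  rfl

theorem Lk_neg (s : MF n) (β : Fin n → MC n N) (K : KC n N) (z : VV n) :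
    Lk s β (fun z => -K z) z = -Lk s β K z := by
  unfold Lk
  simp only [dxk_neg, smul_neg, mul_neg, Finset.sum_neg_distrib]
  rw [neg_add]

theorem Rk_neg (s : MF n) (β : Fin n → MC n N) (K : KC n N) (z : VV n) :
    Rk s β (fun z => -K z) z = -Rk s β K z := by
  unfold Rk
  simp only [dyk_neg, smul_neg, neg_mul, Finset.sum_neg_distrib]
  rw [neg_add]

theorem dxk_0 (i : Fin n) : dxk i (fun _ => 0 : KC n N) = fun _ => 0 := by
  funext z
  ext a b
  show fderiv ℝ (fun _ => (0 : ℂ)) z _ = 0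
  simp

theorem dyk_0 (i : Fin n) : dyk i (fun _ => 0 : KC n N) = fun _ => 0 := by
  funext z
  ext a b
  show fderiv ℝ (fun _ => (0 : ℂ)) z _ = 0
  simp

theorem Lk_0 (s : MF n) (β : Fin n → MC n N) (z : VV n) : Lk s β (fun _ => 0) z = 0 := by
  unfold Lk
  simp only [dxk_0, smul_zero, mul_zero, Finset.sum_const_zero, add_zero]

theorem Rk_0 (s : MF n) (β : Fin n → MC n N) (z : VV n) : Rk s β (fun _ => 0) z = 0 := by
  unfold Rk
  simp only [dyk_0, smul_zero, zero_mul, Finset.sum_const_zero, add_zero]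

/-- The operators in `x` of real families. -/
theorem LX1_kc {s : MF n} (hs : SmM s) (β : Fin n → MC n N) {O : Set (VV n)} (hO : IsOpen O)
    {K : KC n N} (hK : SmK O K) (p q : Fin (N * 2)) {z : VV n} (hz : z ∈ O) :
    LX1 s (hB s β) (kc K) p q z = knn (Lk s β K z) p q := by
  have h1 := PJ.H338.lx_kk (s := s) (B := β) hO hK p q hz
  have h2 : ∀ p' q', ContDiffAt ℝ 2 (kc K p' q') z := fun p' q' =>
    ct_on hO (kc_sm hK p' q') hz
  unfold LX1
  rw [L1_nd hs β (fun p' => sl_left (h2 p' q))]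
  have h3 : knn (Lk s β K z) p q = PJ.H338.kk (Lk s β K) p q z := rfl
  rw [h3, ← h1]
  unfold LxG
  have h4 := QM.Lx_eq (z := z) s (h2 p q)
  have h5 : ∑ q', (∑ l, (e1 β).b l z.1 p q' * dx l (PJ.H338.kk K q' q) z +
      (e1 β).c z.1 p q' * PJ.H338.kk K q' q z) =
      ∑ l, ∑ p', rz (β l z.1 (ix p).1 (ix p').1) (ix p).2 (ix p').2 *
        pd l (fun x => kc K p' q (x, z.2)) z.1 := by
    rw [Finset.sum_comm]
    refine Finset.sum_congr rfl fun p' _ => ?_
    simp only [e1, Matrix.zero_apply, zero_mul, add_zero, Matrix.of_apply]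
    refine Finset.sum_congr rfl fun l _ => ?_
    congr 1
    exact QM.dx_eq ((h2 p' q).differentiableAt (by norm_num)) l
  rw [h5]
  congr 1
  exact h4.symm

/-- The operators in `y` of real families. -/
theorem LY1_kc {s : MF n} (hs : SmM s) (β : Fin n → MC n N) {O : Set (VV n)} (hO : IsOpen O)
    {K : KC n N} (hK : SmK O K) (p q : Fin (N * 2)) {z : VV n} (hz : z ∈ O) :
    LY1 s (hB s fun l x => (β l x)ᵀ) (kc K) p q z = knn (Rk s β K z) p q := by
  have h1 := PJ.H338.ly_kk (s := s) (B := β) hO hK p q hz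
  have h2 : ∀ p' q', ContDiffAt ℝ 2 (kc K p' q') z := fun p' q' =>
    ct_on hO (kc_sm hK p' q') hz
  unfold LY1
  rw [L1_nd hs _ (fun q' => sl_right (h2 p q'))]
  have h3 : knn (Rk s β K z) p q = PJ.H338.kk (Rk s β K) p q z := rfl
  rw [h3, ← h1]
  unfold LyG
  have h4 := QM.Ly_eq (z := z) s (h2 p q)
  have h5 : ∑ q', (∑ l, (e1 fun l x => (β l x)ᵀ).b l z.2 q q' * dy l (PJ.H338.kk K p q') z +
      (e1 fun l x => (β l x)ᵀ).c z.2 q q' * PJ.H338.kk K p q' z) =
      ∑ l, ∑ q', rz ((β l z.2)ᵀ (ix q).1 (ix q').1) (ix q).2 (ix q').2 *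
        pd l (fun y => kc K p q' (z.1, y)) z.2 := by
    rw [Finset.sum_comm]
    refine Finset.sum_congr rfl fun q' _ => ?_
    simp only [e1, Matrix.zero_apply, zero_mul, add_zero, Matrix.of_apply]
    refine Finset.sum_congr rfl fun l _ => ?_
    congr 1
    exact QM.dy_eq ((h2 p q').differentiableAt (by norm_num)) l
  rw [h5]
  congr 1
  exact h4.symm

end Vale.Agent.P088.S4.H561
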