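import Vale.Agent.P088.R2.H561.S4.Ad4

/-!
# P088, stage 4, adapter for systems, part 5: transfer of the solutions, the estimate
-/

open MeasureTheory Set Filter Topology
open scoped ContDiff Matrix

noncomputable section

namespace Vale.Agent.P088.S4.H561

open Vale.Agent.P088.LR Vale.Agent.P088.LR.U Vale.Agent.P088.LR.H158 Vale.Agent.P088.HY
open Vale.Agent.P088.PJ
open Vale.Agent.P088.PJ.H338 (cp io cc rz ix xi ix_xi xi_ix sum_ix e1 sm_dxk sm_dyk)
open Vale.Agent.P088.HY.T3 (Ldv ks iv Eb Ac Ao isOpen_Ao isClosed_Ac isCompact_Ac)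
open Vale.Agent.P088.HY.T4 (Oc Zq)
open Vale.Agent.P088.HY.H437.Kel (Cuts st iv_iv iv_ne sq_iv sq_pos sq_nn cd_iv da_iv isCompact_sq
  sq_cont ao_sq mem_img isOpen_img iv_img)
open Vale.Agent.P088.R2.H269 (DX DY S S.Ld Ld_aX Ld_aY sm_aX sm_aY)

variable {n N m : ℕ}

/-! ## Continuity -/

theorem cont_K {K : KC n N} (hK : SmK univ K) : Continuous K :=
  continuous_matrix fun a b => (contDiffOn_univ.1 (hK a b)).continuous

theorem Lk_cont {s : MF n} (hs : SmM s) {β : Fin n → MC n N} (hβ : ∀ i, SmC (β i)) {K : KC n N}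
    (hK : SmK univ K) : Continuous (Lk s β K) := by
  unfold Lk
  refine Continuous.add ?_ ?_
  · refine continuous_finsetSum _ fun i _ => continuous_finsetSum _ fun j _ => ?_
    exact (Complex.continuous_ofReal.comp ((hs i j).continuous.comp continuous_fst)).smul
      (cont_K (sm_dxk isOpen_univ (sm_dxk isOpen_univ hK j) i))
  · refine continuous_finsetSum _ fun i _ => ?_
    have h1 : Continuous fun z : VV n => β i z.1 :=
      continuous_matrix fun a b => (hβ i a b).continuous.comp continuous_fst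
    exact h1.matrix_mul (cont_K (sm_dxk isOpen_univ hK i))

theorem Rk_cont {s : MF n} (hs : SmM s) {β : Fin n → MC n N} (hβ : ∀ i, SmC (β i)) {K : KC n N}
    (hK : SmK univ K) : Continuous (Rk s β K) := by
  unfold Rk
  refine Continuous.add ?_ ?_
  · refine continuous_finsetSum _ fun i _ => continuous_finsetSum _ fun j _ => ?_
    exact (Complex.continuous_ofReal.comp ((hs i j).continuous.comp continuous_snd)).smul
      (cont_K (sm_dyk isOpen_univ (sm_dyk isOpen_univ hK j) i))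
  · refine continuous_finsetSum _ fun i _ => ?_
    have h1 : Continuous fun z : VV n => β i z.2 :=
      continuous_matrix fun a b => (hβ i a b).continuous.comp continuous_snd
    exact (cont_K (sm_dyk isOpen_univ hK i)).matrix_mul h1

theorem nq_cont : Continuous (nq : Matrix (Fin N) (Fin N) ℂ → ℝ) := by
  unfold nq
  refine continuous_finsetSum _ fun a _ => continuous_finsetSum _ fun b _ => ?_
  exact ((continuous_id.matrix_elem a b).norm).pow 2

theorem nq_nn (A : Matrix (Fin N) (Fin N) ℂ) : 0 ≤ nq A :=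
  Finset.sum_nonneg fun _ _ => Finset.sum_nonneg fun _ _ => by positivity

theorem nq_0 : nq (0 : Matrix (Fin N) (Fin N) ℂ) = 0 := by
  unfold nq
  simp

theorem AXN_cont {s : MF n} (hs : SmM s) {B : B1 n m} (hB : ∀ a b i, ContDiff ℝ ∞ (B a b i))
    {f : Fin (m * m) → VV n → ℝ} (hf : ∀ a, ContDiff ℝ ∞ (f a)) (a : Fin (m * m)) :
    Continuous (AXN s (Bx B) f a) := by
  have h1 : Continuous (DX s (f a)) := by
    rw [← Ld_aX]
    exact (S.Ld (sm_aX hs) (hf a)).continuous
  refine h1.add (continuous_finsetSum _ fun i _ => continuous_finsetSum _ fun b _ => ?_)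
  refine Continuous.mul ?_ ?_
  · by_cases hab : ((en m).symm a).2 = ((en m).symm b).2
    · simp only [Bx, Matrix.of_apply, if_pos hab]
      exact (hB _ _ i).continuous.comp continuous_fst
    · simp only [Bx, Matrix.of_apply, if_neg hab]
      exact continuous_const
  · exact (((hf b).fderiv_right (m := ∞) (by simp)).clm_apply contDiff_const).continuous

theorem AYN_cont {s : MF n} (hs : SmM s) {B : B1 n m} (hB : ∀ a b i, ContDiff ℝ ∞ (B a b i))
    {f : Fin (m * m) → VV n → ℝ} (hf : ∀ a, ContDiff ℝ ∞ (f a)) (a : Fin (m * m)) :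
    Continuous (AYN s (By B) f a) := by
  have h1 : Continuous (DY s (f a)) := by
    rw [← Ld_aY]
    exact (S.Ld (sm_aY hs) (hf a)).continuous
  refine h1.add (continuous_finsetSum _ fun i _ => continuous_finsetSum _ fun b _ => ?_)
  refine Continuous.mul ?_ ?_
  · by_cases hab : ((en m).symm a).1 = ((en m).symm b).1
    · simp only [By, Matrix.of_apply, if_pos hab]
      exact (hB _ _ i).continuous.comp continuous_snd
    · simp only [By, Matrix.of_apply, if_neg hab]
      exact continuous_const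
  · exact (((hf b).fderiv_right (m := ∞) (by simp)).clm_apply contDiff_const).continuous

/-! ## The operators in both charts -/

/-- The data of one metric with first order coefficients. -/
structure Dm (s : MF n) (β : Fin n → MC n N) : Prop where
  ss : SmM s
  sy : ∀ x, (s x).IsSymm
  so : ∀ x ∉ Eb (0 : V n) 32, s x = 1
  sb : ∀ i, SmC (β i)

section two

variable {χ χa ψ χ2 : V n → ℝ}

/-- `K = ck (H ∘ iz)` on `Oc × Oc`: the operator in `x`. -/
theorem Lk_iz (hn : 3 ≤ n) (h : Cuts χ χa ψ χ2) {s : MF n} {β : Fin n → MC n N} (hd : Dm s β)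
    (ht : SmM (st χ χa ψ χ2 s)) {f : Fin ((N * 2) * (N * 2)) → VV n → ℝ}
    (hf : ∀ a, ContDiff ℝ ∞ (f a)) {z : VV n} (hz : z ∈ Oc n ×ˢ Oc n) :
    Lk s β (ck fun p q z => uf f p q (iz z)) z = ckn fun p q => HY.sq (iv z.1) ^ 2 *
      AXN (st χ χa ψ χ2 s) (Bx (gD χ χa ψ χ2 s (hB s β))) f (en (N * 2) (p, q)) (iz z) := by
  have hO : IsOpen (Oc n ×ˢ Oc n) := (isOpen_Ao _ _).prod (isOpen_Ao _ _)
  have hF : ∀ p q : Fin (N * 2), ContDiffOn ℝ ∞ (fun z => uf f p q (iz z)) (Oc n ×ˢ Oc n) :=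
    fun p q w hw => ((hf _).contDiffAt.comp w (cd_iz (oc_ne hw.1) (oc_ne hw.2))).contDiffWithinAt
  rw [Lk_ck hd.ss β hO hF hz]
  congr 1
  funext p q
  have h0 := oc_ne hz.1
  have h1 := oi_sq (oi_mem.2 ⟨iv_ne h0, by rw [iv_iv h0]; exact hz.1⟩)
  rw [LX1_iz hn h hd.ss hd.sy hd.so (hB s β) isOpen_univ
    (G := uf f) (fun p q => (hf _).contDiffOn) p q h0 (mem_univ _)
    (lt_of_le_of_lt (by norm_num) h1.1) h1.2, AXN_eq ht _ hf]

theorem Rk_iz (hn : 3 ≤ n) (h : Cuts χ χa ψ χ2) {s : MF n} {β : Fin n → MC n N} (hd : Dm s β)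
    (ht : SmM (st χ χa ψ χ2 s)) {f : Fin ((N * 2) * (N * 2)) → VV n → ℝ}
    (hf : ∀ a, ContDiff ℝ ∞ (f a)) {z : VV n} (hz : z ∈ Oc n ×ˢ Oc n) :
    Rk s β (ck fun p q z => uf f p q (iz z)) z = ckn fun p q => HY.sq (iv z.2) ^ 2 *
      AYN (st χ χa ψ χ2 s) (By (gD χ χa ψ χ2 s (hB s fun l x => (β l x)ᵀ))) f
        (en (N * 2) (p, q)) (iz z) := by
  have hO : IsOpen (Oc n ×ˢ Oc n) := (isOpen_Ao _ _).prod (isOpen_Ao _ _)
  have hF : ∀ p q : Fin (N * 2), ContDiffOn ℝ ∞ (fun z => uf f p q (iz z)) (Oc n ×ˢ Oc n) :=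
    fun p q w hw => ((hf _).contDiffAt.comp w (cd_iz (oc_ne hw.1) (oc_ne hw.2))).contDiffWithinAt
  rw [Rk_ck hd.ss β hO hF hz]
  congr 1
  funext p q
  have h0 := oc_ne hz.2
  have h1 := oi_sq (oi_mem.2 ⟨iv_ne h0, by rw [iv_iv h0]; exact hz.2⟩)
  rw [LY1_iz hn h hd.ss hd.sy hd.so (hB s fun l x => (β l x)ᵀ) isOpen_univ
    (G := uf f) (fun p q => (hf _).contDiffOn) p q h0 (mem_univ _)
    (lt_of_le_of_lt (by norm_num) h1.1) h1.2, AYN_eq ht _ hf]

end two

end Vale.Agent.P088.S4.H561
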