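import Vale.Agent.P088.R2.H561.S4.Ad5
import Vale.Agent.P088.R2.H269.X.X13

/-!
# P088, stage 4, adapter for systems, part 6: transfer of the solutions, the estimate
-/

open MeasureTheory Set Filter Topology
open scoped ContDiff Matrix

noncomputable section

namespace Vale.Agent.P088.S4.H561

open Vale.Agent.P088.LR Vale.Agent.P088.LR.U Vale.Agent.P088.LR.H158 Vale.Agent.P088.HY
open Vale.Agent.P088.PJ
open Vale.Agent.P088.PJ.H338 (cp io cc rz ix xi ix_xi xi_ix sum_ix e1 sm_dxk sm_dyk)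
open Vale.Agent.P088.HY.T3 (Ldv ks iv Eb Ac Ao isOpen_Ao isClosed_Ac isCompact_Ac)
open Vale.Agent.P088.HY.T4 (Oc Zq)
open Vale.Agent.P088.HY.H437.Kel (Cuts st iv_iv iv_ne sq_iv sq_pos sq_nn cd_iv da_iv isCompact_sq
  sq_cont ao_sq mem_img isOpen_img iv_img)
open Vale.Agent.P088.R2.H269 (DX DY Zi isCompact_ZZ isCompact_QQ Zi_of_Zq Zq_ne DX_cg DY_cg)

variable {n N m : ℕ}

/-! ## Local dependence -/

theorem L1_ev (s : MF n) (B : B1 n m) {w w' : Fin m → V n → ℝ} {x : V n}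
    (h : ∀ a, w a =ᶠ[𝓝 x] w' a) (a : Fin m) : L1 s B w a x = L1 s B w' a x := by
  unfold L1
  congr 1
  · unfold Ldv
    refine Finset.sum_congr rfl fun i _ => H437.Kel.pd_ev ?_ i
    filter_upwards [(h a).eventuallyEq_nhds] with y hy
    exact Finset.sum_congr rfl fun j _ => by rw [H437.Kel.pd_ev hy]
  · exact Finset.sum_congr rfl fun b _ => Finset.sum_congr rfl fun l _ => by
      rw [H437.Kel.pd_ev (h b)]

theorem LX1_ev (s : MF n) (B : B1 n m) {F G : RF n m} {z : VV n}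
    (h : ∀ p q, F p q =ᶠ[𝓝 z] G p q) (p q : Fin m) : LX1 s B F p q z = LX1 s B G p q z := by
  unfold LX1
  refine L1_ev s B (fun p' => ?_) p
  exact (QM.tendsto_left z).eventually (h p' q)

theorem LY1_ev (s : MF n) (B : B1 n m) {F G : RF n m} {z : VV n}
    (h : ∀ p q, F p q =ᶠ[𝓝 z] G p q) (p q : Fin m) : LY1 s B F p q z = LY1 s B G p q z := by
  unfold LY1
  refine L1_ev s B (fun q' => ?_) q
  exact (QM.tendsto_right z).eventually (h p q')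

theorem AXN_0 (s : MF n) (B : Fin n → V n → Matrix (Fin m) (Fin m) ℝ) {f : Fin m → VV n → ℝ}
    {z : VV n} (h : ∀ a, f a =ᶠ[𝓝 z] fun _ => 0) (a : Fin m) : AXN s B f a z = 0 := by
  unfold AXN
  have h1 : DX s (f a) z = 0 := by
    rw [DX_cg (h a)]
    unfold DX HY.dx
    simp
  have h2 : ∀ i b, HY.dx i (f b) z = 0 := by
    intro i b
    unfold HY.dx
    rw [(h b).fderiv_eq]
    simp
  simp [h1, h2]

theorem AYN_0 (s : MF n) (B : Fin n → V n → Matrix (Fin m) (Fin m) ℝ) {f : Fin m → VV n → ℝ}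
    {z : VV n} (h : ∀ a, f a =ᶠ[𝓝 z] fun _ => 0) (a : Fin m) : AYN s B f a z = 0 := by
  unfold AYN
  have h1 : DY s (f a) z = 0 := by
    rw [DY_cg (h a)]
    unfold DY HY.dy
    simp
  have h2 : ∀ i b, HY.dy i (f b) z = 0 := by
    intro i b
    unfold HY.dy
    rw [(h b).fderiv_eq]
    simp
  simp [h1, h2]

theorem knn_0 (p q : Fin (N * 2)) : knn (0 : Matrix (Fin N) (Fin N) ℂ) p q = 0 := by
  unfold knn
  simp

/-- The Jacobian constant. -/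
def Jn (n : ℕ) : ℝ := (n.factorial : ℝ) * (3 * 24 ^ 2) ^ n

theorem Jn_pos (n : ℕ) : 0 < Jn n := by
  unfold Jn
  have := Nat.factorial_pos n
  positivity

/-- The constant of the transfer. -/
def kA (n : ℕ) : ℝ := Jn n ^ 2 * 4 * (Jn n ^ 2 * (24 ^ 2) ^ 4)

theorem kA_pos (n : ℕ) : 0 < kA n := by
  unfold kA
  have := Jn_pos n
  positivity

section main

variable {χ χa ψ χ2 : V n → ℝ}

/-- **The transfer of the solutions.** -/
theorem sol_tr (hn : 3 ≤ n) (h : Cuts χ χa ψ χ2) {s₁ s₂ : MF n} {β₁ β₂ : Fin n → MC n N}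
    (d₁ : Dm s₁ β₁) (d₂ : Dm s₂ β₂) (t₁ : SmM (st χ χa ψ χ2 s₁)) (t₂ : SmM (st χ χa ψ χ2 s₂))
    (hB₁ : ∀ a b i, ContDiff ℝ ∞ (gD χ χa ψ χ2 s₁ (hB s₁ β₁) a b i))
    (hB₂ : ∀ a b i, ContDiff ℝ ∞ (gD χ χa ψ χ2 s₂ (hB s₂ fun l x => (β₂ l x)ᵀ) a b i))
    {W w o : VV n → ℝ} (cW : Continuous W) (cw : Continuous w) (w0 : ∀ z, 0 < w z)
    (o0 : ∀ z, 0 < o z) {C₂ : ℝ} (o1 : ∀ z, o z ≤ C₂)
    (sol : ∀ K₀ : Fin ((N * 2) * (N * 2)) → VV n → ℝ, (∀ a, ContDiff ℝ ∞ (K₀ a)) →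
      (∀ a, HasCompactSupport (K₀ a)) → ∃ K₁ : Fin ((N * 2) * (N * 2)) → VV n → ℝ,
        (∀ a, ContDiff ℝ ∞ (K₁ a)) ∧
        (∀ a z, AXN (st χ χa ψ χ2 s₁) (Bx (gD χ χa ψ χ2 s₁ (hB s₁ β₁))) K₁ a z =
          AXN (st χ χa ψ χ2 s₁) (Bx (gD χ χa ψ χ2 s₁ (hB s₁ β₁))) K₀ a z) ∧
        (∀ a z, AYN (st χ χa ψ χ2 s₂) (By (gD χ χa ψ χ2 s₂ (hB s₂ fun l x => (β₂ l x)ᵀ))) K₁ a z =
          AYN (st χ χa ψ χ2 s₂) (By (gD χ χa ψ χ2 s₂ (hB s₂ fun l x => (β₂ l x)ᵀ))) K₀ a z) ∧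
        Integrable (fun z => Real.exp (-(2 * W z)) * (∑ a, K₁ a z ^ 2) / o z) ∧
        ∫ z, Real.exp (-(2 * W z)) * (∑ a, K₁ a z ^ 2) / o z ≤
          ∫ z, Real.exp (-(2 * W z)) * (∑ a,
            (AXN (st χ χa ψ χ2 s₁) (Bx (gD χ χa ψ χ2 s₁ (hB s₁ β₁))) K₀ a z ^ 2 +
             AYN (st χ χa ψ χ2 s₂) (By (gD χ χa ψ χ2 s₂ (hB s₂ fun l x => (β₂ l x)ᵀ))) K₀ a z ^ 2))
              / w z)
    {K : KC n N} (hK : SmK univ K) (hsu : ∀ z, K z ≠ 0 → z.1 ∈ Zq n ∧ z.2 ∈ Zq n) :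
    ∃ K1 : KC n N, SmK (Oc n ×ˢ Oc n) K1 ∧
      (∀ z ∈ Oc n ×ˢ Oc n, Lk s₁ β₁ K1 z = Lk s₁ β₁ K z) ∧
      (∀ z ∈ Oc n ×ˢ Oc n, Rk s₂ β₂ K1 z = Rk s₂ β₂ K z) ∧
      IntegrableOn (fun z => Real.exp (-(2 * W (iz z))) * nq (K1 z)) (Oc n ×ˢ Oc n) ∧
      ∫ z in Oc n ×ˢ Oc n, Real.exp (-(2 * W (iz z))) * nq (K1 z) ≤
        kA n * C₂ * ∫ z, Real.exp (-(2 * W (iz z))) * (nq (Lk s₁ β₁ K z) + nq (Rk s₂ β₂ K z)) /
          w (iz z) := by
  obtain ⟨P1, hP1⟩ : ∃ P, P = Bx (gD χ χa ψ χ2 s₁ (hB s₁ β₁)) := ⟨_, rfl⟩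
  obtain ⟨P2, hP2⟩ : ∃ P, P = By (gD χ χa ψ χ2 s₂ (hB s₂ fun l x => (β₂ l x)ᵀ)) := ⟨_, rfl⟩
  have C2p : 0 < C₂ := (o0 (0, 0)).trans_le (o1 _)
  -- the pulled back kernel
  have kne : ∀ p q z, kc K p q z ≠ 0 → z.1 ∈ Zq n ∧ z.2 ∈ Zq n := by
    intro p q z hz
    refine hsu z fun h0 => hz ?_
    show knn (K z) p q = 0
    rw [h0, knn_0]
  have skc : ∀ p q, ContDiff ℝ ∞ (kc K p q) := fun p q => contDiffOn_univ.1 (kc_sm hK p q)
  obtain ⟨f₀, hf₀⟩ : ∃ f₀ : Fin ((N * 2) * (N * 2)) → VV n → ℝ,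
    f₀ = fl fun p q w => kc K p q (iz w) := ⟨_, rfl⟩
  have uf₀ : ∀ p q w, uf f₀ p q w = kc K p q (iz w) := by
    intro p q w
    rw [hf₀, uf_fl]
  have sf₀ : ∀ a, ContDiff ℝ ∞ (f₀ a) := by
    intro a
    rw [hf₀]
    exact pull_sm (skc _ _) (kne _ _)
  have cf₀ : ∀ a, HasCompactSupport (f₀ a) := by
    intro a
    rw [hf₀]
    exact pull_cs (kne _ _)
  have zf₀ : ∀ z ∉ Zi n ×ˢ Zi n, ∀ a, f₀ a =ᶠ[𝓝 z] fun _ => 0 := by
    intro z hz a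
    filter_upwards [(isCompact_ZZ (n := n)).isClosed.isOpen_compl.mem_nhds hz] with w hw
    by_contra h1
    rw [hf₀] at h1
    have h2 := kne _ _ _ h1
    exact hw ⟨Zi_of_Zq h2.1, Zi_of_Zq h2.2⟩
  obtain ⟨f₁, sf₁, E1, E2, I1, I2⟩ := sol f₀ sf₀ cf₀
  have hev : ∀ z ∈ Oc n ×ˢ Oc n, ∀ᶠ w : VV n in 𝓝 z, w.1 ≠ 0 ∧ w.2 ≠ 0 := fun z hz =>
    ((isOpen_ne.preimage continuous_fst).inter (isOpen_ne.preimage continuous_snd)).mem_nhds
      ⟨oc_ne hz.1, oc_ne hz.2⟩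
  have hevK : ∀ z ∈ Oc n ×ˢ Oc n, (ck fun p q z => uf f₀ p q (iz z)) =ᶠ[𝓝 z] K := by
    intro z hz
    filter_upwards [hev z hz] with w hw
    show ckn (fun p q => uf f₀ p q (iz w)) = K w
    have h1 : (fun p q => uf f₀ p q (iz w)) = knn (K w) := by
      funext p q
      rw [uf₀, iz_iz hw.1 hw.2]
      rfl
    rw [h1, ckn_knn]
  have hevk : ∀ z ∈ Oc n ×ˢ Oc n, ∀ p q, (fun z => uf f₀ p q (iz z)) =ᶠ[𝓝 z] kc K p q := by
    intro z hz p q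
    filter_upwards [hev z hz] with w hw
    rw [uf₀, iz_iz hw.1 hw.2]
  have ocn : ∀ {z : VV n}, z ∈ Oc n ×ˢ Oc n → iz z ∈ Oi n ×ˢ Oi n := fun hz =>
    ⟨oi_mem.2 ⟨iv_ne (oc_ne hz.1), by show iv (iv _) ∈ Oc n; rw [iv_iv (oc_ne hz.1)]; exact hz.1⟩,
      oi_mem.2 ⟨iv_ne (oc_ne hz.2), by show iv (iv _) ∈ Oc n; rw [iv_iv (oc_ne hz.2)]; exact hz.2⟩⟩
  have oi0 : ∀ y ∈ Oi n, y ≠ 0 := fun y hy => (oi_mem.1 hy).1
  refine ⟨ck fun p q z => uf f₁ p q (iz z), ck_sm fun p q w hw =>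
    ((sf₁ _).contDiffAt.comp w (cd_iz (oc_ne hw.1) (oc_ne hw.2))).contDiffWithinAt,
    fun z hz => ?_, fun z hz => ?_, ?_⟩
  · rw [Lk_iz hn h d₁ t₁ sf₁ hz, ← Lk_ev s₁ β₁ (hevK z hz), Lk_iz hn h d₁ t₁ sf₀ hz]
    congr 1
    funext p q
    rw [E1]
  · rw [Rk_iz hn h d₂ t₂ sf₁ hz, ← Rk_ev s₂ β₂ (hevK z hz), Rk_iz hn h d₂ t₂ sf₀ hz]
    congr 1
    funext p q
    rw [E2]
  rw [← hP1, ← hP2] at I2
  -- continuity
  have cWi : ∀ z ∈ Oc n ×ˢ Oc n, ContinuousAt (fun z => W (iz z)) z := fun z hz =>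
    cW.continuousAt.comp (cd_iz (oc_ne hz.1) (oc_ne hz.2)).continuousAt
  have cwi : ∀ z ∈ Oc n ×ˢ Oc n, ContinuousAt (fun z => w (iz z)) z := fun z hz =>
    cw.continuousAt.comp (cd_iz (oc_ne hz.1) (oc_ne hz.2)).continuousAt
  -- the first change of variables
  have A1 := cov2 (n := n) (U := Oi n) (U' := Oi n) oi_open oi_open oi0 oi0 (r := 24 ^ 2)
    (fun y hy => by
      rw [inv_le_comm₀ (sq_pos (oi0 y hy)) (by norm_num)]
      exact le_trans (by norm_num) (oi_sq hy).1.le)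
    (fun y hy => by
      rw [inv_le_comm₀ (sq_pos (oi0 y hy)) (by norm_num)]
      exact le_trans (by norm_num) (oi_sq hy).1.le)
    (g := fun z => Real.exp (-(2 * W (iz z))) * nq (ck (fun p q z => uf f₁ p q (iz z)) z))
    (h := fun z => Real.exp (-(2 * W z)) * (∑ a, f₁ a z ^ 2) / o z)
    (by
      rw [oi_img]
      intro z hz
      have c1 : ContinuousAt (ck fun p q z => uf f₁ p q (iz z)) z := by
        have h1 : SmK (Oc n ×ˢ Oc n) (ck fun p q z => uf f₁ p q (iz z)) := ck_sm fun p q w hw =>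
          ((sf₁ _).contDiffAt.comp w (cd_iz (oc_ne hw.1) (oc_ne hw.2))).contDiffWithinAt
        have hO : IsOpen (Oc n ×ˢ Oc n) := (isOpen_Ao _ _).prod (isOpen_Ao _ _)
        refine continuousAt_pi.2 fun a => continuousAt_pi.2 fun b => ?_
        exact ((h1 a b).continuousOn).continuousAt (hO.mem_nhds hz)
      exact (((continuousAt_const.mul (cWi z hz)).neg.rexp).mul
        (nq_cont.continuousAt.comp c1)).continuousWithinAt)
    (fun z _ => mul_nonneg (Real.exp_pos _).le (nq_nn _)) I1.integrableOn (A := 4 * C₂) (by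
      intro z hz
      have h1 : iz (iz z) = z := iz_iz (oi0 _ hz.1) (oi0 _ hz.2)
      have h2 : nq (ck (fun p q z => uf f₁ p q (iz z)) (iz z)) ≤ 4 * ∑ a, f₁ a z ^ 2 := by
        refine (nq_ckn _).trans (le_of_eq ?_)
        rw [sum_en]
        simp only [h1]
        rfl
      have h3 : 0 ≤ ∑ a, f₁ a z ^ 2 := Finset.sum_nonneg fun _ _ => _root_.sq_nonneg _
      have h4 : ∑ a, f₁ a z ^ 2 ≤ C₂ * ((∑ a, f₁ a z ^ 2) / o z) := by
        rw [mul_div_assoc', le_div_iff₀ (o0 z), mul_comm]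
        exact mul_le_mul_of_nonneg_right (o1 z) h3
      rw [h1]
      calc Real.exp (-(2 * W z)) * nq (ck (fun p q z => uf f₁ p q (iz z)) (iz z)) ≤
          Real.exp (-(2 * W z)) * (4 * (C₂ * ((∑ a, f₁ a z ^ 2) / o z))) :=
            mul_le_mul_of_nonneg_left (h2.trans (mul_le_mul_of_nonneg_left h4 (by norm_num)))
              (Real.exp_pos _).le
        _ = 4 * C₂ * (Real.exp (-(2 * W z)) * (∑ a, f₁ a z ^ 2) / o z) := by ring)
  rw [oi_img] at A1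
  -- the second change of variables
  obtain ⟨g2, hg2⟩ : ∃ g2 : VV n → ℝ, g2 = fun z => Real.exp (-(2 * W z)) *
    (∑ a, (AXN (st χ χa ψ χ2 s₁) P1 f₀ a z ^ 2 + AYN (st χ χa ψ χ2 s₂) P2 f₀ a z ^ 2)) / w z :=
    ⟨_, rfl⟩
  obtain ⟨h2, hh2⟩ : ∃ h2 : VV n → ℝ, h2 = fun z => Real.exp (-(2 * W (iz z))) *
    (nq (Lk s₁ β₁ K z) + nq (Rk s₂ β₂ K z)) / w (iz z) := ⟨_, rfl⟩
  have zi_oi : ∀ {y : V n}, y ∈ Zi n → y ∈ Oi n := by
    intro y hy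
    have h1 := ac_sq (by norm_num) hy
    have h2 := ne_of_sq (by norm_num) h1.1
    refine oi_mem.2 ⟨h2, ?_⟩
    have h3 := sq_pos h2
    have h4 : HY.sq (iv y) = (HY.sq y)⁻¹ := sq_iv h2
    constructor
    · show 4 / 5 < √(HY.sq (iv y))
      rw [h4]
      refine Real.lt_sqrt_of_sq_lt ?_
      rw [lt_inv_comm₀ (by norm_num) h3]
      exact lt_of_le_of_lt h1.2 (by norm_num)
    · show √(HY.sq (iv y)) < 24
      rw [h4, Real.sqrt_lt' (by norm_num), inv_lt_comm₀ h3 (by norm_num)]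
      exact lt_of_lt_of_le (by norm_num) h1.1
  have g2_0 : ∀ z ∉ Oi n ×ˢ Oi n, g2 z = 0 := by
    intro z hz
    have h3 : z ∉ Zi n ×ˢ Zi n := fun h4 => hz ⟨zi_oi h4.1, zi_oi h4.2⟩
    have h4 : ∀ a, AXN (st χ χa ψ χ2 s₁) P1 f₀ a z = 0 := AXN_0 _ _ (zf₀ z h3)
    have h5 : ∀ a, AYN (st χ χa ψ χ2 s₂) P2 f₀ a z = 0 := AYN_0 _ _ (zf₀ z h3)
    rw [hg2]
    simp [h4, h5]
  have K0 : ∀ z ∉ Zq n ×ˢ Zq n, K =ᶠ[𝓝 z] fun _ => 0 := by
    intro z hz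
    filter_upwards [(isCompact_QQ (n := n)).isClosed.isOpen_compl.mem_nhds hz] with w hw
    by_contra h1
    exact hw (hsu w h1)
  have h2_0 : Function.support h2 ⊆ Zq n ×ˢ Zq n := by
    intro z hz
    by_contra h3
    refine hz ?_
    rw [hh2]
    show Real.exp (-(2 * W (iz z))) * (nq (Lk s₁ β₁ K z) + nq (Rk s₂ β₂ K z)) / w (iz z) = 0
    rw [Lk_ev s₁ β₁ (K0 z h3), Rk_ev s₂ β₂ (K0 z h3), Lk_0, Rk_0, nq_0]
    simp
  have h2_nn : ∀ z, 0 ≤ h2 z := by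
    intro z
    rw [hh2]
    exact div_nonneg (mul_nonneg (Real.exp_pos _).le (add_nonneg (nq_nn _) (nq_nn _))) (w0 _).le
  have h2_int : Integrable h2 := by
    rw [← integrableOn_iff_integrable_of_support_subset h2_0]
    refine ContinuousOn.integrableOn_compact isCompact_QQ ?_
    intro z hz
    have hz' : z ∈ Oc n ×ˢ Oc n := ⟨zq_oc hz.1, zq_oc hz.2⟩
    have c3 : Continuous (fun z => nq (Lk s₁ β₁ K z) + nq (Rk s₂ β₂ K z)) :=
      (nq_cont.comp (Lk_cont d₁.ss d₁.sb hK)).add (nq_cont.comp (Rk_cont d₂.ss d₂.sb hK))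
    rw [hh2]
    exact ((((continuousAt_const.mul (cWi z hz')).neg.rexp).mul c3.continuousAt).div
      (cwi z hz') (w0 _).ne').continuousWithinAt
  have g2_c : Continuous g2 := by
    rw [hg2]
    refine Continuous.div ?_ cw fun z => (w0 z).ne'
    refine ((continuous_const.mul cW).neg.rexp).mul (continuous_finsetSum _ fun a _ => ?_)
    rw [hP1, hP2]
    exact ((AXN_cont t₁ hB₁ sf₀ a).pow 2).add ((AYN_cont t₂ hB₂ sf₀ a).pow 2)
  have A2 := cov2 (n := n) (U := Oc n) (U' := Oc n) (isOpen_Ao _ _) (isOpen_Ao _ _)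
    (fun _ hx => oc_ne hx) (fun _ hx => oc_ne hx) (r := 24 ^ 2)
    (fun y hy => by
      rw [inv_le_comm₀ (sq_pos (oc_ne hy)) (by norm_num)]
      exact le_trans (by norm_num) (oc_sq hy).1.le)
    (fun y hy => by
      rw [inv_le_comm₀ (sq_pos (oc_ne hy)) (by norm_num)]
      exact le_trans (by norm_num) (oc_sq hy).1.le)
    (g := g2) (h := h2) g2_c.continuousOn
    (fun z _ => by
      rw [hg2]
      exact div_nonneg (mul_nonneg (Real.exp_pos _).le (Finset.sum_nonneg fun _ _ =>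
        add_nonneg (_root_.sq_nonneg _) (_root_.sq_nonneg _))) (w0 _).le)
    h2_int.integrableOn (A := (24 ^ 2) ^ 4) (by
      intro z hz
      have hO : IsOpen (Oc n ×ˢ Oc n) := (isOpen_Ao _ _).prod (isOpen_Ao _ _)
      have hi := ocn hz
      have q1 := (oi_sq hi.1).1
      have q2 := (oi_sq hi.2).1
      have e1 : ∀ p q, knn (Lk s₁ β₁ K z) p q = HY.sq (iv z.1) ^ 2 *
          AXN (st χ χa ψ χ2 s₁) P1 f₀ (en (N * 2) (p, q)) (iz z) := by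
        intro p q
        rw [← LX1_kc d₁.ss β₁ isOpen_univ hK p q (mem_univ z),
          ← LX1_ev s₁ (hB s₁ β₁) (hevk z hz) p q, hP1, AXN_eq t₁ _ sf₀]
        exact LX1_iz hn h d₁.ss d₁.sy d₁.so (hB s₁ β₁) isOpen_univ
          (G := uf f₀) (fun p q => (sf₀ _).contDiffOn) p q (oc_ne hz.1) (mem_univ _)
          (lt_of_le_of_lt (by norm_num) q1) (oi_sq hi.1).2
      have e2 : ∀ p q, knn (Rk s₂ β₂ K z) p q = HY.sq (iv z.2) ^ 2 *
          AYN (st χ χa ψ χ2 s₂) P2 f₀ (en (N * 2) (p, q)) (iz z) := by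
        intro p q
        rw [← LY1_kc d₂.ss β₂ isOpen_univ hK p q (mem_univ z),
          ← LY1_ev s₂ (hB s₂ fun l x => (β₂ l x)ᵀ) (hevk z hz) p q, hP2, AYN_eq t₂ _ sf₀]
        exact LY1_iz hn h d₂.ss d₂.sy d₂.so (hB s₂ fun l x => (β₂ l x)ᵀ) isOpen_univ
          (G := uf f₀) (fun p q => (sf₀ _).contDiffOn) p q (oc_ne hz.2) (mem_univ _)
          (lt_of_le_of_lt (by norm_num) q2) (oi_sq hi.2).2
      have gen : ∀ {q L D : ℝ}, (1 / 24) ^ 2 < q → L = q ^ 2 * D → D ^ 2 ≤ (24 ^ 2) ^ 4 * L ^ 2 := by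
        intro q L D hq hL
        have hq0 : 0 < q := lt_trans (by norm_num) hq
        have h3 : 1 ≤ 24 ^ 2 * q := by
          have := hq.le
          norm_num at this ⊢
          linarith
        have h4 : 1 ≤ (24 ^ 2 * q) ^ 4 := one_le_pow₀ h3
        rw [hL]
        calc D ^ 2 = 1 * D ^ 2 := (one_mul _).symm
          _ ≤ (24 ^ 2 * q) ^ 4 * D ^ 2 := mul_le_mul_of_nonneg_right h4 (_root_.sq_nonneg _)
          _ = _ := by ring
      have s1 : ∑ a, AXN (st χ χa ψ χ2 s₁) P1 f₀ a (iz z) ^ 2 ≤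
          (24 ^ 2) ^ 4 * nq (Lk s₁ β₁ K z) := by
        rw [sum_en]
        refine le_trans ?_ (mul_le_mul_of_nonneg_left (knn_nq _) (by norm_num))
        simp only [Finset.mul_sum]
        exact Finset.sum_le_sum fun p _ => Finset.sum_le_sum fun q _ => gen q1 (e1 p q)
      have s2 : ∑ a, AYN (st χ χa ψ χ2 s₂) P2 f₀ a (iz z) ^ 2 ≤
          (24 ^ 2) ^ 4 * nq (Rk s₂ β₂ K z) := by
        rw [sum_en]
        refine le_trans ?_ (mul_le_mul_of_nonneg_left (knn_nq _) (by norm_num))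
        simp only [Finset.mul_sum]
        exact Finset.sum_le_sum fun p _ => Finset.sum_le_sum fun q _ => gen q2 (e2 p q)
      rw [hg2, hh2]
      show Real.exp (-(2 * W (iz z))) * (∑ a, (AXN (st χ χa ψ χ2 s₁) P1 f₀ a (iz z) ^ 2 +
        AYN (st χ χa ψ χ2 s₂) P2 f₀ a (iz z) ^ 2)) / w (iz z) ≤ (24 ^ 2) ^ 4 *
        (Real.exp (-(2 * W (iz z))) * (nq (Lk s₁ β₁ K z) + nq (Rk s₂ β₂ K z)) / w (iz z))
      rw [← mul_div_assoc]
      refine div_le_div_of_nonneg_right ?_ (w0 _).le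
      rw [Finset.sum_add_distrib]
      calc Real.exp (-(2 * W (iz z))) * (∑ a, AXN (st χ χa ψ χ2 s₁) P1 f₀ a (iz z) ^ 2 +
            ∑ a, AYN (st χ χa ψ χ2 s₂) P2 f₀ a (iz z) ^ 2) ≤
          Real.exp (-(2 * W (iz z))) * ((24 ^ 2) ^ 4 * nq (Lk s₁ β₁ K z) +
            (24 ^ 2) ^ 4 * nq (Rk s₂ β₂ K z)) :=
            mul_le_mul_of_nonneg_left (add_le_add s1 s2) (Real.exp_pos _).le
        _ = _ := by ring)
  have hOi : iv '' Oc n = Oi n := rfl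
  rw [hOi] at A2
  have J1 : (n.factorial : ℝ) * (3 * 24 ^ 2) ^ n = Jn n := rfl
  rw [J1] at A1 A2
  have Jp := Jn_pos n
  refine ⟨A1.1, A1.2.trans ?_⟩
  have b1 : ∫ z in Oi n ×ˢ Oi n, Real.exp (-(2 * W z)) * (∑ a, f₁ a z ^ 2) / o z ≤
      ∫ z, Real.exp (-(2 * W z)) * (∑ a, f₁ a z ^ 2) / o z :=
    setIntegral_le_integral I1 (Eventually.of_forall fun z => div_nonneg (mul_nonneg
      (Real.exp_pos _).le (Finset.sum_nonneg fun _ _ => _root_.sq_nonneg _)) (o0 z).le)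
  have b2 : ∫ z, g2 z = ∫ z in Oi n ×ˢ Oi n, g2 z :=
    (setIntegral_eq_integral_of_forall_compl_eq_zero g2_0).symm
  have b3 : ∫ z in Oc n ×ˢ Oc n, h2 z ≤ ∫ z, h2 z :=
    setIntegral_le_integral h2_int (Eventually.of_forall h2_nn)
  have b4 : ∫ z, Real.exp (-(2 * W z)) * (∑ a, f₁ a z ^ 2) / o z ≤
      Jn n ^ 2 * (24 ^ 2) ^ 4 * ∫ z, h2 z := by
    refine I2.trans ?_
    have b5 := A2.2.trans (mul_le_mul_of_nonneg_left b3 (by positivity))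
    rw [← b2, hg2] at b5
    exact b5
  have b6 : ∫ z in Oi n ×ˢ Oi n, Real.exp (-(2 * W z)) * (∑ a, f₁ a z ^ 2) / o z ≤
      Jn n ^ 2 * (24 ^ 2) ^ 4 * ∫ z, h2 z := b1.trans b4
  rw [hh2] at b6
  calc Jn n ^ 2 * (4 * C₂) * ∫ z in Oi n ×ˢ Oi n,
        Real.exp (-(2 * W z)) * (∑ a, f₁ a z ^ 2) / o z ≤
      Jn n ^ 2 * (4 * C₂) * (Jn n ^ 2 * (24 ^ 2) ^ 4 * ∫ z, Real.exp (-(2 * W (iz z))) *
        (nq (Lk s₁ β₁ K z) + nq (Rk s₂ β₂ K z)) / w (iz z)) :=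
        mul_le_mul_of_nonneg_left b6 (by positivity)
    _ = _ := by
      unfold kA
      ring

end main

end Vale.Agent.P088.S4.H561
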