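import Vale.Agent.P088.R2.H561.S4.Ad6
import Vale.Agent.P088.R2.H561.S4.SpecG
import Vale.Agent.P088.R2.H808.S4.P2R
import Vale.Agent.P088.R2.H269.X.X15
import Vale.Agent.P088.R2.H437.IVD2

/-!
# P088, stage 4, adapter for systems, part 7: coefficients of the data, the corrections
-/

open MeasureTheory Set Filter Topology
open scoped ContDiff Matrix

noncomputable section

namespace Vale.Agent.P088.S4.H561

open Vale.Agent.P088.LR Vale.Agent.P088.LR.U Vale.Agent.P088.LR.H158 Vale.Agent.P088.HY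
open Vale.Agent.P088.PJ
open Vale.Agent.P088.PJ.H338 (cp io cc rz ix xi ix_xi xi_ix sum_ix e1)
open Vale.Agent.P088.HY.T3 (Ldv ks iv Eb Ac Ao isOpen_Ao isClosed_Ac isCompact_Ac)
open Vale.Agent.P088.HY.T4 (Oc Zq)
open Vale.Agent.P088.HY.H437.Kel (Cuts st)
open Vale.Agent.P088.R2.H269 (Tp_of Tn Wt Tt)

variable {n N m : ℕ}

/-! ## The coefficients -/

theorem rz_cf (z : ℂ) (c c' : Fin 2) : rz z c c' = H808.cf c c' z := by
  fin_cases c <;> fin_cases c' <;> simp [rz, cp, io, H808.cf]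

/-- The bounds of the real coefficients. -/
theorem hB_cl {k : ℕ} {ε δ : ℝ} {s : MF n} (hs : SmM s)
    (cs : ∀ i j, Cl (k + 1) ε (fun x => s x i j - (1 : Matrix (Fin n) (Fin n) ℝ) i j))
    {β : Fin n → MC n N} (sb : ∀ i, SmC (β i)) (cb : ∀ i, ClC k δ (β i)) (p q : Fin (N * 2))
    (l : Fin n) : ContDiff ℝ ∞ (hB s β p q l) ∧ Cl k (δ + n * ε) (hB s β p q l) := by
  have hz : 0 ≤ n * ε := mul_nonneg (Nat.cast_nonneg n) (H605.cl_nn' (cs l l))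
  have h1 : ContDiff ℝ ∞ (fun x => rz (β l x (ix p).1 (ix q).1) (ix p).2 (ix q).2) ∧
      Cl k δ (fun x => rz (β l x (ix p).1 (ix q).1) (ix p).2 (ix q).2) := by
    simp only [rz_cf]
    exact H808.cf_cl (sb l _ _) (cb l _ _) _ _
  have h2 : ContDiff ℝ ∞ (fun x => if p = q then ∑ i, pd i (fun y => s y i l) x else 0) ∧
      Cl k (n * ε) (fun x => if p = q then ∑ i, pd i (fun y => s y i l) x else 0) := by
    by_cases hp : p = q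
    · simp only [hp, if_true]
      exact H808.div_cl hs cs l
    · simp only [hp, if_false]
      exact ⟨contDiff_const, H605.cl_cst (by rwa [norm_zero])⟩
  have e : hB s β p q l = fun x =>
      rz (β l x (ix p).1 (ix q).1) (ix p).2 (ix q).2 +
        -(if p = q then ∑ i, pd i (fun y => s y i l) x else 0) := by
    funext x
    unfold hB
    ring
  rw [e]
  exact ⟨h1.1.add h2.1.neg, H91.cl_add2 h1.1 h2.1.neg h1.2 (H605.cl_neg' h2.2)⟩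

/-- The conditions on the coefficients. -/
theorem cf_of {ε δ M : ℝ} (hM : δ + n * ε ≤ M) {s : MF n} (hs : SmM s) (hy : ∀ x, (s x).IsSymm)
    (cs : ∀ i j, Cl 4 ε (fun x => s x i j - (1 : Matrix (Fin n) (Fin n) ℝ) i j))
    {β : Fin n → MC n N} (sb : ∀ i, SmC (β i)) (cb : ∀ i, ClC 3 δ (β i)) :
    Cf 3 ε M s (hB s β) :=
  ⟨hs, hy, fun p q l => (hB_cl hs cs sb cb p q l).1,
    fun i j => H605.cl_le' (cs i j) (by norm_num) le_rfl,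
    fun p q l => H605.cl_le' (hB_cl hs cs sb cb p q l).2 le_rfl hM⟩

/-- Ellipticity and bounds of the tensors. -/
theorem tu_of {K : ℕ} (hK : 1 ≤ K) {ε : ℝ} (h0 : 0 ≤ ε) (e1 : n * ε ≤ 1 / 2) (e2 : ε ≤ 1 / 41)
    {s : MF n} (sm : SmM s) (sy : ∀ x, (s x).IsSymm)
    (cl : ∀ i j, Cl K ε (fun x => s x i j - (1 : Matrix (Fin n) (Fin n) ℝ) i j)) {M : ℝ}
    (hM : 2 ≤ M) : Tn M s ∧ Ue M s := by
  have h := Tp_of (v := fun _ => 0) hK e1 e2 sm sy contDiff_const cl (cl_zeroF h0)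
    (fun _ _ => rfl) hM
  refine ⟨h.tn (by norm_num), fun x ξ => ?_⟩
  have h1 := h.lo x ξ
  have h2 : 0 ≤ ∑ i, ξ i ^ 2 := Finset.sum_nonneg fun _ _ => _root_.sq_nonneg _
  have h3 : 0 ≤ ∑ i, ∑ j, s x i j * (ξ i * ξ j) := by linarith
  nlinarith

/-! ## The corrections -/

theorem nq_neg (A : Matrix (Fin N) (Fin N) ℂ) : nq (-A) = nq A := by
  unfold nq
  simp

/-- The solvability from the a priori estimate with gains. -/
theorem solWN_of (hS : RowSOL3N) (hn : 3 ≤ n) {χ χa ψ χ2 : V n → ℝ} (h : Cuts χ χa ψ χ2)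
    {M G₀ C₂ : ℝ} (hM : 2 ≤ M)
    (hG : ∀ (s₁ s₂ : MF n), SmM s₁ → SmM s₂ →
      ∀ B C : Fin n → V n → Matrix (Fin ((N * 2) * (N * 2))) (Fin ((N * 2) * (N * 2))) ℝ,
      Bn M B → Bn M C → ∀ W : VV n → ℝ, ContDiff ℝ ∞ W → ∀ w o₁ o₂ : VV n → ℝ, Continuous w →
      Continuous o₁ → (∀ z, 0 < o₁ z) → (∀ z, o₁ z ≤ C₂) → Continuous o₂ → (∀ z, 0 < o₂ z) →
      (∀ z, o₂ z ≤ C₂) →
      (∀ a₁ a₂ : VV n → ℝ, Tt univ a₁ → Tt univ a₂ →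
        (∫ z, w z * (a₁ z ^ 2 + a₂ z ^ 2)) + G₀ * ∫ z, H437.gn W a₁ a₂ z ≤
          ∫ z, (o₁ z * (R2.H269.QX s₁ W a₁ z + R2.H269.QY s₂ W a₂ z) ^ 2
            + o₂ z * (R2.H269.PY s₂ W a₁ z - R2.H269.PX s₁ W a₂ z) ^ 2)) →
      ∀ a₁ a₂ : Fin ((N * 2) * (N * 2)) → VV n → ℝ, (∀ a, Tt univ (a₁ a)) →
        (∀ a, Tt univ (a₂ a)) →
        ∫ z, (w z / 2) * ∑ a, (a₁ a z ^ 2 + a₂ a z ^ 2) ≤
          ∫ z, (o₁ z * ∑ a, (QXN s₁ B W a₁ a z + QYN s₂ C W a₂ a z) ^ 2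
            + o₂ z * ∑ a, (PYN s₂ C W a₁ a z - PXN s₁ B W a₂ a z) ^ 2))
    {d : PD n N} (d₁ : Dm d.s₁ d.β) (d₂ : Dm d.s₂ (b2 d))
    (T₁ : Tn M (st χ χa ψ χ2 d.s₁) ∧ Ue M (st χ χa ψ χ2 d.s₁))
    (T₂ : Tn M (st χ χa ψ χ2 d.s₂) ∧ Ue M (st χ χa ψ χ2 d.s₂))
    (b₁ : (∀ a b i, ContDiff ℝ ∞ (gD χ χa ψ χ2 d.s₁ (hB d.s₁ d.β) a b i)) ∧
      ∀ a b i, Cl 1 M (gD χ χa ψ χ2 d.s₁ (hB d.s₁ d.β) a b i))
    (b₂ : (∀ a b i, ContDiff ℝ ∞ (gD χ χa ψ χ2 d.s₂ (hB d.s₂ fun l x => (b2 d l x)ᵀ) a b i)) ∧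
      ∀ a b i, Cl 1 M (gD χ χa ψ χ2 d.s₂ (hB d.s₂ fun l x => (b2 d l x)ᵀ) a b i))
    {σ a b c C ν R kap Gs : ℝ} {W w : VV n → ℝ}
    (he : EBg (st χ χa ψ χ2 d.s₁) (st χ χa ψ χ2 d.s₂) σ a b c C ν R kap Gs G₀ C₂ W w) (r : ℝ)
    {C₃ : ℝ} (hC₃ : C₂ ≤ C₃) :
    SolWN d r (fun z => W (iz z)) (fun z => (2 * (kA n * C₃))⁻¹ * w (iz z)) := by
  obtain ⟨B, hB0, hB⟩ := he.wt
  obtain ⟨o₁, o₂, c₁, c₂, p₁, p₂, est⟩ := he.est
  have hM0 : 0 ≤ M := by linarith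
  have C₂p : 0 < C₃ := ((p₁ (0, 0)).1.trans_le (p₁ (0, 0)).2).trans_le hC₃
  have kp : 0 < 2 * (kA n * C₃) := by have := kA_pos n; positivity
  have hbx := bn_x hM0 b₁.1 b₁.2
  have hby := bn_y hM0 b₂.1 b₂.2
  have hest := hG _ _ T₁.1.sm T₂.1.sm _ _ hbx hby W hB.sm w o₁ o₂ he.wc c₁ (fun z => (p₁ z).1)
    (fun z => (p₁ z).2) c₂ (fun z => (p₂ z).1) (fun z => (p₂ z).2)
    fun a₁ a₂ h1 h2 => est a₁ a₂ h1.s h1.c h2.s h2.c
  have hbn : ∀ {M' : ℝ} (_ : M ≤ M')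
      {P : Fin n → V n → Matrix (Fin ((N * 2) * (N * 2))) (Fin ((N * 2) * (N * 2))) ℝ},
      Bn M P → Bn M' P := fun hMM _ hP => ⟨hP.sm, fun i a b x => (hP.b0 i a b x).trans hMM,
        fun k i a b x => (hP.b1 k i a b x).trans hMM⟩
  have hM1 : M ≤ max M B := le_max_left _ _
  have htn : ∀ {s : MF n}, Tn M s → Tn (max M B) s := fun hs => ⟨hs.sm, hs.sy, hs.pos,
    fun x i j => (hs.b0 x i j).trans hM1, fun x i j k => (hs.b1 x i j k).trans hM1⟩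
  have hue : ∀ {s : MF n}, Ue M s → Ue (max M B) s := by
    intro s hs x ξ
    have h1 := hs x ξ
    have h2 : 0 ≤ ∑ i, ξ i ^ 2 := Finset.sum_nonneg fun _ _ => _root_.sq_nonneg _
    have h3 : 0 ≤ ∑ i, ∑ j, s x i j * (ξ i * ξ j) := by
      by_contra h4
      push Not at h4
      nlinarith
    exact h1.trans (mul_le_mul_of_nonneg_right hM1 h3)
  have hsol := hS n ((N * 2) * (N * 2)) (by omega) (max M B) (hM0.trans hM1) _ _ (htn T₁.1)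
    (htn T₂.1) (hue T₁.2) (hue T₂.2) _ _ (hbn hM1 hbx) (hbn hM1 hby) (Bx_By _ _) W
    (R2.H269.Wt.mono (le_max_right _ _) hB) (fun z => w z / 2) o₁ o₂
    (he.wc.div_const 2) (fun z => half_pos (he.w0 z)) c₁ (fun z => (p₁ z).1) c₂
    (fun z => (p₂ z).1) C₂ (fun z => (p₂ z).2) hest
  intro K0 hK hKc hsu
  obtain ⟨K1, k1, k2, k3, k4, k5⟩ := sol_tr hn h d₁ d₂ T₁.1.sm T₂.1.sm b₁.1 b₂.1 hB.sm.continuous
    (he.wc.div_const 2) (fun z => half_pos (he.w0 z)) (fun z => (p₁ z).1)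
    (fun z => (p₁ z).2.trans hC₃) hsol (K := fun z => -K0 z) (fun a b => (hK a b).neg)
    (fun z hz => by
      have hz' : K0 z ≠ 0 := fun h0 => hz (by rw [h0, neg_zero])
      exact ⟨(hsu z hz').1, (hsu z hz').2.1⟩)
  have L1 : ∀ z, Lk d.s₁ d.β (fun z => -K0 z) z = -LxK d K0 z := fun z => Lk_neg _ _ _ _
  have L2 : ∀ z, Rk d.s₂ (b2 d) (fun z => -K0 z) z = -RyK d K0 z := fun z => Rk_neg _ _ _ _
  refine ⟨K1, k1, fun z hz => (k2 z hz).trans (L1 z), fun z hz => (k3 z hz).trans (L2 z), k4,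
    k5.trans (le_of_eq ?_)⟩
  rw [← integral_const_mul]
  refine integral_congr_ae (Eventually.of_forall fun z => ?_)
  show kA n * C₃ * (Real.exp (-(2 * W (iz z))) * (nq (Lk d.s₁ d.β (fun z => -K0 z) z) +
    nq (Rk d.s₂ (b2 d) (fun z => -K0 z) z)) / (w (iz z) / 2)) = _
  rw [L1, L2, nq_neg, nq_neg]
  have hw := (he.w0 (iz z)).ne'
  have hk := kp.ne'
  have hk1 := (kA_pos n).ne'
  have hk2 := C₂p.ne'
  field_simp

end Vale.Agent.P088.S4.H561
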