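import Vale.Agent.P088.R2.H561.S4.Ad7

/-!
# P088, stage 4: the adapter for systems, `RowSOLWN` from `RowSOL3N` and `RowESTg`
-/

open MeasureTheory Set Filter Topology
open scoped ContDiff Matrix

noncomputable section

namespace Vale.Agent.P088.S4.H561

open Vale.Agent.P088.LR Vale.Agent.P088.LR.U Vale.Agent.P088.LR.H158 Vale.Agent.P088.HY
open Vale.Agent.P088.PJ
open Vale.Agent.P088.HY.T3 (iv Eb Ac Ao isOpen_Ao isClosed_Ac isCompact_Ac rt_ball)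
open Vale.Agent.P088.HY.T4 (Oc Zq gx kk gy)
open Vale.Agent.P088.HY.H437.Kel (Cuts st exists_cuts)
open Vale.Agent.P088.R2.H269 (ky Zi Zq_iv Zq_ne Ac_iv Ac_ne iv_dist_le iv_dist_ge num_w
  kk_ky kk_iv cd_i2)

variable {n N m : ℕ}

/-- **WBN from EBg.** -/
theorem wbn_of (hn : 3 ≤ n) {t₁ t₂ : MF n} {d : PD n N} {σ a b c C ν R kap Gs G₀ C₂ : ℝ}
    {W w : VV n → ℝ}
    (h : EBg t₁ t₂ σ a b c C ν R kap Gs G₀ C₂ W w) (hc : 0 < c)
    (hR : 200 * (n + 1) ≤ R) (hk : 0 ≤ kap) {c' C' κ : ℝ} (κp : 0 < κ)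
    (hCC : C + 2 ≤ C') (hC2 : 2 ≤ C') (hc0 : 0 < c') (hc1 : c' ≤ c * κ)
    (hc2 : c' * (n * 15 ^ 4) ≤ c)
    (sol : SolWN d (1 / R ^ 2) (fun z => W (iz z)) (fun z => κ * w (iz z))) :
    WBN d σ a b c' C' ν R kap Gs (fun z => W (iz z)) (fun z => κ * w (iz z)) := by
  have n1 : (3 : ℝ) ≤ n := by exact_mod_cast hn
  have hR1 : (800 : ℝ) ≤ R := by nlinarith
  have hR0 : (1 : ℝ) ≤ R := by linarith
  have hcc : c' ≤ c := by nlinarith
  have cW : Continuous W := by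
    obtain ⟨B, _, hB⟩ := h.wt
    exact hB.sm.continuous
  have kyn : ∀ y : V n, 0 ≤ ky n σ R kap Gs y := fun y => mul_nonneg hk (Real.exp_pos _).le
  have sn : √(n : ℝ) ≤ n := Real.sqrt_le_iff.2 ⟨by linarith, by nlinarith⟩
  have cl : ∀ x ∈ Zq n, ∀ y ∈ Zq n, ‖x - y‖ ≤ 1 / R ^ 2 → ‖iv x - iv y‖ ≤ 1 / R := by
    intro x hx y hy hxy
    have h1 := iv_dist_le (by norm_num) (by norm_num) hx.1 hy.1
    refine h1.trans ?_
    rw [div_le_div_iff₀ (by norm_num) (by linarith)]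
    have h2 : ‖x - y‖ * R ^ 2 ≤ 1 := by
      rwa [le_div_iff₀ (by positivity)] at hxy
    have h3 : ‖x - y‖ * R ≤ 1 / R := by
      rw [le_div_iff₀ (by linarith)]
      calc ‖x - y‖ * R * R = ‖x - y‖ * R ^ 2 := by ring
        _ ≤ 1 := h2
    have h4 : (n : ℝ) * (1 / R) ≤ 1 / 200 := by
      rw [mul_one_div, div_le_div_iff₀ (by linarith) (by norm_num)]
      nlinarith
    calc √(n : ℝ) * ‖x - y‖ * R = √(n : ℝ) * (‖x - y‖ * R) := by ring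
      _ ≤ n * (1 / R) := mul_le_mul sn h3 (by positivity) (by positivity)
      _ ≤ 1 / 200 := h4
      _ ≤ _ := by norm_num
  refine ⟨?_, ?_, ?_, ?_, ?_, ?_, ?_, ?_, sol⟩
  · intro z hz
    exact (cW.continuousAt.comp
      (cd_iz (oc_ne hz.1) (oc_ne hz.2)).continuousAt).continuousWithinAt
  · intro z hz
    exact (continuousAt_const.mul (h.wc.continuousAt.comp
      (cd_iz (oc_ne hz.1) (oc_ne hz.2)).continuousAt)).continuousWithinAt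
  · intro z _
    exact mul_pos κp (h.w0 _)
  · -- W1
    intro x hx y hy hxy
    have h1 := h.W1 (iv x) (Zq_iv hx) (iv y) (Zq_iv hy) (cl x hx y hy hxy)
    have h2 := iv_dist_ge (Zq_ne hx) (Zq_ne hy) hx.2 hy.2
    have h3 : c' * kk n σ R kap Gs x ^ 2 * ‖x - y‖ ^ 2 ≤
        c * ky n σ R kap Gs (iv x) ^ 2 * ‖iv x - iv y‖ ^ 2 := by
      rw [kk_ky]
      calc c' * ky n σ R kap Gs (iv x) ^ 2 * ‖x - y‖ ^ 2 ≤
          c' * ky n σ R kap Gs (iv x) ^ 2 * (n * 15 ^ 4 * ‖iv x - iv y‖ ^ 2) :=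
            mul_le_mul_of_nonneg_left h2 (by positivity)
        _ = (c' * (n * 15 ^ 4)) * (ky n σ R kap Gs (iv x) ^ 2 * ‖iv x - iv y‖ ^ 2) := by ring
        _ ≤ c * (ky n σ R kap Gs (iv x) ^ 2 * ‖iv x - iv y‖ ^ 2) :=
            mul_le_mul_of_nonneg_right hc2 (by positivity)
        _ = _ := by ring
    show ν * R * (gy n σ (iv x) - Gs) + c' * kk n σ R kap Gs x ^ 2 * ‖x - y‖ ^ 2 - C' ≤
      W (iv x, iv y)
    linarith
  · -- W2
    intro p hp z hz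
    have hkk : 0 ≤ kk n σ R kap Gs p := kyn _
    have rc0 : 0 < R ^ C := Real.rpow_pos_of_pos (by linarith) _
    have rc1 : R ^ 2 ≤ R ^ C' := by
      calc R ^ 2 = R ^ (2 : ℝ) := by norm_num
        _ ≤ _ := Real.rpow_le_rpow_of_exponent_le hR0 hC2
    have rc2 : R ^ C ≤ R ^ C' := Real.rpow_le_rpow_of_exponent_le hR0 (by linarith)
    set ρ := 2 / (R ^ C' + kk n σ R kap Gs p) with hρ
    have hρ0 : 0 ≤ ρ := by positivity
    have hρ1 : ρ ≤ 2 / R ^ 2 := by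
      rw [hρ]
      exact div_le_div_of_nonneg_left (by norm_num) (by positivity) (by linarith)
    have hρ2 : (n + 1) * ρ ≤ 1 / 100 := by
      have h1 : (n + 1) * ρ ≤ (n + 1) * (2 / R ^ 2) := mul_le_mul_of_nonneg_left hρ1 (by positivity)
      refine h1.trans ?_
      rw [mul_div_assoc', div_le_div_iff₀ (by positivity) (by norm_num)]
      nlinarith
    have dz : dist z (p, p) < ρ := hz
    rw [Prod.dist_eq] at dz
    have d1 : dist z.1 p < ρ := lt_of_le_of_lt (le_max_left _ _) dz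
    have d2 : dist z.2 p < ρ := lt_of_le_of_lt (le_max_right _ _) dz
    have one : ∀ q : V n, dist q p < ρ →
        dist (iv q) (iv p) < 3 * n / (R ^ C + ky n σ R kap Gs (iv p)) := by
      intro q hq
      have h1 := (rt_ball hρ0 (Metric.mem_ball.2 hq)).1
      have h2 : (98 / 100 : ℝ) ≤ √(HY.sq q) := by
        have := hp.1
        linarith
      have h3 := iv_dist_le (by norm_num) (by norm_num) h2 hp.1
      rw [dist_eq_norm] at hq ⊢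
      refine lt_of_le_of_lt h3 ?_
      have h4 : √(n : ℝ) * ‖q - p‖ / (98 / 100 * (99 / 100)) ≤ n * (21 / 20 * ρ) := by
        have h5 : √(n : ℝ) * ‖q - p‖ ≤ n * ρ := mul_le_mul sn hq.le (norm_nonneg _) (by positivity)
        have h6 : 0 ≤ √(n : ℝ) * ‖q - p‖ := by positivity
        have h7 : 0 ≤ (n : ℝ) * ρ := by positivity
        rw [div_le_iff₀ (by norm_num)]
        nlinarith
      refine lt_of_le_of_lt h4 ?_
      have h8 : ρ ≤ 2 / (R ^ C + ky n σ R kap Gs (iv p)) := by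
        rw [hρ, kk_ky]
        exact div_le_div_of_nonneg_left (by norm_num) (by have := kyn (iv p); positivity)
          (by linarith)
      have h9 : 0 < R ^ C + ky n σ R kap Gs (iv p) := by have := kyn (iv p); positivity
      calc (n : ℝ) * (21 / 20 * ρ) ≤ n * (21 / 20 * (2 / (R ^ C + ky n σ R kap Gs (iv p)))) := by
            gcongr
        _ = (21 / 10 * n) / (R ^ C + ky n σ R kap Gs (iv p)) := by ring
        _ < _ := by
            refine div_lt_div_of_pos_right ?_ h9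
            linarith
    have hi : iv p ∈ HY.T3.Ac n (1 / 15) (100 / 99) :=
      Ac_iv (by norm_num) hp (by norm_num) (by norm_num)
    have hz' : iz z ∈ Metric.ball (iv p, iv p) (3 * n / (R ^ C + ky n σ R kap Gs (iv p))) := by
      rw [Metric.mem_ball, Prod.dist_eq]
      exact max_lt (one _ d1) (one _ d2)
    have h1 := h.W2 (iv p) hi (iz z) hz'
    show W (iz z) ≤ ν * max (R * (gy n σ (iv p) - Gs)) (-Real.log kap) + C' * (1 + Real.log R)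
    have h2 : C * (1 + Real.log R) ≤ C' * (1 + Real.log R) :=
      mul_le_mul_of_nonneg_right (by linarith) (by have := Real.log_nonneg hR0; linarith)
    linarith
  · -- W3
    intro x hx y hy
    have h1 := h.W3 (iv x) (Ac_iv (by norm_num) hx (by norm_num) (by norm_num)) (iv y)
      (Ac_iv (by norm_num) hy (by norm_num) (by norm_num))
    have h2 : -(c * R) ≤ -(c' * R) := by nlinarith
    exact ⟨h1.1.trans h2, h1.2.trans h2⟩
  · -- w1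
    intro x hx y hy hxy hg
    have h1 := h.w1 (iv x) (Zq_iv hx) (iv y) (Zq_iv hy) (cl x hx y hy hxy) hg
    rw [mul_assoc (c * R ^ (-C))] at h1
    have h2 := num_w κp hc hR0 (by linarith : C ≤ C')
      (mul_nonneg (Real.rpow_nonneg hk _) (Real.exp_pos _).le) hc1 h1
    rw [← mul_assoc] at h2
    exact h2
  · -- w2
    intro x hx y hy hxy
    have h1 := h.w2 (iv x) (Zq_iv hx) (iv y) (Zq_iv hy) (cl x hx y hy hxy)
    rw [mul_assoc (c * R ^ (-C))] at h1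
    have h2 := num_w κp hc hR0 (by linarith : C ≤ C')
      (mul_nonneg (Real.rpow_nonneg hk _) (Real.exp_pos _).le) hc1 h1
    rw [← mul_assoc] at h2
    exact h2

/-- **The adapter for systems.** -/
theorem rowSOLWN (hS : RowSOL3N) (hE : RowESTg) : RowSOLWN := by
  intro n N hn hN
  obtain ⟨χ, χa, ψ, χ2, h⟩ := exists_cuts (n := n)
  obtain ⟨σ, a, b, ν₀, hσ, hσ1, ha, ha4, hb, hE⟩ := hE n hn
  refine ⟨σ, a, b, ν₀, hσ, hσ1, ha, ha4, hb, fun ν hν => ?_⟩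
  obtain ⟨C₂, hC₂, hE⟩ := hE ν hν
  have n1 : (3 : ℝ) ≤ n := by exact_mod_cast hn
  have n0 : (0 : ℝ) < n := by linarith
  -- the constants of the coefficients
  obtain ⟨Cb, δb, hCb, hδb, hδb1, hbd⟩ := H808.bd_da n N 3
  obtain ⟨A, hA0, hA⟩ := gD_bd (N * 2) h (max 1 Cb + n)
  obtain ⟨M, hM⟩ : ∃ M : ℝ, M = max 2 A := ⟨_, rfl⟩
  have hM2 : 2 ≤ M := by rw [hM]; exact le_max_left _ _
  have hMA : A ≤ M := by rw [hM]; exact le_max_right _ _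
  obtain ⟨G₀, hG₀, hG⟩ := H437.estN n ((N * 2) * (N * 2)) M hC₂
  obtain ⟨K, ε, c, C, η, R₀, hε, hc, hC, hη, hE⟩ := hE G₀ hG₀
  obtain ⟨Ce, hCe, hX⟩ := HY.H437.Kel.ext_core hn h (max K 3)
  obtain ⟨κ, hκ⟩ : ∃ κ : ℝ, κ = (2 * (kA n * (C₂ + 1)))⁻¹ := ⟨_, rfl⟩
  have κp : 0 < κ := by
    rw [hκ]
    have := kA_pos n
    positivity
  obtain ⟨ε₁, hε₁⟩ : ∃ ε₁ : ℝ, ε₁ = min ε (min (1 / (2 * n)) (1 / 41)) := ⟨_, rfl⟩
  have ε₁p : 0 < ε₁ := by rw [hε₁]; exact lt_min hε (lt_min (by positivity) (by norm_num))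
  have ε₁a : ε₁ ≤ ε := by rw [hε₁]; exact min_le_left _ _
  have ε₁b : ε₁ ≤ 1 / (2 * n) := by rw [hε₁]; exact (min_le_right _ _).trans (min_le_left _ _)
  have ε₁c : ε₁ ≤ 1 / 41 := by rw [hε₁]; exact (min_le_right _ _).trans (min_le_right _ _)
  obtain ⟨ε₂, hε₂⟩ : ∃ ε₂ : ℝ, ε₂ = min (min 1 δb) (ε₁ / Ce) := ⟨_, rfl⟩
  have ε₂p : 0 < ε₂ := by rw [hε₂]; exact lt_min (lt_min one_pos hδb) (div_pos ε₁p hCe)
  have ε₂a : ε₂ ≤ 1 := by rw [hε₂]; exact (min_le_left _ _).trans (min_le_left _ _)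
  have ε₂b : ε₂ ≤ δb := by rw [hε₂]; exact (min_le_left _ _).trans (min_le_right _ _)
  have ε₂c : Ce * ε₂ ≤ ε₁ := by
    rw [hε₂]
    calc _ ≤ Ce * (ε₁ / Ce) := mul_le_mul_of_nonneg_left (min_le_right _ _) hCe.le
      _ = ε₁ := by field_simp
  have en : (n : ℝ) * ε₁ ≤ 1 / 2 := by
    calc (n : ℝ) * ε₁ ≤ n * (1 / (2 * n)) := mul_le_mul_of_nonneg_left ε₁b n0.le
      _ = 1 / 2 := by field_simp
  have hm : 0 < min κ (1 / (n * 15 ^ 4) : ℝ) := lt_min κp (by positivity)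
  obtain ⟨c', hc'⟩ : ∃ c' : ℝ, c' = c * min κ (1 / (n * 15 ^ 4)) := ⟨_, rfl⟩
  have hc'0 : 0 < c' := by rw [hc']; exact mul_pos hc hm
  obtain ⟨C', hC'⟩ : ∃ C' : ℝ, C' = max (C + 2) 3 := ⟨_, rfl⟩
  have hC'1 : C + 2 ≤ C' := by rw [hC']; exact le_max_left _ _
  have hC'3 : 3 ≤ C' := by rw [hC']; exact le_max_right _ _
  refine ⟨max K 3 + 1, ε₂, c', C', η, max (max R₀ (200 * (n + 1))) (Ce ^ 2), ε₂p, hc'0, hC'3, hη,
    ?_⟩
  intro d G hd R kap Gs hR hR1 hG1 hG2 hk1 hk2 hk3 hdf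
  have q₁ := hd.rp.rl.d₁
  have q₂ := hd.rp.rl.d₂
  have hK3 : 3 ≤ max K 3 := le_max_right _ _
  have q4 : ∀ {s : MF n}, (∀ i j, Cl (max K 3 + 1) ε₂
      (fun x => s x i j - (1 : Matrix (Fin n) (Fin n) ℝ) i j)) →
      ∀ i j, Cl 4 ε₂ (fun x => s x i j - (1 : Matrix (Fin n) (Fin n) ℝ) i j) :=
    fun hs i j => H605.cl_le' (hs i j) (by omega) le_rfl
  have o₁ : ∀ x ∉ Eb (0 : V n) 32, d.s₁ x = 1 := fun x hx => (hd.of x hx).1
  have o₂ : ∀ x ∉ Eb (0 : V n) 32, d.s₂ x = 1 := fun x hx => (hd.of x hx).2.1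
  have ch₁ : HY.H437.Kel.Ch (max K 3 + 1) ε₂ d.s₁ := ⟨q₁.ss, q₁.sy, q₁.cs, o₁⟩
  have ch₂ : HY.H437.Kel.Ch (max K 3 + 1) ε₂ d.s₂ := ⟨q₂.ss, q₂.sy, q₂.cs, o₂⟩
  have heq : ∀ x ∈ Eb (0 : V n) 1, d.s₂ x = d.s₁ x := by
    intro x hx
    refine hd.rp.rl.os x ?_ fun h1 => h1 (hd.b1 hx)
    have h1 : HY.sq (x - 0) < 1 ^ 2 := hx
    show HY.sq (x - 0) < 24 ^ 2
    linarith
  obtain ⟨hs, ho, hj⟩ := hX ε₂ d.s₁ d.s₂ ε₂p.le ch₁ ch₂ heq
  obtain ⟨a1, -, a3, a4, -, a6, -⟩ := hs d.s₁ (Or.inl rfl)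
  obtain ⟨b1, -, b3, b4, -, b6, -⟩ := hs d.s₂ (Or.inr rfl)
  -- the first order coefficients
  have hda : Da (3 + 1) ε₂ (Eb 0 24 ∩ Gᶜ) d.s₂ d.P₂ d.G₂ := ⟨q₂.ss, q₂.sy, q₂.sP, q₂.hP, q₂.sG,
    q₂.hG, q4 q₂.cs, H605.clC_mono q₂.cP (by omega) le_rfl,
    fun i => H605.clC_mono (q₂.cG i) (by omega) le_rfl, q₂.dq, q₂.pe⟩
  obtain ⟨-, -, -, -, sR, -, cR⟩ := hbd ε₂ ε₂p.le ε₂b _ _ _ _ hda
  have hcb : Cb * ε₂ ≤ max 1 Cb := (mul_le_of_le_one_right hCb.le ε₂a).trans (le_max_right _ _)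
  have hne : (n : ℝ) * ε₂ ≤ n := mul_le_of_le_one_right n0.le ε₂a
  have cf₁ : Cf 3 ε₂ (max 1 Cb + n) d.s₁ (hB d.s₁ d.β) :=
    cf_of (add_le_add (ε₂a.trans (le_max_left _ _)) hne) q₁.ss q₁.sy (q4 q₁.cs) hd.rp.rl.sβ
      fun i => H605.clC_mono (hd.rp.rl.cβ i) (by omega) le_rfl
  have cf₂ : Cf 3 ε₂ (max 1 Cb + n) d.s₂ (hB d.s₂ fun l x => (b2 d l x)ᵀ) :=
    cf_of (add_le_add hcb hne) q₂.ss q₂.sy (q4 q₂.cs) (fun i a b => sR i b a)
      fun i a b => cR i b a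
  have g₁ := hA ε₂ d.s₁ _ ε₂p.le ε₂a cf₁
  have g₂ := hA ε₂ d.s₂ _ ε₂p.le ε₂a cf₂
  have hcl : ∀ {s : MF n}, (∀ i j, Cl (max K 3) (Ce * ε₂) (fun y => st χ χa ψ χ2 s y i j -
      (1 : Matrix (Fin n) (Fin n) ℝ) i j)) → ∀ i j, Cl (max K 3) ε₁ (fun y =>
      st χ χa ψ χ2 s y i j - (1 : Matrix (Fin n) (Fin n) ℝ) i j) := fun hs i j =>
    H605.cl_le' (hs i j) le_rfl ε₂c
  have T₁ := tu_of (by omega) ε₁p.le en ε₁c a1 a3 (hcl a4) hM2
  have T₂ := tu_of (by omega) ε₁p.le en ε₁c b1 b3 (hcl b4) hM2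
  have hI : Ivg K ε (st χ χa ψ χ2 d.s₁) (st χ χa ψ χ2 d.s₂) :=
    ⟨a1, b1, a3, b3, fun i j => H605.cl_le' (hcl a4 i j) (le_max_left _ _) ε₁a,
      fun i j => H605.cl_le' (hcl b4 i j) (le_max_left _ _) ε₁a,
      fun x hx => ⟨(a6 x hx).1, (b6 x hx).1⟩, fun x hx => (ho x hx).1⟩
  -- the numbers
  have hRa : R₀ ≤ R := (le_max_left _ _).trans ((le_max_left _ _).trans hR)
  have hRb : 200 * ((n : ℝ) + 1) ≤ R := (le_max_right _ _).trans ((le_max_left _ _).trans hR)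
  have hRc : Ce ^ 2 ≤ R := (le_max_right _ _).trans hR
  have hk0 : 0 < kap := by linarith
  have hkR : R ≤ kap := by
    calc R = R ^ (1 : ℝ) := (Real.rpow_one R).symm
      _ ≤ R ^ C' := Real.rpow_le_rpow_of_exponent_le hR1 (by linarith)
      _ ≤ kap := hk2
  have hkC : R ^ C ≤ kap := (Real.rpow_le_rpow_of_exponent_le hR1 (by linarith)).trans hk2
  have hsm : Ce * kap⁻¹ ≤ kap ^ (-(1 / 2) : ℝ) := by
    have h1 : Ce ≤ kap ^ (1 / 2 : ℝ) := by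
      rw [← Real.sqrt_eq_rpow]
      exact Real.le_sqrt_of_sq_le (hRc.trans hkR)
    have h2 : kap⁻¹ = kap ^ (-(1 / 2) : ℝ) * kap ^ (-(1 / 2) : ℝ) := by
      rw [← Real.rpow_add hk0]
      norm_num [Real.rpow_neg_one]
    have h3 : kap ^ (1 / 2 : ℝ) * kap ^ (-(1 / 2) : ℝ) = 1 := by
      rw [← Real.rpow_add hk0]
      norm_num
    have h4 : 0 < kap ^ (-(1 / 2) : ℝ) := Real.rpow_pos_of_pos hk0 _
    calc Ce * kap⁻¹ = (Ce * kap ^ (-(1 / 2) : ℝ)) * kap ^ (-(1 / 2) : ℝ) := by rw [h2]; ring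
      _ ≤ (kap ^ (1 / 2 : ℝ) * kap ^ (-(1 / 2) : ℝ)) * kap ^ (-(1 / 2) : ℝ) :=
          mul_le_mul_of_nonneg_right (mul_le_mul_of_nonneg_right h1 h4.le) h4.le
      _ = _ := by rw [h3, one_mul]
  obtain ⟨W, w, hW⟩ := hE _ _ hI R kap Gs hRa hR1 hG1 hG2 hk1 hkC hk3 (by
    intro y hy h1 i j l hl
    have y0 : y ≠ 0 := Ac_ne (by norm_num) hy
    have hy' : y ∈ HY.T3.Ac n (1 / 22) (5 / 4) := ⟨hy.1, hy.2.trans (by norm_num)⟩
    have hiv : iv y ∈ HY.T3.Ac n (4 / 5) 22 := Ac_iv (by norm_num) hy (by norm_num) (by norm_num)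
    have hq : 0 ≤ ky n σ R kap Gs y ^ (-(ν / 2)) :=
      Real.rpow_nonneg (by linarith) _
    have han := HY.H437.Kel.ann_sq hy'
    obtain ⟨d1, -⟩ := hj y (kap⁻¹ * ky n σ R kap Gs y ^ (-(ν / 2))) han.1 han.2 (by
      intro i j l hl
      have := hdf i j l hl (iv y) hiv (by rw [kk_iv y0]; exact h1)
      rwa [kk_iv y0] at this)
    refine (d1 i j l (hl.trans (le_max_left _ _))).trans ?_
    rw [← mul_assoc]
    exact mul_le_mul_of_nonneg_right hsm hq)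
  refine ⟨_, _, wbn_of hn hW hc hRb hk0.le κp hC'1 (by linarith) hc'0 ?_ ?_ ?_⟩
  · rw [hc']
    exact mul_le_mul_of_nonneg_left (min_le_left _ _) hc.le
  · rw [hc']
    calc c * min κ (1 / (n * 15 ^ 4)) * (n * 15 ^ 4) ≤
          (c * (1 / (n * 15 ^ 4))) * (n * 15 ^ 4) := by
          refine mul_le_mul_of_nonneg_right ?_ (by positivity)
          exact mul_le_mul_of_nonneg_left (min_le_right _ _) hc.le
      _ = c := by field_simp
  · rw [hκ]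
    exact solWN_of hS hn h hM2 hG ⟨q₁.ss, q₁.sy, o₁, hd.rp.rl.sβ⟩ ⟨q₂.ss, q₂.sy, o₂, sR⟩ T₁ T₂
      ⟨g₁.1, fun a b i => H605.cl_le' (g₁.2 a b i) le_rfl hMA⟩
      ⟨g₂.1, fun a b i => H605.cl_le' (g₂.2 a b i) le_rfl hMA⟩ hW _ (by linarith)

end Vale.Agent.P088.S4.H561
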