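import Vale.Agent.P088.R2.H455.S4.EstV
import Vale.Agent.P088.R2.H561.S4.SpecH

/-!
# P088, stage 3: the two-slot estimate with potentials from the estimate with localised gains

`RowESTh → R2.H269.RowEST`; only the gain of order zero is used.
-/

open MeasureTheory Set
open scoped ContDiff Matrix

noncomputable section

namespace Vale.Agent.P088.S4

open Vale.Agent.P088.LR Vale.Agent.P088.HY Vale.Agent.P088.HY.T3 Vale.Agent.P088.HY.T4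
open Vale.Agent.P088.R2.H269 (ky Zi QX QY PX PY QXv QYv PXv PYv Wt Ivd EB EstP Tt)
open Vale.Agent.P088.S4.H437

variable {n : ℕ}

theorem gf_nn (W a₁ a₂ : VV n → ℝ) (z : VV n) : 0 ≤ gf W a₁ a₂ z := by
  unfold gf
  refine Finset.sum_nonneg fun i _ => ?_
  have q1 : 0 ≤ c2 z.1 := Real.smoothTransition.nonneg _
  have q2 : 0 ≤ c2 z.2 := Real.smoothTransition.nonneg _
  positivity

/-- The estimate with potentials. -/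
theorem estPh_of {s₁ s₂ : MF n} (h₁ : SmM s₁) (h₂ : SmM s₂) {v₁ v₂ : V n → ℝ}
    (hv₁ : ContDiff ℝ ∞ v₁) (hv₂ : ContDiff ℝ ∞ v₂) (b₁ : ∀ x, |v₁ x| ≤ 1) (b₂ : ∀ x, |v₂ x| ≤ 1)
    {W w o₁ o₂ : VV n → ℝ} (hW : ContDiff ℝ ∞ W) (hw : Continuous w) {C₂ : ℝ}
    (c₁ : Continuous o₁) (c₂ : Continuous o₂) (p₁ : ∀ z, 0 < o₁ z ∧ o₁ z ≤ C₂)
    (p₂ : ∀ z, 0 < o₂ z ∧ o₂ z ≤ C₂) (hC₂ : 0 ≤ C₂) {g₀ : ℝ} (hg₀ : 0 ≤ g₀)
    (est : ∀ a₁ a₂ : VV n → ℝ, ContDiff ℝ ∞ a₁ → HasCompactSupport a₁ → ContDiff ℝ ∞ a₂ →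
      HasCompactSupport a₂ →
      (∫ z, w z * (a₁ z ^ 2 + a₂ z ^ 2)) + g₀ * (∫ z, gf W a₁ a₂ z) +
          (8 * C₂) * (∫ z, (a₁ z ^ 2 + a₂ z ^ 2)) ≤
        ∫ z, (o₁ z * (QX s₁ W a₁ z + QY s₂ W a₂ z) ^ 2 +
          o₂ z * (PY s₂ W a₁ z - PX s₁ W a₂ z) ^ 2)) :
    EstP s₁ s₂ v₁ v₂ W (fun z => w z / (2 * C₂ + 1)) 1 := by
  intro a₁ a₂ s1 k1 s2 k2
  have h1 : Tt univ a₁ := ⟨s1, k1, subset_univ _⟩
  have h2 : Tt univ a₂ := ⟨s2, k2, subset_univ _⟩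
  have hest := est a₁ a₂ s1 k1 s2 k2
  have tA : Tt univ (fun z => QXv s₁ v₁ W a₁ z + QYv s₂ v₂ W a₂ z) :=
    tt_add (tt_add (tt_QX h₁ hW h1) (tt_mulL (s_fst hv₁) h1))
      (tt_add (tt_QY h₂ hW h2) (tt_mulL (s_snd hv₂) h2))
  have tB : Tt univ (fun z => PYv s₂ v₂ W a₁ z - PXv s₁ v₁ W a₂ z) :=
    tt_sub (tt_add (tt_PY h₂ hW h1) (tt_mulL (s_snd hv₂) h1))
      (tt_add (tt_PX h₁ hW h2) (tt_mulL (s_fst hv₁) h2))
  have iA := (tt_sq tA).s.continuous.integrable_of_hasCompactSupport (μ := volume) (tt_sq tA).c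
  have iB := (tt_sq tB).s.continuous.integrable_of_hasCompactSupport (μ := volume) (tt_sq tB).c
  have tg := tt_add (tt_sq h1) (tt_sq h2)
  have ig : Integrable (fun z => a₁ z ^ 2 + a₂ z ^ 2) :=
    tg.s.continuous.integrable_of_hasCompactSupport tg.c
  have hgf : 0 ≤ g₀ * (∫ z, gf W a₁ a₂ z) :=
    mul_nonneg hg₀ (integral_nonneg fun z => gf_nn W a₁ a₂ z)
  have i0 : Integrable (fun z => o₁ z * (QX s₁ W a₁ z + QY s₂ W a₂ z) ^ 2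
      + o₂ z * (PY s₂ W a₁ z - PX s₁ W a₂ z) ^ 2) :=
    (int_ct c₁ (tt_sq (tt_add (tt_QX h₁ hW h1) (tt_QY h₂ hW h2)))).add
      (int_ct c₂ (tt_sq (tt_sub (tt_PY h₂ hW h1) (tt_PX h₁ hW h2))))
  have iw : Integrable (fun z => w z * (a₁ z ^ 2 + a₂ z ^ 2)) :=
    int_ct hw (tt_add (tt_sq h1) (tt_sq h2))
  have hpt : ∀ z, o₁ z * (QX s₁ W a₁ z + QY s₂ W a₂ z) ^ 2
      + o₂ z * (PY s₂ W a₁ z - PX s₁ W a₂ z) ^ 2 ≤
      (2 * C₂) * ((QXv s₁ v₁ W a₁ z + QYv s₂ v₂ W a₂ z) ^ 2 +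
        1 * (PYv s₂ v₂ W a₁ z - PXv s₁ v₁ W a₂ z) ^ 2) + (8 * C₂) * (a₁ z ^ 2 + a₂ z ^ 2) := by
    intro z
    have e1 := sq_pot (P := QXv s₁ v₁ W a₁ z + QYv s₂ v₂ W a₂ z)
      (p := QX s₁ W a₁ z + QY s₂ W a₂ z) (x := a₁ z) (y := a₂ z) (p₁ z).1 (p₁ z).2
      (by unfold QXv QYv; ring) (b₁ z.1) (b₂ z.2)
    have e2 := sq_pot (P := PYv s₂ v₂ W a₁ z - PXv s₁ v₁ W a₂ z)
      (p := PY s₂ W a₁ z - PX s₁ W a₂ z) (x := a₁ z) (y := -a₂ z) (u := v₂ z.2) (v := v₁ z.1)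
      (p₂ z).1 (p₂ z).2 (by unfold PXv PYv; ring) (b₂ z.2) (b₁ z.1)
    rw [neg_sq] at e2
    linarith
  have iR : Integrable (fun z => (QXv s₁ v₁ W a₁ z + QYv s₂ v₂ W a₂ z) ^ 2 +
        1 * (PYv s₂ v₂ W a₁ z - PXv s₁ v₁ W a₂ z) ^ 2) := iA.add (iB.const_mul 1)
  have hint := integral_mono i0 ((iR.const_mul (2 * C₂)).add (ig.const_mul (8 * C₂))) hpt
  rw [integral_add' (iR.const_mul _) (ig.const_mul _), integral_const_mul, integral_const_mul]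
    at hint
  obtain ⟨R, hR⟩ : ∃ R : ℝ, R = ∫ z, ((QXv s₁ v₁ W a₁ z + QYv s₂ v₂ W a₂ z) ^ 2 +
        1 * (PYv s₂ v₂ W a₁ z - PXv s₁ v₁ W a₂ z) ^ 2) := ⟨_, rfl⟩
  have hR0 : 0 ≤ R := by
    rw [hR]
    exact integral_nonneg fun z => by positivity
  rw [← hR] at hint ⊢
  have hL : ∫ z, (w z / (2 * C₂ + 1)) * (a₁ z ^ 2 + a₂ z ^ 2) =
      (∫ z, w z * (a₁ z ^ 2 + a₂ z ^ 2)) / (2 * C₂ + 1) := by
    rw [← integral_div]
    congr 1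
    funext z
    ring
  rw [hL, div_le_iff₀ (by linarith)]
  linarith

/-- **RowEST** from the estimate with localised gains. -/
theorem rowEST_h (h : RowESTh) : R2.H269.RowEST := by
  intro n hn
  obtain ⟨σ, a, b, ν₀, h1, h2, h3, -, h4, h⟩ := h n hn
  refine ⟨σ, a, b, ν₀, h1, h2, h3, h4, fun ν hν => ?_⟩
  obtain ⟨C₂, g₀, hC₂, hg₀, h⟩ := h ν hν
  obtain ⟨K, ε, c, C, η, R₀, h5, h6, h7, h8, h⟩ := h (8 * C₂) (by linarith)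
  have hD : (0 : ℝ) < 2 * C₂ + 1 := by linarith
  have hD1 : c / (2 * C₂ + 1) ≤ c := div_le_self h6.le (by linarith)
  refine ⟨K, min ε 1, c / (2 * C₂ + 1), C, η, R₀, lt_min h5 one_pos, by positivity, h7, h8,
    fun s₁ s₂ v₁ v₂ hI R kap Gs a1 a2 a3 a4 a5 a6 a7 a8 => ?_⟩
  have hIg : Ivg K ε s₁ s₂ :=
    ⟨hI.sm₁, hI.sm₂, hI.sy₁, hI.sy₂,
      fun i j l hl x => (hI.cl₁ i j l hl x).trans (min_le_left _ _),
      fun i j l hl x => (hI.cl₂ i j l hl x).trans (min_le_left _ _),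
      fun x hx => ⟨(hI.of x hx).1, (hI.of x hx).2.1⟩, fun x hx => (hI.eq x hx).1⟩
  have hb : ∀ {v : V n → ℝ}, Cl K (min ε 1) v → ∀ x, |v x| ≤ 1 := by
    intro v hv x
    have := hv 0 (Nat.zero_le _) x
    rw [norm_iteratedFDeriv_zero, Real.norm_eq_abs] at this
    exact this.trans (min_le_right _ _)
  obtain ⟨W, w, hE⟩ := h s₁ s₂ hIg R kap Gs a1 a2 a3 a4 a5 a6 a7 fun y hy hk =>
    (a8 y hy hk).1
  obtain ⟨o₁, o₂, c₁, c₂, p₁, p₂, est⟩ := hE.est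
  obtain ⟨B, -, hWt⟩ := hE.wt
  have hR0 : (0 : ℝ) ≤ R := by linarith
  have hmul : ∀ {x y : ℝ}, 0 ≤ y → c * y ≤ x → c / (2 * C₂ + 1) * y ≤ x / (2 * C₂ + 1) := by
    intro x y _ hxy
    rw [div_mul_eq_mul_div]
    exact div_le_div_of_nonneg_right hxy hD.le
  refine ⟨W, fun z => w z / (2 * C₂ + 1), hE.wt, hE.wc.div_const _, fun z => div_pos (hE.w0 z) hD,
    fun x hx y hy hxy => ?_, hE.W2, fun x hx y hy => ?_, fun x hx y hy hxy hk => ?_,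
    fun x hx y hy hxy => ?_, 1, one_pos, ?_⟩
  · refine le_trans ?_ (hE.W1 x hx y hy hxy)
    have : c / (2 * C₂ + 1) * ky n σ R kap Gs x ^ 2 * ‖x - y‖ ^ 2 ≤
        c * ky n σ R kap Gs x ^ 2 * ‖x - y‖ ^ 2 := by
      rw [mul_assoc, mul_assoc]
      exact mul_le_mul_of_nonneg_right hD1 (by positivity)
    linarith
  · obtain ⟨e1, e2⟩ := hE.W3 x hx y hy
    have : c / (2 * C₂ + 1) * R ≤ c * R := mul_le_mul_of_nonneg_right hD1 hR0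
    exact ⟨by linarith, by linarith⟩
  · have := hE.w1 x hx y hy hxy hk
    rw [mul_assoc, mul_assoc] at this ⊢
    exact hmul (by positivity) this
  · have := hE.w2 x hx y hy hxy
    rw [mul_assoc, mul_assoc] at this ⊢
    exact hmul (by positivity) this
  · exact estPh_of hI.sm₁ hI.sm₂ hI.sv₁ hI.sv₂ (hb hI.cv₁) (hb hI.cv₂) hWt.sm hE.wc c₁ c₂ p₁ p₂ hC₂
      hg₀.le est

end Vale.Agent.P088.S4
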