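import Vale.Agent.P088.R2.H437.ESTN
import Vale.Agent.P088.R2.H561.S4.Ad3

/-!
# P088, stage 4: gradient first order terms as a shift of the weight

`e^{-W} (L + 2 s ∇φ · ∇) e^W = e^{-W'} L e^{W'} - (L φ + |∇φ|²)`, `W = W' - φ(x) - φ(y)`.
-/

open MeasureTheory Set Filter
open scoped ContDiff Matrix Topology

noncomputable section

namespace Vale.Agent.P088.S4.H561

open Vale.Agent.P088.LR
open Vale.Agent.P088.HY (VV)
open Vale.Agent.P088.HY.T3 (Ldv)
open Vale.Agent.P088.R2.H269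
open Vale.Agent.P088.S4.H437

variable {n m : ℕ} {s : MF n} {φ : V n → ℝ} {W : VV n → ℝ}

/-- The shifted weight. -/
def shW (φ : V n → ℝ) (W : VV n → ℝ) : VV n → ℝ := fun z => W z - φ z.1 - φ z.2

/-- `L φ + |∇φ|²` -/
def qq (s : MF n) (φ : V n → ℝ) (x : V n) : ℝ :=
  Ldv s φ x + ∑ i, ∑ j, s x i j * (pd i φ x * pd j φ x)

/-- The matrices `2 s ∇φ + β`. -/
def cB (s : MF n) (φ : V n → ℝ) (β : Fin n → V n → Matrix (Fin m) (Fin m) ℝ) :
    Fin n → V n → Matrix (Fin m) (Fin m) ℝ := fun i x =>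
  (2 * ∑ j, s x i j * pd j φ x) • (1 : Matrix (Fin m) (Fin m) ℝ) + β i x

theorem cB_ap (β : Fin n → V n → Matrix (Fin m) (Fin m) ℝ) (i : Fin n) (x : V n) (a b : Fin m) :
    cB s φ β i x a b = (if a = b then 2 * ∑ j, s x i j * pd j φ x else 0) + β i x a b := by
  unfold cB
  rw [Matrix.add_apply, Matrix.smul_apply, Matrix.one_apply, smul_eq_mul]
  split_ifs <;> ring

theorem dx_sb {f g : VV n → ℝ} {z : VV n} (hf : DifferentiableAt ℝ f z)
    (hg : DifferentiableAt ℝ g z) (i : Fin n) :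
    HY.dx i (fun w => f w - g w) z = HY.dx i f z - HY.dx i g z := by
  unfold HY.dx
  rw [fderiv_fun_sub hf hg]
  rfl

theorem dy_sb {f g : VV n → ℝ} {z : VV n} (hf : DifferentiableAt ℝ f z)
    (hg : DifferentiableAt ℝ g z) (i : Fin n) :
    HY.dy i (fun w => f w - g w) z = HY.dy i f z - HY.dy i g z := by
  unfold HY.dy
  rw [fderiv_fun_sub hf hg]
  rfl

theorem shW_sm (hW : ContDiff ℝ ∞ W) (hφ : ContDiff ℝ ∞ φ) : ContDiff ℝ ∞ (shW φ W) :=
  (hW.sub (hφ.comp contDiff_fst)).sub (hφ.comp contDiff_snd)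

theorem dx_shW (hW : ContDiff ℝ ∞ W) (hφ : ContDiff ℝ ∞ φ) (i : Fin n) (z : VV n) :
    HY.dx i (shW φ W) z = HY.dx i W z - pd i φ z.1 := by
  have h1 : DifferentiableAt ℝ W z := hW.differentiable (by simp) z
  have h2 : DifferentiableAt ℝ (shW φ W) z := (shW_sm hW hφ).differentiable (by simp) z
  rw [HY.QM.dx_eq h2, HY.QM.dx_eq h1]
  have e1 : DifferentiableAt ℝ (fun x => W (x, z.2)) z.1 :=
    (hW.comp (contDiff_id.prodMk contDiff_const)).differentiable (by simp) z.1
  have e2 : DifferentiableAt ℝ φ z.1 := hφ.differentiable (by simp) z.1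
  show fderiv ℝ (fun x => W (x, z.2) - φ x - φ z.2) z.1 (Pi.single i 1) =
    fderiv ℝ (fun x => W (x, z.2)) z.1 (Pi.single i 1) - fderiv ℝ φ z.1 (Pi.single i 1)
  rw [fderiv_sub_const, fderiv_fun_sub e1 e2]
  rfl

theorem DX_shW (hs : SmM s) (hW : ContDiff ℝ ∞ W) (hφ : ContDiff ℝ ∞ φ) (z : VV n) :
    DX s (shW φ W) z = DX s W z - Ldv s φ z.1 := by
  have sdW : ∀ j, ContDiff ℝ ∞ (HY.dx j W) := fun j => S.dx hW j
  have h1 : ∀ i j, HY.dx i (fun w : VV n => s w.1 i j * HY.dx j (shW φ W) w) z =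
      HY.dx i (fun w : VV n => s w.1 i j * HY.dx j W w) z -
        pd i (fun x => s x i j * pd j φ x) z.1 := by
    intro i j
    have e0 : (fun w : VV n => s w.1 i j * HY.dx j (shW φ W) w) = fun w : VV n =>
        s w.1 i j * HY.dx j W w - s w.1 i j * pd j φ w.1 := by
      funext w
      rw [dx_shW hW hφ]
      ring
    have sA : ContDiff ℝ ∞ (fun w : VV n => s w.1 i j * HY.dx j W w) :=
      ((hs i j).comp contDiff_fst).mul (sdW j)
    have sP : ContDiff ℝ ∞ (fun x : V n => s x i j * pd j φ x) := (hs i j).mul (s_pd hφ j)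
    have sB : ContDiff ℝ ∞ (fun w : VV n => s w.1 i j * pd j φ w.1) := sP.comp contDiff_fst
    rw [e0]
    have e1 : HY.dx i (fun w : VV n => s w.1 i j * pd j φ w.1) z =
        pd i (fun x => s x i j * pd j φ x) z.1 := by
      rw [HY.QM.dx_eq (sB.differentiable (by simp) z)]
    rw [← e1]
    exact dx_sb (sA.differentiable (by simp) z) (sB.differentiable (by simp) z) i
  unfold DX Ldv
  rw [← Finset.sum_sub_distrib]
  refine Finset.sum_congr rfl fun i _ => ?_
  rw [HY.H437.Kel.pd_sum (f := fun j x => s x i j * pd j φ x) fun j _ =>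
    ((hs i j).mul (s_pd hφ j)).differentiable (by simp) _, ← Finset.sum_sub_distrib]
  exact Finset.sum_congr rfl fun j _ => h1 i j

theorem GX_sh1 (hW : ContDiff ℝ ∞ W) (hφ : ContDiff ℝ ∞ φ) (f : VV n → ℝ) (z : VV n) :
    GX s (shW φ W) f z = GX s W f z - ∑ i, ∑ j, s z.1 i j * (pd i φ z.1 * HY.dx j f z) := by
  unfold GX
  rw [← Finset.sum_sub_distrib]
  refine Finset.sum_congr rfl fun i _ => ?_
  rw [← Finset.sum_sub_distrib]
  refine Finset.sum_congr rfl fun j _ => ?_
  rw [dx_shW hW hφ]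
  ring

/-- `∑ s_ij ∂_i φ u_j` -/
def lx (s : MF n) (φ : V n → ℝ) (x : V n) (u : Fin n → ℝ) : ℝ :=
  ∑ i, ∑ j, s x i j * (pd i φ x * u j)

theorem lx_sub (x : V n) (u v : Fin n → ℝ) :
    lx s φ x (fun j => u j - v j) = lx s φ x u - lx s φ x v := by
  unfold lx
  rw [← Finset.sum_sub_distrib]
  refine Finset.sum_congr rfl fun i _ => ?_
  rw [← Finset.sum_sub_distrib]
  exact Finset.sum_congr rfl fun j _ => by ring

theorem lx_comm (sy : ∀ x, (s x).IsSymm) (x : V n) (u : Fin n → ℝ) :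
    ∑ i, ∑ j, s x i j * (u i * pd j φ x) = lx s φ x u := by
  unfold lx
  rw [Finset.sum_comm]
  refine Finset.sum_congr rfl fun i _ => Finset.sum_congr rfl fun j _ => ?_
  rw [(sy x).apply j i]
  ring

theorem GX_sh2 (sy : ∀ x, (s x).IsSymm) (hW : ContDiff ℝ ∞ W) (hφ : ContDiff ℝ ∞ φ) (z : VV n) :
    GX s (shW φ W) (shW φ W) z = GX s W W z - 2 * lx s φ z.1 (fun j => HY.dx j W z) +
      lx s φ z.1 (fun j => pd j φ z.1) := by
  have h1 : ∀ i j, s z.1 i j * (HY.dx i (shW φ W) z * HY.dx j (shW φ W) z) =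
      s z.1 i j * (HY.dx i W z * HY.dx j W z) - s z.1 i j * (pd i φ z.1 * HY.dx j W z) -
        s z.1 i j * (HY.dx i W z * pd j φ z.1) + s z.1 i j * (pd i φ z.1 * pd j φ z.1) := by
    intro i j
    rw [dx_shW hW hφ, dx_shW hW hφ]
    ring
  unfold GX
  simp only [h1, Finset.sum_add_distrib, Finset.sum_sub_distrib]
  rw [lx_comm sy z.1 fun i => HY.dx i W z]
  unfold lx
  ring

/-- The sum of the gradient part. -/
theorem cx_sum (sy : ∀ x, (s x).IsSymm) (x : V n) (u : Fin n → ℝ) :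
    ∑ i, (2 * ∑ j, s x i j * pd j φ x) * u i = 2 * lx s φ x u := by
  rw [← lx_comm sy x u, Finset.mul_sum]
  refine Finset.sum_congr rfl fun i _ => ?_
  rw [mul_assoc, Finset.sum_mul]
  congr 1
  exact Finset.sum_congr rfl fun j _ => by ring

theorem PXN_sh (hs : SmM s) (sy : ∀ x, (s x).IsSymm) (hW : ContDiff ℝ ∞ W) (hφ : ContDiff ℝ ∞ φ)
    (β : Fin n → V n → Matrix (Fin m) (Fin m) ℝ) (f : Fin m → VV n → ℝ) (a : Fin m) (z : VV n) :
    PXN s (cB s φ β) (shW φ W) f a z = PX s W (f a) z - qq s φ z.1 * f a z +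
      ∑ i, ∑ b, β i z.1 a b * (HY.dx i (f b) z + HY.dx i W z * f b z) -
      ∑ i, ∑ b, (β i z.1 a b * pd i φ z.1) * f b z := by
  have h1 : ∑ i, ∑ b, cB s φ β i z.1 a b * (HY.dx i (f b) z + HY.dx i (shW φ W) z * f b z) =
      2 * lx s φ z.1 (fun i => HY.dx i (f a) z + HY.dx i W z * f a z - pd i φ z.1 * f a z) +
      (∑ i, ∑ b, β i z.1 a b * (HY.dx i (f b) z + HY.dx i W z * f b z) -
      ∑ i, ∑ b, (β i z.1 a b * pd i φ z.1) * f b z) := by
    rw [← cx_sum sy, ← Finset.sum_sub_distrib, ← Finset.sum_add_distrib]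
    refine Finset.sum_congr rfl fun i _ => ?_
    rw [← Finset.sum_sub_distrib]
    have h2 : ∀ b, cB s φ β i z.1 a b * (HY.dx i (f b) z + HY.dx i (shW φ W) z * f b z) =
        (if a = b then (2 * ∑ j, s z.1 i j * pd j φ z.1) *
          (HY.dx i (f b) z + HY.dx i W z * f b z - pd i φ z.1 * f b z) else 0) +
        (β i z.1 a b * (HY.dx i (f b) z + HY.dx i W z * f b z) -
          (β i z.1 a b * pd i φ z.1) * f b z) := by
      intro b
      rw [dx_shW hW hφ, cB_ap]
      split_ifs <;> ring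
    rw [Finset.sum_congr rfl fun b _ => h2 b, Finset.sum_add_distrib, Finset.sum_ite_eq]
    simp only [Finset.mem_univ, if_true]
  unfold PXN
  rw [h1]
  unfold PX qq
  rw [DX_shW hs hW hφ, GX_sh1 hW hφ, GX_sh2 sy hW hφ]
  have h3 : lx s φ z.1 (fun i => HY.dx i (f a) z + HY.dx i W z * f a z - pd i φ z.1 * f a z) =
      lx s φ z.1 (fun i => HY.dx i (f a) z) + lx s φ z.1 (fun i => HY.dx i W z) * f a z -
        lx s φ z.1 (fun i => pd i φ z.1) * f a z := by
    unfold lx
    simp only [Finset.sum_mul]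
    rw [← Finset.sum_add_distrib, ← Finset.sum_sub_distrib]
    refine Finset.sum_congr rfl fun i _ => ?_
    rw [← Finset.sum_add_distrib, ← Finset.sum_sub_distrib]
    exact Finset.sum_congr rfl fun j _ => by ring
  rw [h3]
  unfold lx
  ring

theorem QXN_sh (hs : SmM s) (sy : ∀ x, (s x).IsSymm) (hW : ContDiff ℝ ∞ W) (hφ : ContDiff ℝ ∞ φ)
    {β : Fin n → V n → Matrix (Fin m) (Fin m) ℝ} (hβ : ∀ i a b, ContDiff ℝ ∞ (fun x => β i x a b))
    (f : Fin m → VV n → ℝ) (a : Fin m) (z : VV n) :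
    QXN s (cB s φ β) (shW φ W) f a z = QX s W (f a) z - qq s φ z.1 * f a z -
      ∑ i, ∑ b, β i z.1 b a * (HY.dx i (f b) z - HY.dx i W z * f b z) -
      ∑ i, ∑ b, (β i z.1 b a * pd i φ z.1 + pd i (fun x => β i x b a) z.1) * f b z := by
  have hd : ∀ i b, pd i (fun x => cB s φ β i x b a) z.1 =
      (if a = b then 2 * pd i (fun x => ∑ j, s x i j * pd j φ x) z.1 else 0) +
        pd i (fun x => β i x b a) z.1 := by
    intro i b
    have c0 : ContDiff ℝ ∞ (fun x => ∑ j, s x i j * pd j φ x) :=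
      ContDiff.sum fun j _ => (hs i j).mul (s_pd hφ j)
    by_cases hab : a = b
    · subst hab
      have e1 : (fun x => cB s φ β i x a a) = fun x =>
          2 * (∑ j, s x i j * pd j φ x) + β i x a a := by
        funext x
        rw [cB_ap, if_pos rfl]
      rw [e1, if_pos rfl]
      unfold pd at c0 ⊢
      rw [fderiv_fun_add ((c0.differentiable (by simp) _).const_mul 2)
        ((hβ i a a).differentiable (by simp) _), fderiv_const_mul (c0.differentiable (by simp) _)]
      rfl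
    · have e1 : (fun x => cB s φ β i x b a) = fun x => β i x b a := by
        funext x
        rw [cB_ap, if_neg (Ne.symm hab), zero_add]
      rw [e1, if_neg hab, zero_add]
  have h1 : ∑ i, ∑ b, (cB s φ β i z.1 b a * (HY.dx i (f b) z - HY.dx i (shW φ W) z * f b z) +
      pd i (fun x => cB s φ β i x b a) z.1 * f b z) =
      2 * lx s φ z.1 (fun i => HY.dx i (f a) z - HY.dx i W z * f a z + pd i φ z.1 * f a z) +
      2 * Ldv s φ z.1 * f a z +
      (∑ i, ∑ b, β i z.1 b a * (HY.dx i (f b) z - HY.dx i W z * f b z) +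
      ∑ i, ∑ b, (β i z.1 b a * pd i φ z.1 + pd i (fun x => β i x b a) z.1) * f b z) := by
    have e3 : 2 * Ldv s φ z.1 * f a z = ∑ i, 2 * pd i (fun x => ∑ j, s x i j * pd j φ x) z.1 *
        f a z := by
      unfold Ldv
      rw [Finset.mul_sum, Finset.sum_mul]
    rw [e3, ← cx_sum sy, ← Finset.sum_add_distrib, ← Finset.sum_add_distrib,
      ← Finset.sum_add_distrib]
    refine Finset.sum_congr rfl fun i _ => ?_
    rw [← Finset.sum_add_distrib]
    have h2 : ∀ b, cB s φ β i z.1 b a * (HY.dx i (f b) z - HY.dx i (shW φ W) z * f b z) +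
        pd i (fun x => cB s φ β i x b a) z.1 * f b z =
        (if a = b then (2 * ∑ j, s z.1 i j * pd j φ z.1) *
          (HY.dx i (f b) z - HY.dx i W z * f b z + pd i φ z.1 * f b z) +
          2 * pd i (fun x => ∑ j, s x i j * pd j φ x) z.1 * f b z else 0) +
        (β i z.1 b a * (HY.dx i (f b) z - HY.dx i W z * f b z) +
          (β i z.1 b a * pd i φ z.1 + pd i (fun x => β i x b a) z.1) * f b z) := by
      intro b
      rw [dx_shW hW hφ, cB_ap, hd]
      by_cases hab : a = b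
      · rw [if_pos hab, if_pos hab.symm, if_pos hab]
        ring
      · rw [if_neg hab, if_neg (Ne.symm hab), if_neg hab]
        ring
    rw [Finset.sum_congr rfl fun b _ => h2 b, Finset.sum_add_distrib, Finset.sum_ite_eq]
    simp only [Finset.mem_univ, if_true]
  unfold QXN
  rw [h1]
  unfold QX qq
  rw [DX_shW hs hW hφ, GX_sh1 hW hφ, GX_sh2 sy hW hφ]
  have h3 : lx s φ z.1 (fun i => HY.dx i (f a) z - HY.dx i W z * f a z + pd i φ z.1 * f a z) =
      lx s φ z.1 (fun i => HY.dx i (f a) z) - lx s φ z.1 (fun i => HY.dx i W z) * f a z +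
        lx s φ z.1 (fun i => pd i φ z.1) * f a z := by
    unfold lx
    simp only [Finset.sum_mul]
    rw [← Finset.sum_sub_distrib, ← Finset.sum_add_distrib]
    refine Finset.sum_congr rfl fun i _ => ?_
    rw [← Finset.sum_sub_distrib, ← Finset.sum_add_distrib]
    exact Finset.sum_congr rfl fun j _ => by ring
  rw [h3]
  unfold lx
  ring

theorem dy_shW (hW : ContDiff ℝ ∞ W) (hφ : ContDiff ℝ ∞ φ) (i : Fin n) (z : VV n) :
    HY.dy i (shW φ W) z = HY.dy i W z - pd i φ z.2 := by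
  have h1 : DifferentiableAt ℝ W z := hW.differentiable (by simp) z
  have h2 : DifferentiableAt ℝ (shW φ W) z := (shW_sm hW hφ).differentiable (by simp) z
  rw [HY.QM.dy_eq h2, HY.QM.dy_eq h1]
  have e1 : DifferentiableAt ℝ (fun x => W (z.1, x)) z.2 :=
    (hW.comp (contDiff_const.prodMk contDiff_id)).differentiable (by simp) z.2
  have e2 : DifferentiableAt ℝ φ z.2 := hφ.differentiable (by simp) z.2
  show fderiv ℝ (fun x => W (z.1, x) - φ z.1 - φ x) z.2 (Pi.single i 1) =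
    fderiv ℝ (fun x => W (z.1, x)) z.2 (Pi.single i 1) - fderiv ℝ φ z.2 (Pi.single i 1)
  rw [fderiv_fun_sub (e1.sub_const _) e2, fderiv_sub_const]
  rfl

theorem DY_shW (hs : SmM s) (hW : ContDiff ℝ ∞ W) (hφ : ContDiff ℝ ∞ φ) (z : VV n) :
    DY s (shW φ W) z = DY s W z - Ldv s φ z.2 := by
  have sdW : ∀ j, ContDiff ℝ ∞ (HY.dy j W) := fun j => S.dy hW j
  have h1 : ∀ i j, HY.dy i (fun w : VV n => s w.2 i j * HY.dy j (shW φ W) w) z =
      HY.dy i (fun w : VV n => s w.2 i j * HY.dy j W w) z -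
        pd i (fun x => s x i j * pd j φ x) z.2 := by
    intro i j
    have e0 : (fun w : VV n => s w.2 i j * HY.dy j (shW φ W) w) = fun w : VV n =>
        s w.2 i j * HY.dy j W w - s w.2 i j * pd j φ w.2 := by
      funext w
      rw [dy_shW hW hφ]
      ring
    have sA : ContDiff ℝ ∞ (fun w : VV n => s w.2 i j * HY.dy j W w) :=
      ((hs i j).comp contDiff_snd).mul (sdW j)
    have sP : ContDiff ℝ ∞ (fun x : V n => s x i j * pd j φ x) := (hs i j).mul (s_pd hφ j)
    have sB : ContDiff ℝ ∞ (fun w : VV n => s w.2 i j * pd j φ w.2) := sP.comp contDiff_snd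
    rw [e0]
    have e1 : HY.dy i (fun w : VV n => s w.2 i j * pd j φ w.2) z =
        pd i (fun x => s x i j * pd j φ x) z.2 := by
      rw [HY.QM.dy_eq (sB.differentiable (by simp) z)]
    rw [← e1]
    exact dy_sb (sA.differentiable (by simp) z) (sB.differentiable (by simp) z) i
  unfold DY Ldv
  rw [← Finset.sum_sub_distrib]
  refine Finset.sum_congr rfl fun i _ => ?_
  rw [HY.H437.Kel.pd_sum (f := fun j x => s x i j * pd j φ x) fun j _ =>
    ((hs i j).mul (s_pd hφ j)).differentiable (by simp) _, ← Finset.sum_sub_distrib]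
  exact Finset.sum_congr rfl fun j _ => h1 i j

theorem GY_sh1 (hW : ContDiff ℝ ∞ W) (hφ : ContDiff ℝ ∞ φ) (f : VV n → ℝ) (z : VV n) :
    GY s (shW φ W) f z = GY s W f z - ∑ i, ∑ j, s z.2 i j * (pd i φ z.2 * HY.dy j f z) := by
  unfold GY
  rw [← Finset.sum_sub_distrib]
  refine Finset.sum_congr rfl fun i _ => ?_
  rw [← Finset.sum_sub_distrib]
  refine Finset.sum_congr rfl fun j _ => ?_
  rw [dy_shW hW hφ]
  ring

theorem GY_sh2 (sy : ∀ x, (s x).IsSymm) (hW : ContDiff ℝ ∞ W) (hφ : ContDiff ℝ ∞ φ) (z : VV n) :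
    GY s (shW φ W) (shW φ W) z = GY s W W z - 2 * lx s φ z.2 (fun j => HY.dy j W z) +
      lx s φ z.2 (fun j => pd j φ z.2) := by
  have h1 : ∀ i j, s z.2 i j * (HY.dy i (shW φ W) z * HY.dy j (shW φ W) z) =
      s z.2 i j * (HY.dy i W z * HY.dy j W z) - s z.2 i j * (pd i φ z.2 * HY.dy j W z) -
        s z.2 i j * (HY.dy i W z * pd j φ z.2) + s z.2 i j * (pd i φ z.2 * pd j φ z.2) := by
    intro i j
    rw [dy_shW hW hφ, dy_shW hW hφ]
    ring
  unfold GY
  simp only [h1, Finset.sum_add_distrib, Finset.sum_sub_distrib]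
  rw [lx_comm sy z.2 fun i => HY.dy i W z]
  unfold lx
  ring

theorem PYN_sh (hs : SmM s) (sy : ∀ x, (s x).IsSymm) (hW : ContDiff ℝ ∞ W) (hφ : ContDiff ℝ ∞ φ)
    (β : Fin n → V n → Matrix (Fin m) (Fin m) ℝ) (f : Fin m → VV n → ℝ) (a : Fin m) (z : VV n) :
    PYN s (cB s φ β) (shW φ W) f a z = PY s W (f a) z - qq s φ z.2 * f a z +
      ∑ i, ∑ b, β i z.2 a b * (HY.dy i (f b) z + HY.dy i W z * f b z) -
      ∑ i, ∑ b, (β i z.2 a b * pd i φ z.2) * f b z := by
  have h1 : ∑ i, ∑ b, cB s φ β i z.2 a b * (HY.dy i (f b) z + HY.dy i (shW φ W) z * f b z) =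
      2 * lx s φ z.2 (fun i => HY.dy i (f a) z + HY.dy i W z * f a z - pd i φ z.2 * f a z) +
      (∑ i, ∑ b, β i z.2 a b * (HY.dy i (f b) z + HY.dy i W z * f b z) -
      ∑ i, ∑ b, (β i z.2 a b * pd i φ z.2) * f b z) := by
    rw [← cx_sum sy, ← Finset.sum_sub_distrib, ← Finset.sum_add_distrib]
    refine Finset.sum_congr rfl fun i _ => ?_
    rw [← Finset.sum_sub_distrib]
    have h2 : ∀ b, cB s φ β i z.2 a b * (HY.dy i (f b) z + HY.dy i (shW φ W) z * f b z) =
        (if a = b then (2 * ∑ j, s z.2 i j * pd j φ z.2) *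
          (HY.dy i (f b) z + HY.dy i W z * f b z - pd i φ z.2 * f b z) else 0) +
        (β i z.2 a b * (HY.dy i (f b) z + HY.dy i W z * f b z) -
          (β i z.2 a b * pd i φ z.2) * f b z) := by
      intro b
      rw [dy_shW hW hφ, cB_ap]
      split_ifs <;> ring
    rw [Finset.sum_congr rfl fun b _ => h2 b, Finset.sum_add_distrib, Finset.sum_ite_eq]
    simp only [Finset.mem_univ, if_true]
  unfold PYN
  rw [h1]
  unfold PY qq
  rw [DY_shW hs hW hφ, GY_sh1 hW hφ, GY_sh2 sy hW hφ]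
  have h3 : lx s φ z.2 (fun i => HY.dy i (f a) z + HY.dy i W z * f a z - pd i φ z.2 * f a z) =
      lx s φ z.2 (fun i => HY.dy i (f a) z) + lx s φ z.2 (fun i => HY.dy i W z) * f a z -
        lx s φ z.2 (fun i => pd i φ z.2) * f a z := by
    unfold lx
    simp only [Finset.sum_mul]
    rw [← Finset.sum_add_distrib, ← Finset.sum_sub_distrib]
    refine Finset.sum_congr rfl fun i _ => ?_
    rw [← Finset.sum_add_distrib, ← Finset.sum_sub_distrib]
    exact Finset.sum_congr rfl fun j _ => by ring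
  rw [h3]
  unfold lx
  ring

theorem QYN_sh (hs : SmM s) (sy : ∀ x, (s x).IsSymm) (hW : ContDiff ℝ ∞ W) (hφ : ContDiff ℝ ∞ φ)
    {β : Fin n → V n → Matrix (Fin m) (Fin m) ℝ} (hβ : ∀ i a b, ContDiff ℝ ∞ (fun x => β i x a b))
    (f : Fin m → VV n → ℝ) (a : Fin m) (z : VV n) :
    QYN s (cB s φ β) (shW φ W) f a z = QY s W (f a) z - qq s φ z.2 * f a z -
      ∑ i, ∑ b, β i z.2 b a * (HY.dy i (f b) z - HY.dy i W z * f b z) -
      ∑ i, ∑ b, (β i z.2 b a * pd i φ z.2 + pd i (fun x => β i x b a) z.2) * f b z := by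
  have hd : ∀ i b, pd i (fun x => cB s φ β i x b a) z.2 =
      (if a = b then 2 * pd i (fun x => ∑ j, s x i j * pd j φ x) z.2 else 0) +
        pd i (fun x => β i x b a) z.2 := by
    intro i b
    have c0 : ContDiff ℝ ∞ (fun x => ∑ j, s x i j * pd j φ x) :=
      ContDiff.sum fun j _ => (hs i j).mul (s_pd hφ j)
    by_cases hab : a = b
    · subst hab
      have e1 : (fun x => cB s φ β i x a a) = fun x =>
          2 * (∑ j, s x i j * pd j φ x) + β i x a a := by
        funext x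
        rw [cB_ap, if_pos rfl]
      rw [e1, if_pos rfl]
      unfold pd at c0 ⊢
      rw [fderiv_fun_add ((c0.differentiable (by simp) _).const_mul 2)
        ((hβ i a a).differentiable (by simp) _), fderiv_const_mul (c0.differentiable (by simp) _)]
      rfl
    · have e1 : (fun x => cB s φ β i x b a) = fun x => β i x b a := by
        funext x
        rw [cB_ap, if_neg (Ne.symm hab), zero_add]
      rw [e1, if_neg hab, zero_add]
  have h1 : ∑ i, ∑ b, (cB s φ β i z.2 b a * (HY.dy i (f b) z - HY.dy i (shW φ W) z * f b z) +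
      pd i (fun x => cB s φ β i x b a) z.2 * f b z) =
      2 * lx s φ z.2 (fun i => HY.dy i (f a) z - HY.dy i W z * f a z + pd i φ z.2 * f a z) +
      2 * Ldv s φ z.2 * f a z +
      (∑ i, ∑ b, β i z.2 b a * (HY.dy i (f b) z - HY.dy i W z * f b z) +
      ∑ i, ∑ b, (β i z.2 b a * pd i φ z.2 + pd i (fun x => β i x b a) z.2) * f b z) := by
    have e3 : 2 * Ldv s φ z.2 * f a z = ∑ i, 2 * pd i (fun x => ∑ j, s x i j * pd j φ x) z.2 *
        f a z := by
      unfold Ldv
      rw [Finset.mul_sum, Finset.sum_mul]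
    rw [e3, ← cx_sum sy, ← Finset.sum_add_distrib, ← Finset.sum_add_distrib,
      ← Finset.sum_add_distrib]
    refine Finset.sum_congr rfl fun i _ => ?_
    rw [← Finset.sum_add_distrib]
    have h2 : ∀ b, cB s φ β i z.2 b a * (HY.dy i (f b) z - HY.dy i (shW φ W) z * f b z) +
        pd i (fun x => cB s φ β i x b a) z.2 * f b z =
        (if a = b then (2 * ∑ j, s z.2 i j * pd j φ z.2) *
          (HY.dy i (f b) z - HY.dy i W z * f b z + pd i φ z.2 * f b z) +
          2 * pd i (fun x => ∑ j, s x i j * pd j φ x) z.2 * f b z else 0) +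
        (β i z.2 b a * (HY.dy i (f b) z - HY.dy i W z * f b z) +
          (β i z.2 b a * pd i φ z.2 + pd i (fun x => β i x b a) z.2) * f b z) := by
      intro b
      rw [dy_shW hW hφ, cB_ap, hd]
      by_cases hab : a = b
      · rw [if_pos hab, if_pos hab.symm, if_pos hab]
        ring
      · rw [if_neg hab, if_neg (Ne.symm hab), if_neg hab]
        ring
    rw [Finset.sum_congr rfl fun b _ => h2 b, Finset.sum_add_distrib, Finset.sum_ite_eq]
    simp only [Finset.mem_univ, if_true]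
  unfold QYN
  rw [h1]
  unfold QY qq
  rw [DY_shW hs hW hφ, GY_sh1 hW hφ, GY_sh2 sy hW hφ]
  have h3 : lx s φ z.2 (fun i => HY.dy i (f a) z - HY.dy i W z * f a z + pd i φ z.2 * f a z) =
      lx s φ z.2 (fun i => HY.dy i (f a) z) - lx s φ z.2 (fun i => HY.dy i W z) * f a z +
        lx s φ z.2 (fun i => pd i φ z.2) * f a z := by
    unfold lx
    simp only [Finset.sum_mul]
    rw [← Finset.sum_sub_distrib, ← Finset.sum_add_distrib]
    refine Finset.sum_congr rfl fun i _ => ?_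
    rw [← Finset.sum_sub_distrib, ← Finset.sum_add_distrib]
    exact Finset.sum_congr rfl fun j _ => by ring
  rw [h3]
  unfold lx
  ring

end Vale.Agent.P088.S4.H561
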